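import Mathlib

/-!
Degree pieces of ideals in a polynomial ring and the exact sequence of a linear form.
-/

open MvPolynomial

namespace Vale.Agent.P200

variable {K : Type*} [Field K] {n : ℕ}

/-- The degree `d` forms. -/
noncomputable abbrev Vd (K : Type*) [Field K] (n d : ℕ) : Submodule K (MvPolynomial (Fin n) K) :=
  homogeneousSubmodule (Fin n) K d

/-- The degree `d` part of an ideal. -/
noncomputable def degPart (I : Ideal (MvPolynomial (Fin n) K)) (d : ℕ) :
    Submodule K (MvPolynomial (Fin n) K) :=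
  Vd K n d ⊓ I.restrictScalars K

/-- The Hilbert function of the quotient by `I`. -/
noncomputable def hilb (I : Ideal (MvPolynomial (Fin n) K)) (d : ℕ) : ℕ :=
  Module.finrank K (Vd K n d) - Module.finrank K (degPart I d)

/-- Homogeneous ideals. -/
def IsHom (I : Ideal (MvPolynomial (Fin n) K)) : Prop :=
  ∀ f ∈ I, ∀ d, homogeneousComponent d f ∈ I

lemma mem_degPart {I : Ideal (MvPolynomial (Fin n) K)} {d : ℕ} {f : MvPolynomial (Fin n) K} :
    f ∈ degPart I d ↔ f.IsHomogeneous d ∧ f ∈ I := Iff.rfl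

instance finite_Vd (d : ℕ) : Module.Finite K (Vd K n d) :=
  Module.Finite.iff_fg.2 (homogeneousSubmodule_fg (Fin n) K d)

lemma degPart_le (I : Ideal (MvPolynomial (Fin n) K)) (d : ℕ) : degPart I d ≤ Vd K n d :=
  inf_le_left

instance finite_degPart (I : Ideal (MvPolynomial (Fin n) K)) (d : ℕ) :
    Module.Finite K (degPart I d) :=
  Submodule.finiteDimensional_of_le (degPart_le I d)

lemma finrank_degPart_add (I : Ideal (MvPolynomial (Fin n) K)) (d : ℕ) :
    Module.finrank K (degPart I d) + hilb I d = Module.finrank K (Vd K n d) := by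
  have := Submodule.finrank_mono (degPart_le I d)
  unfold hilb; omega

lemma hilb_anti {I J : Ideal (MvPolynomial (Fin n) K)} (h : I ≤ J) (d : ℕ) :
    hilb J d ≤ hilb I d := by
  have h1 : degPart I d ≤ degPart J d := inf_le_inf_left _ (fun x hx => h hx)
  have := Submodule.finrank_mono h1
  have := finrank_degPart_add I d
  have := finrank_degPart_add J d
  omega

lemma degPart_top (d : ℕ) : degPart (⊤ : Ideal (MvPolynomial (Fin n) K)) d = Vd K n d := by
  ext f; simp [mem_degPart]

lemma hilb_top (d : ℕ) : hilb (⊤ : Ideal (MvPolynomial (Fin n) K)) d = 0 := by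
  rw [hilb, degPart_top, Nat.sub_self]

lemma isHom_top : IsHom (⊤ : Ideal (MvPolynomial (Fin n) K)) := fun _ _ _ => Submodule.mem_top

lemma comp_mul {e : ℕ} {g : MvPolynomial (Fin n) K} (hg : g.IsHomogeneous e)
    (f : MvPolynomial (Fin n) K) (d : ℕ) :
    homogeneousComponent (d + e) (f * g) = homogeneousComponent d f * g := by
  conv_lhs => rw [← sum_homogeneousComponent f, Finset.sum_mul, map_sum]
  rw [Finset.sum_eq_single d]
  · exact homogeneousComponent_eq_self ((homogeneousComponent_isHomogeneous d f).mul hg)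
  · intro i _ hi
    rw [homogeneousComponent_of_mem ((homogeneousComponent_isHomogeneous i f).mul hg)]
    rw [if_neg]; omega
  · intro hd
    rw [homogeneousComponent_eq_zero d f]
    · simp
    · simp only [Finset.mem_range] at hd; omega

lemma comp_mul_of_lt {e : ℕ} {g : MvPolynomial (Fin n) K} (hg : g.IsHomogeneous e)
    (f : MvPolynomial (Fin n) K) {d : ℕ} (hd : d < e) :
    homogeneousComponent d (f * g) = 0 := by
  rw [← sum_homogeneousComponent f, Finset.sum_mul, map_sum]
  refine Finset.sum_eq_zero fun i _ => ?_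
  rw [homogeneousComponent_of_mem ((homogeneousComponent_isHomogeneous i f).mul hg)]
  rw [if_neg]; omega

section graded

variable {m : ℕ} (φ : MvPolynomial (Fin n) K →ₐ[K] MvPolynomial (Fin m) K)

lemma isHomogeneous_map (hφ : ∀ i, (φ (X i)).IsHomogeneous 1) {f : MvPolynomial (Fin n) K}
    {d : ℕ} (hf : f.IsHomogeneous d) : (φ f).IsHomogeneous d := by
  have h : φ = aeval (fun i => φ (X i)) := (aeval_unique φ)
  rw [h]
  simpa using hf.aeval _ hφ

lemma comp_map (hφ : ∀ i, (φ (X i)).IsHomogeneous 1) (f : MvPolynomial (Fin n) K) (d : ℕ) :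
    homogeneousComponent d (φ f) = φ (homogeneousComponent d f) := by
  conv_lhs => rw [← sum_homogeneousComponent f, map_sum, map_sum]
  rw [Finset.sum_eq_single d]
  · exact homogeneousComponent_eq_self
      (isHomogeneous_map φ hφ (homogeneousComponent_isHomogeneous d f))
  · intro i _ hi
    rw [homogeneousComponent_of_mem (isHomogeneous_map φ hφ
      (homogeneousComponent_isHomogeneous i f)), if_neg hi.symm]
  · intro hd
    rw [homogeneousComponent_eq_zero d f]
    · simp
    · simp only [Finset.mem_range] at hd; omega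

lemma map_mem_map (hs : Function.Surjective φ) {I : Ideal (MvPolynomial (Fin n) K)}
    {y : MvPolynomial (Fin m) K} : y ∈ I.map φ ↔ ∃ f ∈ I, φ f = y :=
  Ideal.mem_map_iff_of_surjective φ hs

lemma isHom_map (hφ : ∀ i, (φ (X i)).IsHomogeneous 1) (hs : Function.Surjective φ)
    {I : Ideal (MvPolynomial (Fin n) K)} (hI : IsHom I) : IsHom (I.map φ) := by
  intro y hy d
  obtain ⟨f, hf, rfl⟩ := (map_mem_map φ hs).1 hy
  rw [comp_map φ hφ]
  exact Ideal.mem_map_of_mem φ (hI f hf d)

lemma degPart_map (hφ : ∀ i, (φ (X i)).IsHomogeneous 1) (hs : Function.Surjective φ)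
    {I : Ideal (MvPolynomial (Fin n) K)} (hI : IsHom I) (d : ℕ) :
    (degPart I d).map φ.toLinearMap = degPart (I.map φ) d := by
  ext y
  constructor
  · rintro ⟨f, hf, rfl⟩
    exact ⟨isHomogeneous_map φ hφ hf.1, Ideal.mem_map_of_mem φ hf.2⟩
  · rintro ⟨hy1, hy2⟩
    obtain ⟨f, hf, rfl⟩ := (map_mem_map φ hs).1 hy2
    refine ⟨homogeneousComponent d f, ⟨homogeneousComponent_isHomogeneous d f, hI f hf d⟩, ?_⟩
    show φ (homogeneousComponent d f) = φ f
    rw [← comp_map φ hφ, homogeneousComponent_eq_self hy1]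

end graded

/-- Elements whose product with `l` lies in `I`. -/
noncomputable def colonBy (I : Ideal (MvPolynomial (Fin n) K)) (l : MvPolynomial (Fin n) K) :
    Ideal (MvPolynomial (Fin n) K) :=
  Submodule.comap (LinearMap.mulRight (MvPolynomial (Fin n) K) l) I

lemma mem_colonBy {I : Ideal (MvPolynomial (Fin n) K)} {l f : MvPolynomial (Fin n) K} :
    f ∈ colonBy I l ↔ f * l ∈ I := Iff.rfl

lemma le_colonBy (I : Ideal (MvPolynomial (Fin n) K)) (l : MvPolynomial (Fin n) K) :
    I ≤ colonBy I l := fun _ hf => mem_colonBy.2 (I.mul_mem_right l hf)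

lemma isHom_colonBy {I : Ideal (MvPolynomial (Fin n) K)} (hI : IsHom I)
    {l : MvPolynomial (Fin n) K} (hl : l.IsHomogeneous 1) : IsHom (colonBy I l) := by
  intro f hf d
  rw [mem_colonBy, ← comp_mul hl]
  exact hI _ hf _

lemma colonBy_top {I : Ideal (MvPolynomial (Fin n) K)} {l : MvPolynomial (Fin n) K} (h : l ∈ I) :
    colonBy I l = ⊤ := by
  rw [Ideal.eq_top_iff_one, mem_colonBy, one_mul]; exact h

/-- A graded substitution whose kernel is generated by the linear form `l`. -/
structure Cut (l : MvPolynomial (Fin (n + 1)) K) where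
  phi : MvPolynomial (Fin (n + 1)) K →ₐ[K] MvPolynomial (Fin n) K
  homog : ∀ i, (phi (X i)).IsHomogeneous 1
  surj : Function.Surjective phi
  ker : ∀ f, phi f = 0 ↔ l ∣ f
  sec : ∀ (d : ℕ) (y : MvPolynomial (Fin n) K), y.IsHomogeneous d →
    ∃ f : MvPolynomial (Fin (n + 1)) K, f.IsHomogeneous d ∧ phi f = y

lemma exists_cut {l : MvPolynomial (Fin (n + 1)) K} (hl : l.IsHomogeneous 1) (hl0 : l ≠ 0) :
    Nonempty (Cut l) := by
  classical
  obtain ⟨c, hc⟩ : ∃ c : Fin (n + 1) → K, l = ∑ i, C (c i) * X i := by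
    have hmem : l ∈ Submodule.span K
        (Set.range (X : Fin (n + 1) → MvPolynomial (Fin (n + 1)) K)) := by
      rw [← homogeneousSubmodule_one_eq_span_X]; exact hl
    obtain ⟨c, hc⟩ := (Submodule.mem_span_range_iff_exists_fun K).1 hmem
    exact ⟨c, by rw [← hc]; simp [smul_eq_C_mul]⟩
  obtain ⟨j, hj⟩ : ∃ j, c j ≠ 0 := by
    by_contra h
    push Not at h
    exact hl0 (by rw [hc]; simp [h])
  let v : MvPolynomial (Fin n) K := C (-(c j)⁻¹) * ∑ i, C (c (j.succAbove i)) * X i
  let φ : MvPolynomial (Fin (n + 1)) K →ₐ[K] MvPolynomial (Fin n) K :=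
    aeval (Fin.insertNth j v (fun i => X i))
  let ι : MvPolynomial (Fin n) K →ₐ[K] MvPolynomial (Fin (n + 1)) K := rename j.succAbove
  have hι : ∀ y, φ (ι y) = y := by
    intro y
    have : φ.comp ι = AlgHom.id K _ := algHom_ext fun i => by simp [φ, ι]
    exact DFunLike.congr_fun this y
  have hXj : φ (X j) = v := by simp [φ]
  have hCv : C (c j) * v = - ∑ i, C (c (j.succAbove i)) * X i := by
    simp only [v]
    rw [← mul_assoc, ← C_mul, mul_neg, mul_inv_cancel₀ hj]
    simp
  have hφl : φ l = 0 := by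
    rw [hc, map_sum, Fin.sum_univ_succAbove _ j, map_mul, hXj]
    simp only [φ, map_mul, algHom_C, algebraMap_eq, aeval_X, Fin.insertNth_apply_succAbove]
    rw [hCv]
    simp
  have hker : ∀ f, l ∣ f - ι (φ f) := by
    intro f
    let q := Ideal.Quotient.mkₐ K (Ideal.span {l})
    have : (q.comp (ι.comp φ)) = q := by
      refine algHom_ext fun i => ?_
      rcases Fin.eq_self_or_eq_succAbove j i with rfl | ⟨i, rfl⟩
      · show q (ι (φ (X i))) = q (X i)
        rw [Ideal.Quotient.mkₐ_eq_mk, Ideal.Quotient.eq, Ideal.mem_span_singleton, hXj]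
        refine ⟨C (-(c i)⁻¹), ?_⟩
        rw [hc, Fin.sum_univ_succAbove _ i]
        have h1 : C (-(c i)⁻¹) * C (c i) = (-1 : MvPolynomial (Fin (n + 1)) K) := by
          rw [← C_mul, neg_mul, inv_mul_cancel₀ hj]; simp
        simp only [v, ι, map_mul, map_sum, rename_C, rename_X]
        rw [add_mul, mul_comm (C (c i) * X i), ← mul_assoc, h1]
        ring
      · simp [φ, ι]
    have h2 := DFunLike.congr_fun this f
    simp only [AlgHom.comp_apply, q, Ideal.Quotient.mkₐ_eq_mk, Ideal.Quotient.eq,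
      Ideal.mem_span_singleton] at h2
    exact dvd_sub_comm.1 h2
  refine ⟨⟨φ, ?_, fun y => ⟨ι y, hι y⟩, fun f => ⟨fun h => ?_, ?_⟩, fun d y hy =>
    ⟨ι y, hy.rename_isHomogeneous, hι y⟩⟩⟩
  · intro i
    rcases Fin.eq_self_or_eq_succAbove j i with rfl | ⟨i, rfl⟩
    · rw [hXj]
      exact (IsHomogeneous.sum _ _ _ fun i _ => isHomogeneous_C_mul_X _ _).C_mul _
    · simpa [φ] using isHomogeneous_X K i
  · simpa [h] using hker f
  · rintro ⟨g, rfl⟩
    rw [map_mul, hφl, zero_mul]

variable {l : MvPolynomial (Fin (n + 1)) K}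

lemma degPart_split (P : Cut l) (hl : l.IsHomogeneous 1) (hl0 : l ≠ 0)
    {I : Ideal (MvPolynomial (Fin (n + 1)) K)} (hI : IsHom I) (d : ℕ) :
    Module.finrank K (degPart I (d + 1)) =
      Module.finrank K (degPart (I.map P.phi) (d + 1)) +
        Module.finrank K (degPart (colonBy I l) d) := by
  set W := degPart I (d + 1) with hW
  let g : W →ₗ[K] MvPolynomial (Fin n) K := P.phi.toLinearMap.domRestrict W
  have h1 := g.finrank_range_add_finrank_ker
  have h2 : LinearMap.range g = degPart (I.map P.phi) (d + 1) := by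
    rw [LinearMap.range_domRestrict, degPart_map _ P.homog P.surj hI]
  let μ : MvPolynomial (Fin (n + 1)) K →ₗ[K] MvPolynomial (Fin (n + 1)) K :=
    LinearMap.mulRight K l
  have hμ : Function.Injective μ := mul_left_injective₀ hl0
  have h3 : (degPart (colonBy I l) d).map μ = W ⊓ LinearMap.ker P.phi.toLinearMap := by
    ext f
    constructor
    · rintro ⟨x, hx, rfl⟩
      exact ⟨⟨hx.1.mul hl, hx.2⟩, (P.ker _).2 ⟨x, mul_comm _ _⟩⟩
    · rintro ⟨⟨hf1, hf2⟩, hf3⟩
      obtain ⟨x, rfl⟩ := (P.ker f).1 hf3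
      have he : homogeneousComponent d x * l = l * x := by
        rw [← comp_mul hl, mul_comm x l, homogeneousComponent_eq_self hf1]
      refine ⟨homogeneousComponent d x, ⟨homogeneousComponent_isHomogeneous d x, ?_⟩, he⟩
      show homogeneousComponent d x * l ∈ I
      rw [he]; exact hf2
  have h4 : LinearMap.ker g = (LinearMap.ker P.phi.toLinearMap).comap W.subtype := rfl
  have h5 : Module.finrank K (LinearMap.ker g) =
      Module.finrank K (degPart (colonBy I l) d) := by
    rw [h4]
    have e1 := (Submodule.comapSubtypeEquivOfLe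
      (inf_le_left : W ⊓ LinearMap.ker P.phi.toLinearMap ≤ W)).finrank_eq
    rw [Submodule.comap_inf, Submodule.comap_subtype_self, top_inf_eq] at e1
    rw [e1, ← h3]
    exact (Submodule.equivMapOfInjective μ hμ _).finrank_eq.symm
  rw [h2, h5] at h1
  exact h1.symm

lemma finrank_Vd_succ (P : Cut l) (hl : l.IsHomogeneous 1) (hl0 : l ≠ 0) (d : ℕ) :
    Module.finrank K (Vd K (n + 1) (d + 1)) =
      Module.finrank K (Vd K n (d + 1)) + Module.finrank K (Vd K (n + 1) d) := by
  have h := degPart_split P hl hl0 (isHom_top (K := K) (n := n + 1)) d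
  rw [Ideal.map_top, degPart_top, degPart_top] at h
  rw [h, colonBy_top Submodule.mem_top, degPart_top]

lemma hilb_split (P : Cut l) (hl : l.IsHomogeneous 1) (hl0 : l ≠ 0)
    {I : Ideal (MvPolynomial (Fin (n + 1)) K)} (hI : IsHom I) (d : ℕ) :
    hilb I (d + 1) = hilb (I.map P.phi) (d + 1) + hilb (colonBy I l) d := by
  have := degPart_split P hl hl0 hI d
  have := finrank_Vd_succ P hl hl0 d
  have := finrank_degPart_add I (d + 1)
  have := finrank_degPart_add (I.map P.phi) (d + 1)
  have := finrank_degPart_add (colonBy I l) d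
  omega

lemma finrank_Vd_zero (K : Type*) [Field K] (n : ℕ) : Module.finrank K (Vd K n 0) = 1 := by
  rw [Vd, homogeneousSubmodule_zero, Submodule.one_eq_span, finrank_span_singleton one_ne_zero]

lemma hilb_map_zero (P : Cut l) {I : Ideal (MvPolynomial (Fin (n + 1)) K)} (hI : IsHom I) :
    hilb (I.map P.phi) 0 = hilb I 0 := by
  unfold hilb
  rw [finrank_Vd_zero, finrank_Vd_zero, ← degPart_map _ P.homog P.surj hI 0]
  have hinj : Function.Injective (P.phi.toLinearMap.domRestrict (degPart I 0)) := by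
    intro x y hxy
    obtain ⟨a, ha⟩ : ∃ a, (x : MvPolynomial (Fin (n + 1)) K) = C a := by
      have := x.2.1
      exact ⟨_, (homogeneousComponent_eq_self this).symm.trans (homogeneousComponent_zero _)⟩
    obtain ⟨b, hb⟩ : ∃ b, (y : MvPolynomial (Fin (n + 1)) K) = C b := by
      have := y.2.1
      exact ⟨_, (homogeneousComponent_eq_self this).symm.trans (homogeneousComponent_zero _)⟩
    refine Subtype.ext ?_
    simp only [LinearMap.domRestrict_apply, AlgHom.toLinearMap_apply, ha, hb, algHom_C,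
      algebraMap_eq] at hxy
    rw [ha, hb, C_injective _ _ hxy]
  rw [← LinearMap.range_domRestrict, LinearMap.finrank_range_of_inj hinj]

lemma finrank_Vd_zero_succ (K : Type*) [Field K] (d : ℕ) :
    Module.finrank K (Vd K 0 (d + 1)) = 0 := by
  rw [Submodule.finrank_eq_zero, eq_bot_iff]
  intro f hf
  rw [Submodule.mem_bot]
  by_contra h
  exact absurd ((MvPolynomial.isHomogeneous_of_isEmpty (Fin 0) K f).inj_right hf h) (by omega)

lemma finrank_Vd_succ' (K : Type*) [Field K] (n d : ℕ) :
    Module.finrank K (Vd K (n + 1) (d + 1)) =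
      Module.finrank K (Vd K n (d + 1)) + Module.finrank K (Vd K (n + 1) d) := by
  have hX : (X 0 : MvPolynomial (Fin (n + 1)) K).IsHomogeneous 1 := isHomogeneous_X _ _
  obtain ⟨P⟩ := exists_cut hX (X_ne_zero 0)
  exact finrank_Vd_succ P hX (X_ne_zero 0) d

end Vale.Agent.P200
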