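import Mathlib
import Vale.Agent.P200.Linear

/-!
Over an algebraically closed field, quadrics without a common zero in at most four variables
span a product of two linear forms.
-/

open MvPolynomial

namespace Vale.Agent.P200

/-- All forms of some degree lie in `J`. -/
def Artin {K : Type*} [Field K] {n : ℕ} (J : Ideal (MvPolynomial (Fin n) K)) : Prop :=
  ∃ N, ∀ f : MvPolynomial (Fin n) K, f.IsHomogeneous N → f ∈ J

lemma height_ge_of_chain {R : Type*} [CommRing R] :
    ∀ (k : ℕ) (p : ℕ → Ideal R), (∀ i ≤ k, (p i).IsPrime) → (∀ i < k, p i < p (i + 1)) →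
      (k : ℕ∞) ≤ (p k).height
  | 0, p, _, _ => by simp
  | k + 1, p, hp, hlt => by
    have ih := height_ge_of_chain k p (fun i hi => hp i (by omega)) (fun i hi => hlt i (by omega))
    have := hp k (by omega)
    have := hp (k + 1) le_rfl
    have h := Ideal.height_add_one_le_of_lt_of_isPrime (hlt k (by omega))
    calc ((k + 1 : ℕ) : ℕ∞) = (k : ℕ∞) + 1 := by simp
      _ ≤ (p k).height + 1 := by gcongr
      _ ≤ _ := h

variable {L : Type*} [Field L]

/-- Setting variables to zero. -/
noncomputable def kill {σ : Type*} (P : σ → Prop) [DecidablePred P] :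
    MvPolynomial σ L →ₐ[L] MvPolynomial σ L :=
  aeval fun v => if P v then 0 else X v

lemma kill_X {σ : Type*} (P : σ → Prop) [DecidablePred P] (v : σ) :
    kill (L := L) P (X v) = if P v then 0 else X v := by simp [kill]

lemma kill_kill {σ : Type*} (P Q : σ → Prop) [DecidablePred P] [DecidablePred Q]
    (h : ∀ v, P v → Q v) : (kill (L := L) Q).comp (kill P) = kill Q := by
  refine algHom_ext fun v => ?_
  by_cases hv : P v
  · simp [kill_X, hv, h v hv]
  · simp [kill_X, hv]

lemma ker_kill_mono {σ : Type*} (P Q : σ → Prop) [DecidablePred P] [DecidablePred Q]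
    (h : ∀ v, P v → Q v) : RingHom.ker (kill (L := L) P) ≤ RingHom.ker (kill (L := L) Q) := by
  intro f hf
  rw [RingHom.mem_ker] at hf ⊢
  rw [← kill_kill P Q h, AlgHom.comp_apply, hf, map_zero]

lemma kill_all {σ : Type*} (P : σ → Prop) [DecidablePred P] (h : ∀ v, P v)
    (f : MvPolynomial σ L) : kill (L := L) P f = C (constantCoeff f) := by
  induction f using MvPolynomial.induction_on with
  | C a => simp [kill]
  | add a b ha hb => simp [ha, hb]
  | mul_X a v _ => simp [kill_X, h v]

lemma sub_constantCoeff_mem {σ : Type*} (Q : Ideal (MvPolynomial σ L))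
    (h : ∀ i, (X i : MvPolynomial σ L) ∈ Q) (f : MvPolynomial σ L) :
    f - C (constantCoeff f) ∈ Q := by
  induction f using MvPolynomial.induction_on with
  | C a => simp
  | add a b ha hb => simpa [add_sub_add_comm] using add_mem ha hb
  | mul_X a i _ => simpa using Q.mul_mem_left a (h i)

/-- Fewer than `n` forms of positive degree have a common zero. -/
lemma le_card_of_artin {n : ℕ} (s : Finset (MvPolynomial (Fin n) L))
    (hs : ∀ x ∈ s, ∃ e, 0 < e ∧ x.IsHomogeneous e)
    (hA : Artin (Ideal.span (s : Set (MvPolynomial (Fin n) L)))) : n ≤ s.card := by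
  classical
  let p : ℕ → Ideal (MvPolynomial (Fin n) L) := fun i =>
    RingHom.ker (kill (L := L) fun v : Fin n => v.val < i)
  have hp : ∀ i, (p i).IsPrime := fun i => RingHom.ker_isPrime _
  have hge : (n : ℕ∞) ≤ (p n).height := by
    refine height_ge_of_chain n p (fun i _ => hp i) fun i hi => ?_
    refine lt_of_le_not_ge (ker_kill_mono _ _ fun v hv => Nat.lt_succ_of_lt hv) fun hle => ?_
    have : (X ⟨i, hi⟩ : MvPolynomial (Fin n) L) ∈ p (i + 1) := by
      simp [p, RingHom.mem_ker, kill_X]
    have := hle this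
    simp [p, RingHom.mem_ker, kill_X, X_ne_zero] at this
  have := hp n
  have hX : ∀ i : Fin n, (X i : MvPolynomial (Fin n) L) ∈ p n := fun i => by
    simp [p, RingHom.mem_ker, kill_X]
  have hmin : p n ∈ (Ideal.span (s : Set (MvPolynomial (Fin n) L))).minimalPrimes := by
    refine ⟨⟨hp n, Ideal.span_le.2 fun x hx => ?_⟩, ?_⟩
    · obtain ⟨e, he, h2⟩ := hs x hx
      have h0 : constantCoeff x = 0 := h2.coeff_eq_zero (by simp; omega)
      show kill (L := L) (fun v : Fin n => v.val < n) x = 0
      rw [kill_all _ (fun v => v.isLt), h0, map_zero]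
    · rintro Q ⟨hQ, hle⟩ _ f hf
      obtain ⟨N, hN⟩ := hA
      have hXQ : ∀ i : Fin n, (X i : MvPolynomial (Fin n) L) ∈ Q := fun i =>
        hQ.mem_of_pow_mem N (hle (hN _ (by simpa using (isHomogeneous_X L i).pow N)))
      have hf' : kill (L := L) (fun v : Fin n => v.val < n) f = 0 := hf
      rw [kill_all _ (fun v => v.isLt), map_eq_zero_iff _ (C_injective (Fin n) L)] at hf'
      simpa [hf'] using sub_constantCoeff_mem Q hXQ f
  exact_mod_cast hge.trans (Ideal.height_le_card_of_mem_minimalPrimes_span_finset hmin)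

/-- Fewer than `n` quadrics have a common zero. -/
lemma le_finrank_of_artin {n : ℕ} (W : Submodule L (MvPolynomial (Fin n) L))
    (hW : W ≤ Vd L n 2) (hA : Artin (Ideal.span (W : Set (MvPolynomial (Fin n) L)))) :
    n ≤ Module.finrank L W := by
  classical
  have : Module.Finite L W := Submodule.finiteDimensional_of_le hW
  let b := Module.finBasis L W
  let s : Finset (MvPolynomial (Fin n) L) := Finset.univ.image fun i => (b i : MvPolynomial _ L)
  have hle : Ideal.span (W : Set (MvPolynomial (Fin n) L)) ≤ Ideal.span (s : Set _) := by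
    refine Ideal.span_le.2 fun x hx => ?_
    have hxe := congrArg (fun w : W => (w : MvPolynomial (Fin n) L)) (b.sum_repr ⟨x, hx⟩)
    simp only [AddSubmonoidClass.coe_finsetSum, SetLike.val_smul] at hxe
    rw [← hxe]
    exact sum_mem fun i _ => Submodule.smul_of_tower_mem _ _ (Ideal.subset_span (by simp [s]))
  obtain ⟨N, hN⟩ := hA
  refine (le_card_of_artin s (fun x hx => ?_) ⟨N, fun f hf => hle (hN f hf)⟩).trans
    (Finset.card_image_le.trans (by simp))
  obtain ⟨i, _, rfl⟩ := Finset.mem_image.1 hx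
  exact ⟨2, by norm_num, hW (b i).2⟩

/-- The Segre map. -/
noncomputable def segre (L : Type*) [Field L] (N : ℕ) :
    MvPolynomial (Fin N × Fin N) L →ₐ[L] MvPolynomial (Fin N ⊕ Fin N) L :=
  aeval fun p => X (Sum.inl p.1) * X (Sum.inr p.2)

lemma segre_X {N : ℕ} (p : Fin N × Fin N) :
    segre L N (X p) = X (Sum.inl p.1) * X (Sum.inr p.2) := by simp [segre]

/-- Coordinates killed at step `i` of a chain of primes of the Segre cone. -/
def stage (N i : ℕ) (v : Fin (N + 1) ⊕ Fin (N + 1)) : Prop :=
  match v with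
  | Sum.inl a => (1 ≤ a.val ∧ a.val ≤ i) ∨ 2 * N + 1 ≤ i
  | Sum.inr b => (1 ≤ b.val ∧ N + b.val ≤ i)

instance stage_decidable (N i : ℕ) : DecidablePred (stage N i) := fun v => by
  unfold stage; cases v <;> infer_instance

/-- Few linear conditions on rank one tensors have a nonzero solution. -/
lemma exists_rank_one [IsAlgClosed L] {N r : ℕ} (hr : r ≤ 2 * N)
    (c : Fin r → Fin (N + 1) → Fin (N + 1) → L) :
    ∃ a b : Fin (N + 1) → L, a ≠ 0 ∧ b ≠ 0 ∧ ∀ k, ∑ i, ∑ j, c k i j * (a i * b j) = 0 := by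
  classical
  set p : Ideal (MvPolynomial (Fin (N + 1) × Fin (N + 1)) L) :=
    RingHom.ker (segre L (N + 1)) with hp
  have : p.IsPrime := RingHom.ker_isPrime _
  let π := Ideal.Quotient.mk p
  let g : Fin r → MvPolynomial (Fin (N + 1) × Fin (N + 1)) L := fun k =>
    ∑ i, ∑ j, C (c k i j) * X (i, j)
  let ψ : ℕ → MvPolynomial (Fin (N + 1) × Fin (N + 1)) L →ₐ[L]
      MvPolynomial (Fin (N + 1) ⊕ Fin (N + 1)) L := fun i =>
    (kill (stage N i)).comp (segre L (N + 1))
  let q : ℕ → Ideal (MvPolynomial (Fin (N + 1) × Fin (N + 1)) L) := fun i => RingHom.ker (ψ i)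
  have hq : ∀ i, (q i).IsPrime := fun i => RingHom.ker_isPrime _
  have hpq : ∀ i, p ≤ q i := fun i f hf => by
    rw [RingHom.mem_ker] at hf ⊢
    simp [ψ, hf]
  have hmono : ∀ i, q i ≤ q (i + 1) := fun i f hf => by
    rw [RingHom.mem_ker] at hf ⊢
    have hk := kill_kill (L := L) (stage N i) (stage N (i + 1)) (fun v => by
      cases v <;> simp only [stage] <;> omega)
    simp only [ψ, AlgHom.comp_apply] at hf ⊢
    rw [← hk, AlgHom.comp_apply, hf, map_zero]
  have hψX : ∀ i x, ψ i (X x) = (if stage N i (Sum.inl x.1) then 0 else X (Sum.inl x.1)) *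
      (if stage N i (Sum.inr x.2) then 0 else X (Sum.inr x.2)) := fun i x => by
    simp [ψ, segre_X, kill_X]
  have hstrict : ∀ i < 2 * N + 1, q i < q (i + 1) := by
    intro i hi
    refine lt_of_le_not_ge (hmono i) fun hle => ?_
    obtain ⟨x, h1, h2⟩ : ∃ x : Fin (N + 1) × Fin (N + 1),
        (¬ stage N i (Sum.inl x.1) ∧ ¬ stage N i (Sum.inr x.2)) ∧
          (stage N (i + 1) (Sum.inl x.1) ∨ stage N (i + 1) (Sum.inr x.2)) := by
      rcases Nat.lt_or_ge i N with h | h
      · exact ⟨(⟨i + 1, by omega⟩, 0), by simp [stage]; omega, by simp [stage]⟩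
      rcases Nat.lt_or_ge i (2 * N) with h' | h'
      · refine ⟨(0, ⟨i + 1 - N, by omega⟩), by simp [stage]; omega, Or.inr ?_⟩
        simp [stage]; omega
      · exact ⟨(0, 0), by simp [stage]; omega, by simp [stage]; omega⟩
    have hx : X x ∈ q (i + 1) := by
      rw [RingHom.mem_ker, hψX]
      rcases h2 with h | h <;> simp [h]
    have := hle hx
    rw [RingHom.mem_ker, hψX, if_neg h1.1, if_neg h1.2] at this
    exact mul_ne_zero (X_ne_zero _) (X_ne_zero _) this
  let top := 2 * N + 1
  have htopX : ∀ x, X x ∈ q top := fun x => by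
    rw [RingHom.mem_ker, hψX, if_pos (by simp [stage, top])]
    simp
  let Q : ℕ → Ideal (MvPolynomial (Fin (N + 1) × Fin (N + 1)) L ⧸ p) := fun i => (q i).map π
  have hQ : ∀ i, (Q i).IsPrime := fun i => by
    have := hq i
    exact Ideal.map_isPrime_of_surjective Ideal.Quotient.mk_surjective (by
      rw [Ideal.mk_ker]; exact hpq i)
  have hQc : ∀ i, (Q i).comap π = q i := fun i => by
    rw [Ideal.comap_map_of_surjective _ Ideal.Quotient.mk_surjective, ← RingHom.ker_eq_comap_bot,
      Ideal.mk_ker]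
    exact sup_eq_left.2 (hpq i)
  have hQlt : ∀ i < top, Q i < Q (i + 1) := fun i hi => by
    refine lt_of_le_of_ne (Ideal.map_mono (hmono i)) fun he => ?_
    have := congrArg (Ideal.comap π) he
    rw [hQc, hQc] at this
    exact (hstrict i hi).ne this
  have hge : (top : ℕ∞) ≤ (Q top).height :=
    height_ge_of_chain top Q (fun i _ => hQ i) hQlt
  let s := Finset.univ.image fun k => π (g k)
  have hsle : Ideal.span (s : Set (MvPolynomial (Fin (N + 1) × Fin (N + 1)) L ⧸ p)) ≤ Q top := by
    rw [Ideal.span_le]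
    intro x hx
    obtain ⟨k, _, rfl⟩ := Finset.mem_image.1 hx
    exact Ideal.mem_map_of_mem _
      (sum_mem fun i _ => sum_mem fun j _ => Ideal.mul_mem_left _ _ (htopX _))
  have := hQ top
  obtain ⟨P, hP, hPle⟩ := Ideal.exists_minimalPrimes_le hsle
  have hht := Ideal.height_le_card_of_mem_minimalPrimes_span_finset hP
  have hsc : s.card ≤ r := Finset.card_image_le.trans (by simp)
  have : P.IsPrime := hP.1.1
  set P' := P.comap π with hP'
  have : P'.IsPrime := Ideal.IsPrime.comap π
  obtain ⟨z, hz, hz0⟩ : ∃ z ∈ zeroLocus L P', z ≠ 0 := by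
    by_contra hcon
    push Not at hcon
    have hle : q top ≤ P' := by
      rw [← MvPolynomial.IsPrime.vanishingIdeal_zeroLocus (K := L) P']
      intro f hf
      rw [mem_vanishingIdeal_iff]
      intro z hz
      rw [hcon z hz]
      have hk : ψ top = (Algebra.ofId L _).comp (aeval fun _ => (0 : L)) :=
        algHom_ext fun x => by simp [RingHom.mem_ker.1 (htopX x)]
      have hf' : ψ top f = 0 := hf
      rw [hk, AlgHom.comp_apply, Algebra.ofId_apply, algebraMap_eq, map_eq_zero_iff _
        (C_injective (Fin (N + 1) ⊕ Fin (N + 1)) L)] at hf'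
      exact hf'
    have hmap : Q top ≤ P := by
      refine (Ideal.map_mono hle).trans ?_
      exact Ideal.map_comap_le
    rw [le_antisymm hPle hmap] at hht
    have h2 := hge.trans hht
    have : top ≤ s.card := by exact_mod_cast h2
    omega
  have hpP : p ≤ P' := fun f hf => by
    show π f ∈ P
    rw [show π f = 0 from Ideal.Quotient.eq_zero_iff_mem.2 hf]
    exact P.zero_mem
  have hrel : ∀ i j k l, z (i, j) * z (k, l) = z (i, l) * z (k, j) := by
    intro i j k l
    have hm : X (i, j) * X (k, l) - X (i, l) * X (k, j) ∈ p := by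
      rw [hp, RingHom.mem_ker]; simp [segre_X]; ring
    have := (mem_zeroLocus_iff.1 hz) _ (hpP hm)
    simpa [sub_eq_zero] using this
  have hlin : ∀ k, ∑ i, ∑ j, c k i j * z (i, j) = 0 := by
    intro k
    have hgk : g k ∈ P' := hP.1.2 (Ideal.subset_span (by simp [s]))
    simpa [g] using (mem_zeroLocus_iff.1 hz) _ hgk
  obtain ⟨⟨u, v⟩, huv⟩ : ∃ x, z x ≠ 0 := Function.ne_iff.1 hz0
  refine ⟨fun i => z (i, v), fun j => z (u, j) / z (u, v), fun h => huv (congrFun h u),
    fun h => by simpa [huv] using congrFun h v, fun k => ?_⟩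
  rw [← hlin k]
  refine Finset.sum_congr rfl fun i _ => Finset.sum_congr rfl fun j _ => ?_
  rw [← mul_div_assoc, ← hrel i j u v, mul_div_assoc, div_self huv, mul_one]

/-- Quadrics without a common zero in at most four variables span a split quadric. -/
theorem exists_split [IsAlgClosed L] {N : ℕ} (A : Finset (MvPolynomial (Fin (N + 1)) L))
    (hA4 : A.card ≤ 4) (hA2 : ∀ a ∈ A, a.IsHomogeneous 2)
    (hA : Artin (Ideal.span (A : Set (MvPolynomial (Fin (N + 1)) L)))) :
    ∃ l m : MvPolynomial (Fin (N + 1)) L, l.IsHomogeneous 1 ∧ m.IsHomogeneous 1 ∧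
      l ≠ 0 ∧ m ≠ 0 ∧ l * m ∈ Submodule.span L (A : Set (MvPolynomial (Fin (N + 1)) L)) := by
  classical
  set W : Submodule L (MvPolynomial (Fin (N + 1)) L) := Submodule.span L (A : Set _) with hW
  have hW2 : W ≤ Vd L (N + 1) 2 := Submodule.span_le.2 hA2
  have hWn : N + 1 ≤ Module.finrank L W := by
    refine le_finrank_of_artin W hW2 ?_
    obtain ⟨e, he⟩ := hA
    exact ⟨e, fun f hf => Ideal.span_mono Submodule.subset_span (he f hf)⟩
  have hWc : Module.finrank L W ≤ 4 := (finrank_span_finset_le_card A).trans hA4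
  have hV1 : ∀ k, Module.finrank L (Vd L k 1) = k := by
    intro k
    induction k with
    | zero => exact finrank_Vd_zero_succ L 0
    | succ k ih => rw [finrank_Vd_succ', ih, finrank_Vd_zero]
  have hV2 : ∀ k, 2 * Module.finrank L (Vd L k 2) = k * (k + 1) := by
    intro k
    induction k with
    | zero => simp [finrank_Vd_zero_succ L 1]
    | succ k ih => rw [finrank_Vd_succ' L k 1, hV1, Nat.mul_add, ih]; ring
  set W' := W.comap (Vd L (N + 1) 2).subtype with hW'
  have hquot : Module.finrank L (Vd L (N + 1) 2 ⧸ W') + Module.finrank L W =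
      Module.finrank L (Vd L (N + 1) 2) := by
    rw [← (Submodule.comapSubtypeEquivOfLe hW2).finrank_eq]
    exact Submodule.finrank_quotient_add_finrank W'
  have hr : Module.finrank L (Vd L (N + 1) 2 ⧸ W') ≤ 2 * N := by
    have h2 := hV2 (N + 1)
    have hN : N ≤ 3 := by omega
    interval_cases N <;> omega
  let e := (Module.finBasis L (Vd L (N + 1) 2 ⧸ W')).equivFun
  let M : Fin (N + 1) → Fin (N + 1) → Vd L (N + 1) 2 := fun i j =>
    ⟨X i * X j, (isHomogeneous_X L i).mul (isHomogeneous_X L j)⟩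
  obtain ⟨a, b, ha, hb, hab⟩ := exists_rank_one hr
    (fun k i j => e (Submodule.Quotient.mk (M i j)) k)
  let l : MvPolynomial (Fin (N + 1)) L := ∑ i, C (a i) * X i
  let m : MvPolynomial (Fin (N + 1)) L := ∑ i, C (b i) * X i
  have hcoef : ∀ (f : Fin (N + 1) → L) i,
      (∑ j, C (f j) * X j : MvPolynomial (Fin (N + 1)) L).coeff (Finsupp.single i 1) = f i := by
    intro f i
    simp [coeff_sum, coeff_C_mul, coeff_X, Finsupp.single_left_inj]
  have hne : ∀ f : Fin (N + 1) → L, f ≠ 0 →
      (∑ j, C (f j) * X j : MvPolynomial (Fin (N + 1)) L) ≠ 0 := fun f hf h =>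
    hf (funext fun i => by rw [← hcoef f i, h, coeff_zero]; rfl)
  have hhom : ∀ f : Fin (N + 1) → L,
      (∑ j, C (f j) * X j : MvPolynomial (Fin (N + 1)) L).IsHomogeneous 1 := fun f =>
    IsHomogeneous.sum _ _ _ fun i _ => isHomogeneous_C_mul_X _ _
  refine ⟨l, m, hhom a, hhom b, hne a ha, hne b hb, ?_⟩
  let V : Vd L (N + 1) 2 := ∑ i, ∑ j, (a i * b j) • M i j
  have hV : (V : MvPolynomial (Fin (N + 1)) L) = l * m := by
    simp only [V, AddSubmonoidClass.coe_finsetSum, SetLike.val_smul, M, l, m, Finset.sum_mul_sum,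
      smul_eq_C_mul, C_mul]
    refine Finset.sum_congr rfl fun i _ => Finset.sum_congr rfl fun j _ => ?_
    ring
  have hVW : e (Submodule.Quotient.mk V) = 0 := by
    funext k
    have := hab k
    simp only [V, ← Submodule.mkQ_apply, map_sum, map_smul, Finset.sum_apply, Pi.smul_apply,
      smul_eq_mul, Pi.zero_apply]
    refine Eq.trans ?_ this
    exact Finset.sum_congr rfl fun i _ => Finset.sum_congr rfl fun j _ => by simp; ring
  have : V ∈ W' := (Submodule.Quotient.mk_eq_zero W').1 (e.map_eq_zero_iff.1 hVW)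
  rw [← hV]
  exact this

/-- Over an algebraically closed field a form in at most two variables has a linear factor. -/
theorem exists_linear_factor [IsAlgClosed L] {N a : ℕ} (hN : N ≤ 1) (ha : 1 ≤ a)
    {f : MvPolynomial (Fin (N + 1)) L} (hf : f.IsHomogeneous a) :
    ∃ l : MvPolynomial (Fin (N + 1)) L, l.IsHomogeneous 1 ∧ l ≠ 0 ∧ l ∣ f := by
  classical
  rcases Nat.le_one_iff_eq_zero_or_eq_one.1 hN with rfl | rfl
  · obtain ⟨P⟩ := exists_cut (l := (X 0 : MvPolynomial (Fin 1) L)) (isHomogeneous_X L 0)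
      (X_ne_zero 0)
    refine ⟨X 0, isHomogeneous_X L 0, X_ne_zero 0, (P.ker f).1 ?_⟩
    obtain ⟨e, rfl⟩ := Nat.exists_eq_add_of_le ha
    have h0 : Vd L 0 (1 + e) = ⊥ := by
      rw [← Submodule.finrank_eq_zero, add_comm, finrank_Vd_zero_succ]
    have hmem : P.phi f ∈ Vd L 0 (1 + e) := isHomogeneous_map P.phi P.homog hf
    rwa [h0, Submodule.mem_bot] at hmem
  obtain ⟨z, hz, hz0⟩ : ∃ z : Fin 2 → L, eval z f = 0 ∧ z ≠ 0 := by
    by_contra hcon
    push Not at hcon
    have hX : ∀ i, (X i : MvPolynomial (Fin 2) L) ∈ (Ideal.span {f}).radical := fun i => by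
      rw [← vanishingIdeal_zeroLocus_eq_radical (K := L)]
      intro z hz
      have := hcon z (by simpa using hz f (Ideal.mem_span_singleton_self f))
      simp [this]
    have hle : (Ideal.span (Set.range (X : Fin 2 → MvPolynomial (Fin 2) L))) ≤
        (Ideal.span {f}).radical := Ideal.span_le.2 (by rintro _ ⟨i, rfl⟩; exact hX i)
    obtain ⟨k, hk⟩ := Ideal.exists_pow_le_of_le_radical_of_fg hle
      (Submodule.fg_span (Set.finite_range _))
    have hA : Artin (Ideal.span ((({f} : Finset (MvPolynomial (Fin 2) L)) : Finset (MvPolynomial (Fin 2) L)) : Set (MvPolynomial (Fin 2) L))) := by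
      refine ⟨k, fun g hg => ?_⟩
      rw [Finset.coe_singleton]
      refine hk ?_
      rw [g.as_sum]
      refine sum_mem fun s hs => ?_
      have hsd : Finsupp.degree s = k := by
        by_contra h
        exact (mem_support_iff.1 hs) (hg.coeff_eq_zero h)
      have h1 := (Ideal.mem_span_pow_iff_exists_isHomogeneous (n := k)
        (X : Fin 2 → MvPolynomial (Fin 2) L) (monomial s (coeff s g))).2
      exact h1 ⟨monomial s (C (coeff s g)), isHomogeneous_monomial _ hsd, by
        simp [monomial_eq]⟩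
    have := le_card_of_artin (n := 2) ({f} : Finset (MvPolynomial (Fin 2) L)) (fun x hx => ⟨a, ha, by rwa [Finset.mem_singleton.1 hx]⟩) hA
    simp at this
  let l : MvPolynomial (Fin 2) L := C (z 1) * X 0 - C (z 0) * X 1
  have hl : l.IsHomogeneous 1 :=
    (isHomogeneous_C_mul_X _ _).sub (isHomogeneous_C_mul_X _ _)
  have hlz : eval z l = 0 := by simp [l]; ring
  have hl0 : l ≠ 0 := by
    intro h
    refine hz0 (funext fun i => ?_)
    have h1 := congrArg (eval (![1, 0] : Fin 2 → L)) h
    have h2 := congrArg (eval (![0, 1] : Fin 2 → L)) h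
    simp [l] at h1 h2
    fin_cases i <;> simp [h1, h2]
  obtain ⟨P⟩ := exists_cut hl hl0
  obtain ⟨g, hg, hgX⟩ := P.sec 1 (X 0) (isHomogeneous_X L 0)
  have hgz : eval z g ≠ 0 := by
    intro hg0
    refine hz0 (funext fun i => ?_)
    obtain ⟨c, hc⟩ : ∃ c, P.phi (X i) = C c * X 0 := by
      have hmem : P.phi (X i) ∈ Submodule.span L
          (Set.range (X : Fin 1 → MvPolynomial (Fin 1) L)) := by
        rw [← homogeneousSubmodule_one_eq_span_X]; exact P.homog i
      obtain ⟨c, hc⟩ := (Submodule.mem_span_range_iff_exists_fun L).1 hmem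
      exact ⟨c 0, by rw [← hc]; simp [smul_eq_C_mul]⟩
    obtain ⟨e, he⟩ := (P.ker (X i - C c * g)).1 (by
      rw [map_sub, map_mul, algHom_C, algebraMap_eq, hc, hgX, sub_self])
    have := congrArg (eval z) he
    simpa [hg0, hlz] using this
  obtain ⟨c, hc⟩ : ∃ c, P.phi f = C c * X 0 ^ a := by
    have hh : (P.phi f).IsHomogeneous a := isHomogeneous_map P.phi P.homog hf
    refine ⟨coeff (Finsupp.single 0 a) (P.phi f), ?_⟩
    rw [X_pow_eq_monomial, C_mul_monomial, mul_one]
    refine MvPolynomial.ext _ _ fun s => ?_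
    rw [coeff_monomial]
    by_cases hs : Finsupp.single 0 a = s
    · rw [if_pos hs, hs]
    · rw [if_neg hs]
      refine hh.coeff_eq_zero fun h => hs ?_
      rw [← h, Finsupp.degree_eq_sum]
      ext
      simp
  obtain ⟨e, he⟩ := (P.ker (f - C c * g ^ a)).1 (by
    rw [map_sub, map_mul, map_pow, algHom_C, algebraMap_eq, hc, hgX, sub_self])
  have h1 := congrArg (eval z) he
  simp only [map_sub, map_mul, map_pow, hz, hlz, zero_mul, eval_C, zero_sub, neg_eq_zero,
    mul_eq_zero] at h1
  rcases h1 with h1 | h1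
  · refine ⟨l, hl, hl0, ⟨e, ?_⟩⟩
    simpa [show c = 0 by simpa using h1] using he
  · exact absurd (pow_eq_zero_iff (by omega) |>.1 h1) hgz

end Vale.Agent.P200
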