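import Mathlib
import Vale.Agent.P200.Segre

/-!
A regular sequence of `n` forms in `n` variables has no common zero.
-/

open MvPolynomial

namespace Vale.Agent.P200

variable {K : Type*} [Field K] {n : ℕ}

/-- A regular sequence of forms of degrees `a`: multiplication by `f i` is injective modulo the
previous ones. -/
def IsRegSeq {c : ℕ} (a : Fin c → ℕ) (f : Fin c → MvPolynomial (Fin n) K) : Prop :=
  (∀ i, (f i).IsHomogeneous (a i)) ∧ ∀ i g,
    g * f i ∈ Ideal.span (f '' {j | j < i}) → g ∈ Ideal.span (f '' {j | j < i})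

lemma isHom_span {S : Set (MvPolynomial (Fin n) K)} (hS : ∀ g ∈ S, ∃ e, g.IsHomogeneous e) :
    IsHom (Ideal.span S) := by
  intro x hx d
  obtain ⟨k, c, g, rfl⟩ := Submodule.mem_span_set'.1 hx
  rw [map_sum]
  refine sum_mem fun i _ => ?_
  obtain ⟨e, he⟩ := hS _ (g i).2
  rcases Nat.lt_or_ge d e with h | h
  · rw [smul_eq_mul, comp_mul_of_lt he _ h]; exact zero_mem _
  · obtain ⟨a, rfl⟩ := Nat.exists_eq_add_of_le' h
    rw [smul_eq_mul, comp_mul he]
    exact Ideal.mul_mem_left _ _ (Ideal.subset_span (g i).2)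

lemma mem_sup_span {J : Ideal (MvPolynomial (Fin n) K)} {f x : MvPolynomial (Fin n) K}
    (h : x ∈ J ⊔ Ideal.span {f}) : ∃ y ∈ J, ∃ c, y + c * f = x := by
  obtain ⟨y, hy, z, hz, rfl⟩ := Submodule.mem_sup.1 h
  obtain ⟨c, rfl⟩ := Ideal.mem_span_singleton'.1 hz
  exact ⟨y, hy, c, rfl⟩

lemma hilb_add_form {J : Ideal (MvPolynomial (Fin n) K)} {f : MvPolynomial (Fin n) K}
    (hJ : IsHom J) {k : ℕ} (hf : f.IsHomogeneous k) (hf0 : f ≠ 0) (hreg : ∀ g, g * f ∈ J → g ∈ J) :
    (∀ d < k, hilb (J ⊔ Ideal.span {f}) d = hilb J d) ∧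
      ∀ d, hilb (J ⊔ Ideal.span {f}) (d + k) + hilb J d = hilb J (d + k) := by
  constructor
  · intro d hd
    have : degPart (J ⊔ Ideal.span {f}) d = degPart J d := by
      refine le_antisymm (fun x hx => ?_) (inf_le_inf_left _ fun x hx => Ideal.mem_sup_left hx)
      obtain ⟨hx1, hx2⟩ := mem_degPart.1 hx
      obtain ⟨y, hy, c, rfl⟩ := mem_sup_span hx2
      refine ⟨hx1, ?_⟩
      show y + c * f ∈ J
      rw [← homogeneousComponent_eq_self hx1, map_add, comp_mul_of_lt hf c hd, add_zero]
      exact hJ y hy d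
    rw [hilb, hilb, this]
  · intro d
    let μ : MvPolynomial (Fin n) K →ₗ[K] MvPolynomial (Fin n) K := LinearMap.mulRight K f
    have hμ : Function.Injective μ := mul_left_injective₀ hf0
    set T := (Vd K n d).map μ with hT
    have h1 : degPart (J ⊔ Ideal.span {f}) (d + k) = degPart J (d + k) ⊔ T := by
      refine le_antisymm (fun x hx => ?_) (sup_le (inf_le_inf_left _ fun x hx =>
        Ideal.mem_sup_left hx) ?_)
      · obtain ⟨hx1, hx2⟩ := mem_degPart.1 hx
        obtain ⟨y, hy, c, rfl⟩ := mem_sup_span hx2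
        rw [← homogeneousComponent_eq_self hx1, map_add, comp_mul hf]
        exact Submodule.add_mem_sup ⟨homogeneousComponent_isHomogeneous _ y, hJ y hy _⟩
          ⟨_, homogeneousComponent_isHomogeneous d c, rfl⟩
      · rintro _ ⟨c, hc, rfl⟩
        exact ⟨IsHomogeneous.mul hc hf,
          Ideal.mem_sup_right (Ideal.mul_mem_left _ _ (Ideal.mem_span_singleton_self f))⟩
    have h2 : degPart J (d + k) ⊓ T = (degPart J d).map μ := by
      ext x
      constructor
      · rintro ⟨⟨_, hx2⟩, c, hc, rfl⟩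
        exact ⟨c, ⟨hc, hreg c hx2⟩, rfl⟩
      · rintro ⟨c, ⟨hc1, hc2⟩, rfl⟩
        exact ⟨⟨IsHomogeneous.mul hc1 hf, J.mul_mem_right _ hc2⟩, c, hc1, rfl⟩
    have e := Submodule.finrank_sup_add_finrank_inf_eq (degPart J (d + k)) T
    have e2 : Module.finrank K T = Module.finrank K (Vd K n d) :=
      (Submodule.equivMapOfInjective μ hμ _).finrank_eq.symm
    have e3 : Module.finrank K ((degPart J d).map μ) = Module.finrank K (degPart J d) :=
      (Submodule.equivMapOfInjective μ hμ _).finrank_eq.symm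
    rw [← h1, h2, e2, e3] at e
    have := finrank_degPart_add (J ⊔ Ideal.span {f}) (d + k)
    have := finrank_degPart_add J (d + k)
    have := finrank_degPart_add J d
    omega

/-- The Hilbert series of the polynomial ring. -/
noncomputable def polyHS (K : Type*) [Field K] (n : ℕ) : PowerSeries ℤ :=
  PowerSeries.mk fun d => (Module.finrank K (Vd K n d) : ℤ)

lemma polyHS_mul (n : ℕ) : polyHS K n * (1 - PowerSeries.X) ^ n = 1 := by
  induction n with
  | zero =>
    ext d
    cases d with
    | zero => simp [polyHS, finrank_Vd_zero]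
    | succ d => simp [polyHS, finrank_Vd_zero_succ]
  | succ n ih =>
    have h : polyHS K (n + 1) * (1 - PowerSeries.X) = polyHS K n := by
      ext d
      cases d with
      | zero => simp [polyHS, finrank_Vd_zero, mul_sub]
      | succ d =>
        simp [polyHS, mul_sub, PowerSeries.coeff_succ_mul_X, finrank_Vd_succ' K n d]
    rw [pow_succ', ← mul_assoc, h, ih]

/-- The Hilbert series of a quotient. -/
noncomputable def quotHS (J : Ideal (MvPolynomial (Fin n) K)) : PowerSeries ℤ :=
  PowerSeries.mk fun d => (hilb J d : ℤ)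

lemma coeff_mul_one_sub_pow (P : PowerSeries ℤ) (k d : ℕ) :
    PowerSeries.coeff d (P * (1 - PowerSeries.X ^ k)) =
      PowerSeries.coeff d P - if k ≤ d then PowerSeries.coeff (d - k) P else 0 := by
  rw [mul_sub, mul_one, map_sub, PowerSeries.coeff_mul_X_pow']

/-- A regular sequence of `n` forms in `n` variables contains a power of the maximal ideal. -/
theorem artin_of_isRegSeq {a : Fin n → ℕ} (ha1 : ∀ i, 1 ≤ a i)
    {f : Fin n → MvPolynomial (Fin n) K} (hf : IsRegSeq a f) :
    Artin (Ideal.span (Set.range f)) := by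
  classical
  let J : ℕ → Ideal (MvPolynomial (Fin n) K) := fun i => Ideal.span (f '' {j | j.val < i})
  have hJ : ∀ i, IsHom (J i) := fun i => isHom_span fun g ⟨j, _, hj⟩ => ⟨a j, hj ▸ hf.1 j⟩
  have hser : ∀ i ≤ n, quotHS (J i) = polyHS K n *
      ∏ j ∈ Finset.univ.filter (fun j : Fin n => j.val < i), (1 - PowerSeries.X ^ a j) := by
    intro i
    induction i with
    | zero =>
      intro _
      have hb : ∀ d, degPart (J 0) d = ⊥ := fun d => by
        rw [eq_bot_iff]
        intro x hx
        have h0 : x ∈ J 0 := hx.2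
        simpa [J] using h0
      rw [Finset.prod_eq_one (fun j hj => absurd (Finset.mem_filter.1 hj).2 (Nat.not_lt_zero _))]
      ext d
      simp only [quotHS, polyHS, mul_one, PowerSeries.coeff_mk]
      rw [hilb, hb d, finrank_bot, Nat.sub_zero]
    | succ i ih =>
      intro hi
      have hJs : J (i + 1) = J i ⊔ Ideal.span {f ⟨i, hi⟩} := by
        rw [← Ideal.span_union]
        refine congrArg Ideal.span ?_
        ext g
        constructor
        · rintro ⟨j, hj, rfl⟩
          rcases Nat.lt_succ_iff_lt_or_eq.1 hj with h | h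
          · exact Or.inl ⟨j, h, rfl⟩
          · exact Or.inr (congrArg f (Fin.ext h))
        · rintro (⟨j, hj, rfl⟩ | rfl)
          · exact ⟨j, Nat.lt_succ_of_lt hj, rfl⟩
          · exact ⟨⟨i, hi⟩, Nat.lt_succ_self i, rfl⟩
      have hreg : ∀ g, g * f ⟨i, hi⟩ ∈ J i → g ∈ J i := fun g hg => by
        have he : J i = Ideal.span (f '' {j | j < (⟨i, hi⟩ : Fin n)}) := rfl
        rw [he] at hg ⊢
        exact hf.2 _ g hg
      have hf0 : f ⟨i, hi⟩ ≠ 0 := fun h0 => by
        have h1 : (1 : MvPolynomial (Fin n) K) ∈ J i :=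
          hreg 1 (by rw [h0, mul_zero]; exact zero_mem _)
        have hle : J i ≤ RingHom.ker (constantCoeff : MvPolynomial (Fin n) K →+* K) := by
          rw [Ideal.span_le]
          rintro _ ⟨j, _, rfl⟩
          exact (hf.1 j).coeff_eq_zero (by have := ha1 j; simp; omega)
        simpa [RingHom.mem_ker] using hle h1
      obtain ⟨h1, h2⟩ := hilb_add_form (hJ i) (hf.1 ⟨i, hi⟩) hf0 hreg
      have hfil : Finset.univ.filter (fun j : Fin n => j.val < i + 1) =
          insert ⟨i, hi⟩ (Finset.univ.filter fun j : Fin n => j.val < i) := by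
        ext j
        simp [Fin.ext_iff]
        omega
      rw [hfil, Finset.prod_insert (by simp), mul_comm (1 - PowerSeries.X ^ a ⟨i, hi⟩),
        ← mul_assoc, ← ih (by omega)]
      ext d
      rw [coeff_mul_one_sub_pow]
      simp only [quotHS, PowerSeries.coeff_mk, hJs]
      rcases Nat.lt_or_ge d (a ⟨i, hi⟩) with h | h
      · rw [if_neg (by omega), sub_zero, h1 d h]
      · obtain ⟨e, rfl⟩ := Nat.exists_eq_add_of_le' h
        rw [if_pos h, Nat.add_sub_cancel, ← h2 e]
        push_cast
        ring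
  let G : Polynomial ℤ := ∏ j : Fin n, ∑ k ∈ Finset.range (a j), Polynomial.X ^ k
  have hG : G.natDegree ≤ ∑ j : Fin n, a j := by
    refine (Polynomial.natDegree_prod_le _ _).trans (Finset.sum_le_sum fun j _ => ?_)
    refine Polynomial.natDegree_sum_le_of_forall_le _ _ fun k hk => ?_
    rw [Finset.mem_range] at hk
    exact (Polynomial.natDegree_X_pow_le _).trans hk.le
  set T := (∑ j : Fin n, a j) + 1 with hT
  have hn : hilb (J n) T = 0 := by
    have h := hser n le_rfl
    rw [Finset.filter_true_of_mem (fun j _ => j.isLt)] at h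
    have hprod : ∀ j : Fin n, (1 - PowerSeries.X ^ a j : PowerSeries ℤ) =
        (1 - PowerSeries.X) * ((∑ k ∈ Finset.range (a j), Polynomial.X ^ k : Polynomial ℤ) :
          PowerSeries ℤ) := by
      intro j
      rw [← Polynomial.coeToPowerSeries.ringHom_apply, map_sum]
      simp [mul_neg_geom_sum]
    rw [Finset.prod_congr rfl fun j _ => hprod j, Finset.prod_mul_distrib, Finset.prod_const,
      Finset.card_univ, Fintype.card_fin, ← mul_assoc, polyHS_mul, one_mul] at h
    have h2 := congrArg (PowerSeries.coeff T) h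
    simp only [← Polynomial.coeToPowerSeries.ringHom_apply] at h2
    rw [← map_prod, Polynomial.coeToPowerSeries.ringHom_apply, Polynomial.coeff_coe,
      Polynomial.coeff_eq_zero_of_natDegree_lt (show G.natDegree < T by omega)] at h2
    simpa [quotHS] using h2
  refine ⟨T, fun g hg => ?_⟩
  have hle := degPart_le (J n) T
  have heq : degPart (J n) T = Vd K n T := by
    refine Submodule.eq_of_le_of_finrank_eq hle ?_
    have := finrank_degPart_add (J n) T
    omega
  have hg' : g ∈ degPart (J n) T := by rw [heq]; exact hg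
  refine Ideal.span_mono ?_ hg'.2
  rintro _ ⟨j, _, rfl⟩
  exact ⟨j, rfl⟩

end Vale.Agent.P200
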