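import Mathlib
import Vale.Agent.P200.Regular

/-!
A regular sequence of `c` forms is completed by `n - c` linear forms to forms without a common
zero, over an algebraically closed field.
-/

open MvPolynomial

namespace Vale.Agent.P200


variable {L : Type*} [Field L] {n : ℕ}

/-- The ideal of the origin. -/
noncomputable def origin (L : Type*) [Field L] (n : ℕ) : Ideal (MvPolynomial (Fin n) L) :=
  RingHom.ker (constantCoeff : MvPolynomial (Fin n) L →+* L)

/-- No chain of primes between `J` and the origin has length greater than `k`. -/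
def DimLE (J : Ideal (MvPolynomial (Fin n) L)) (k : ℕ) : Prop :=
  ∀ (m : ℕ) (p : ℕ → Ideal (MvPolynomial (Fin n) L)), (∀ i ≤ m, (p i).IsPrime) →
    (∀ i < m, p i < p (i + 1)) → J ≤ p 0 → p m ≤ origin L n → m ≤ k

lemma dimLE_mono {J J' : Ideal (MvPolynomial (Fin n) L)} (h : J ≤ J') {k : ℕ} (hJ : DimLE J k) :
    DimLE J' k := fun m p hp hlt hle => hJ m p hp hlt (h.trans hle)

lemma dimLE_bot : DimLE (⊥ : Ideal (MvPolynomial (Fin n) L)) n := by
  intro m p hp hlt _ _
  have h1 : (m : ℕ∞) ≤ (p m).height := height_ge_of_chain m p hp hlt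
  have := hp m le_rfl
  have h2 : ((p m).height : WithBot ℕ∞) ≤ (n : WithBot ℕ∞) := by
    refine (Ideal.height_le_ringKrullDim_of_isPrime (I := p m)).trans_eq ?_
    rw [MvPolynomial.ringKrullDim_of_isNoetherianRing, ringKrullDim_eq_zero_of_field]
    simp
  have h3 : (p m).height ≤ (n : ℕ∞) := WithBot.coe_le_coe.1 h2
  exact_mod_cast h1.trans h3

lemma dimLE_extend {J : Ideal (MvPolynomial (Fin n) L)} {k : ℕ} (hJ : DimLE J (k + 1))
    {m : ℕ} {p : ℕ → Ideal (MvPolynomial (Fin n) L)} (hp : ∀ i ≤ m, (p i).IsPrime)
    (hlt : ∀ i < m, p i < p (i + 1)) {P : Ideal (MvPolynomial (Fin n) L)} (hP : P.IsPrime)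
    (hJP : J ≤ P) (hPp : P < p 0) (hend : p m ≤ origin L n) : m ≤ k := by
  have := hJ (m + 1) (fun i => match i with | 0 => P | i + 1 => p i) (fun i hi => ?_)
    (fun i hi => ?_) hJP hend
  · omega
  · cases i with
    | zero => exact hP
    | succ i => exact hp i (by omega)
  · cases i with
    | zero => exact hPp
    | succ i => exact hlt i (by omega)

/-- An element which is regular modulo `J` lowers the dimension. -/
lemma dimLE_add {J : Ideal (MvPolynomial (Fin n) L)} {f : MvPolynomial (Fin n) L} {k : ℕ}
    (hJ : DimLE J (k + 1)) (hreg : ∀ g, g * f ∈ J → g ∈ J) :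
    DimLE (J ⊔ Ideal.span {f}) k := by
  intro m p hp hlt hle hend
  have := hp 0 (Nat.zero_le m)
  obtain ⟨P, hP, hPle⟩ := Ideal.exists_minimalPrimes_le (le_sup_left.trans hle)
  refine dimLE_extend hJ hp hlt hP.1.1 hP.1.2 (lt_of_le_not_ge hPle fun hge => ?_) hend
  obtain ⟨y, hy, hfy⟩ := Ideal.exists_mul_mem_of_mem_minimalPrimes hP
    (hge (hle (Ideal.mem_sup_right (Ideal.mem_span_singleton_self f))))
  exact hy (hreg y (by rwa [mul_comm]))

lemma dimLE_of_isRegSeq {c : ℕ} (hc : c ≤ n) {a : Fin c → ℕ}
    {f : Fin c → MvPolynomial (Fin n) L} (hf : IsRegSeq a f) :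
    DimLE (Ideal.span (Set.range f)) (n - c) := by
  suffices h : ∀ i ≤ c, DimLE (Ideal.span (f '' {j | j.val < i})) (n - i) by
    have h' := h c le_rfl
    have he : (f '' {j | j.val < c}) = Set.range f := by
      ext x
      simp
    rwa [he] at h'
  intro i
  induction i with
  | zero => exact fun _ => dimLE_mono bot_le dimLE_bot
  | succ i ih =>
    intro hi
    have hJs : Ideal.span (f '' {j | j.val < i + 1}) =
        Ideal.span (f '' {j | j < (⟨i, hi⟩ : Fin c)}) ⊔ Ideal.span {f ⟨i, hi⟩} := by
      rw [← Ideal.span_union]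
      refine congrArg Ideal.span ?_
      ext g
      constructor
      · rintro ⟨j, hj, rfl⟩
        rcases Nat.lt_succ_iff_lt_or_eq.1 hj with h | h
        · exact Or.inl ⟨j, h, rfl⟩
        · exact Or.inr (congrArg f (Fin.ext h))
      · rintro (⟨j, hj, rfl⟩ | rfl)
        · exact ⟨j, Nat.lt_succ_of_lt hj, rfl⟩
        · exact ⟨⟨i, hi⟩, Nat.lt_succ_self i, rfl⟩
    rw [hJs]
    refine dimLE_add ?_ (hf.2 _)
    have := ih (by omega)
    rwa [show n - i = n - (i + 1) + 1 by omega] at this

/-- Linear forms, one for each dimension, leave only the zero at the origin. -/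
lemma exists_complete [IsAlgClosed L] : ∀ (k : ℕ) (J : Ideal (MvPolynomial (Fin n) L)),
    IsHom J → DimLE J k →
    ∃ l : Fin k → MvPolynomial (Fin n) L, (∀ i, (l i).IsHomogeneous 1) ∧
      ∀ z : Fin n → L, (∀ g ∈ J, eval z g = 0) → (∀ i, eval z (l i) = 0) → z = 0 := by
  classical
  intro k
  induction k with
  | zero =>
    intro J hJ hdim
    refine ⟨fun i => i.elim0, fun i => i.elim0, fun z hz _ => ?_⟩
    by_contra hz0
    let φ : MvPolynomial (Fin n) L →ₐ[L] Polynomial L :=
      aeval fun i => Polynomial.C (z i) * Polynomial.X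
    let p1 : Ideal (MvPolynomial (Fin n) L) :=
      RingHom.ker (aeval (fun _ => (0 : L)) : MvPolynomial (Fin n) L →ₐ[L] L)
    let p0 : Ideal (MvPolynomial (Fin n) L) := RingHom.ker φ
    have hmon : ∀ g : MvPolynomial (Fin n) L, ∀ d, g.IsHomogeneous d →
        φ g = Polynomial.C (eval z g) * Polynomial.X ^ d := by
      intro g d hg
      conv_lhs => rw [g.as_sum, map_sum]
      conv_rhs => rw [g.as_sum, map_sum, map_sum, Finset.sum_mul]
      refine Finset.sum_congr rfl fun s hs => ?_
      have hsd : Finsupp.degree s = d := by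
        by_contra h
        exact (mem_support_iff.1 hs) (hg.coeff_eq_zero h)
      rw [show φ (monomial s (coeff s g)) = Polynomial.C (coeff s g) *
          s.prod (fun i e => (Polynomial.C (z i) * Polynomial.X) ^ e) from aeval_monomial _ _ _,
        eval_monomial, map_mul, Finsupp.prod, Finsupp.prod, map_prod, mul_assoc, ← hsd,
        Finsupp.degree_apply, ← Finset.prod_pow_eq_pow_sum, ← Finset.prod_mul_distrib]
      simp [mul_pow]
    have hle : J ≤ p0 := fun g hg => by
      show φ g = 0
      rw [← sum_homogeneousComponent g, map_sum]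
      refine Finset.sum_eq_zero fun d _ => ?_
      rw [hmon _ d (homogeneousComponent_isHomogeneous d g), hz _ (hJ g hg d)]
      simp
    have hlt : p0 < p1 := by
      have hcomp : (Polynomial.aeval (0 : L)).comp φ =
          (aeval (fun _ => (0 : L)) : MvPolynomial (Fin n) L →ₐ[L] L) :=
        algHom_ext fun i => by simp [φ]
      refine lt_of_le_not_ge (fun g hg => ?_) fun hge => hz0 (funext fun i => ?_)
      · have hg' : φ g = 0 := hg
        show (aeval fun _ => (0 : L)) g = 0
        rw [← hcomp, AlgHom.comp_apply, hg', map_zero]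
      · have hX : (X i : MvPolynomial (Fin n) L) ∈ p1 := by simp [p1, RingHom.mem_ker]
        have h0 : φ (X i) = 0 := hge hX
        simpa [φ, Polynomial.X_ne_zero] using h0
    have h := hdim 1 (fun i => if i = 0 then p0 else p1) (fun i _ => ?_) (fun i hi => ?_)
      (by simpa using hle) ?_
    · omega
    · split
      · exact RingHom.ker_isPrime _
      · exact RingHom.ker_isPrime _
    · obtain rfl : i = 0 := by omega
      simpa using hlt
    · intro g hg
      have hg' : (aeval fun _ => (0 : L)) g = 0 := by simpa [p1] using hg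
      simpa [origin, RingHom.mem_ker, aeval_zero'] using hg'
  | succ k ih =>
    intro J hJ hdim
    let S := {P ∈ J.minimalPrimes | ∃ i, (X i : MvPolynomial (Fin n) L) ∉ P}
    have : Finite S :=
      ((J.finite_minimalPrimes_of_isNoetherianRing _).subset fun P hP => hP.1).to_subtype
    let lin : (Fin n → L) →ₗ[L] MvPolynomial (Fin n) L :=
      Fintype.linearCombination L (X : Fin n → MvPolynomial (Fin n) L)
    obtain ⟨v, hv⟩ := Submodule.exists_forall_notMem_of_forall_ne_top
      (fun P : S => ((P : Ideal (MvPolynomial (Fin n) L)).restrictScalars L).comap lin)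
      (fun P htop => by
        obtain ⟨i, hi⟩ := P.2.2
        have h : Pi.single i 1 ∈
            ((P : Ideal (MvPolynomial (Fin n) L)).restrictScalars L).comap lin := by
          rw [htop]; trivial
        simp [lin, Fintype.linearCombination_apply_single] at h
        exact hi h)
    have hl : (lin v).IsHomogeneous 1 := by
      have : lin v ∈ Submodule.span L (Set.range (X : Fin n → MvPolynomial (Fin n) L)) := by
        rw [← Fintype.range_linearCombination]
        exact LinearMap.mem_range_self _ v
      rwa [← homogeneousSubmodule_one_eq_span_X] at this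
    have hdim' : DimLE (J ⊔ Ideal.span {lin v}) k := by
      intro m p hp hlt hle hend
      have := hp 0 (Nat.zero_le m)
      obtain ⟨P, hP, hPle⟩ := Ideal.exists_minimalPrimes_le (le_sup_left.trans hle)
      by_cases hPS : ∃ i, (X i : MvPolynomial (Fin n) L) ∉ P
      · refine dimLE_extend hdim hp hlt hP.1.1 hP.1.2 (lt_of_le_not_ge hPle fun hge => ?_) hend
        exact hv ⟨P, hP, hPS⟩ (hge (hle (Ideal.mem_sup_right (Ideal.mem_span_singleton_self _))))
      · push Not at hPS
        rcases Nat.eq_zero_or_pos m with rfl | hm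
        · exact Nat.zero_le k
        exfalso
        obtain ⟨g, hg, hg'⟩ := SetLike.exists_of_lt (hlt 0 hm)
        have h1 : C (constantCoeff g) ∈ p 1 := by
          simpa using sub_mem hg ((hlt 0 hm).le (hPle (sub_constantCoeff_mem P hPS g)))
        rcases eq_or_ne (constantCoeff g) 0 with h0 | h0
        · exact hg' (hPle (by simpa [h0] using sub_constantCoeff_mem P hPS g))
        · exact (hp 1 hm).ne_top (Ideal.eq_top_of_isUnit_mem _ h1 (h0.isUnit.map C))
    have hJ' : IsHom (J ⊔ Ideal.span {lin v}) := by
      intro g hg d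
      obtain ⟨y, hy, c, rfl⟩ := mem_sup_span hg
      rw [map_add]
      refine add_mem (Ideal.mem_sup_left (hJ y hy d)) (Ideal.mem_sup_right ?_)
      exact isHom_span (S := {lin v}) (fun x hx => ⟨1, by rwa [Set.mem_singleton_iff.1 hx]⟩) _
        (Ideal.mul_mem_left _ c (Ideal.mem_span_singleton_self _)) d
    obtain ⟨l, hl', hlz⟩ := ih _ hJ' hdim'
    refine ⟨Fin.cons (lin v) l, fun i => ?_, fun z hz hzl => hlz z (fun g hg => ?_) fun i => ?_⟩
    · cases i using Fin.cases with
      | zero => simpa using hl
      | succ i => simpa using hl' i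
    · obtain ⟨y, hy, c, rfl⟩ := mem_sup_span hg
      have h0 : eval z (lin v) = 0 := by simpa using hzl 0
      simp [hz y hy, h0]
    · simpa using hzl i.succ

/-- Forms whose only common zero is the origin generate all forms of some degree. -/
lemma artin_of_zeros [IsAlgClosed L] {J : Ideal (MvPolynomial (Fin n) L)}
    (h : ∀ z : Fin n → L, (∀ g ∈ J, eval z g = 0) → z = 0) : Artin J := by
  classical
  have hX : ∀ i, (X i : MvPolynomial (Fin n) L) ∈ J.radical := fun i => by
    rw [← vanishingIdeal_zeroLocus_eq_radical (K := L)]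
    intro z hz
    have := h z fun g hg => by simpa using hz g hg
    simp [this]
  have hle : (Ideal.span (Set.range (X : Fin n → MvPolynomial (Fin n) L))) ≤ J.radical :=
    Ideal.span_le.2 (by rintro _ ⟨i, rfl⟩; exact hX i)
  obtain ⟨k, hk⟩ := Ideal.exists_pow_le_of_le_radical_of_fg hle
    (Submodule.fg_span (Set.finite_range _))
  refine ⟨k, fun g hg => hk ?_⟩
  rw [g.as_sum]
  refine sum_mem fun s hs => ?_
  have hsd : Finsupp.degree s = k := by
    by_contra h
    exact (mem_support_iff.1 hs) (hg.coeff_eq_zero h)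
  have h1 := (Ideal.mem_span_pow_iff_exists_isHomogeneous (n := k)
    (X : Fin n → MvPolynomial (Fin n) L) (monomial s (coeff s g))).2
  exact h1 ⟨monomial s (C (coeff s g)), isHomogeneous_monomial _ hsd, by simp [monomial_eq]⟩

end Vale.Agent.P200
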