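import Mathlib
import Vale.Agent.P200.Complete

/-!
Forms without a common zero, as many as variables, form a regular sequence in the given order,
over an algebraically closed field.
-/

open MvPolynomial

namespace Vale.Agent.P200

variable {L : Type*} [Field L] {n : ℕ}

lemma mem_of_components {J : Ideal (MvPolynomial (Fin n) L)} {g : MvPolynomial (Fin n) L}
    (h : ∀ d, homogeneousComponent d g ∈ J) : g ∈ J := by
  rw [← sum_homogeneousComponent g]
  exact sum_mem fun d _ => h d

lemma cancel_of_homog {J : Ideal (MvPolynomial (Fin n) L)} (hJ : IsHom J)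
    {b : MvPolynomial (Fin n) L} {k : ℕ} (hb : b.IsHomogeneous k)
    (h : ∀ d u, u.IsHomogeneous d → u * b ∈ J → u ∈ J) : ∀ u, u * b ∈ J → u ∈ J := fun u hu =>
  mem_of_components fun d => h d _ (homogeneousComponent_isHomogeneous d u)
    (by rw [← comp_mul hb]; exact hJ _ hu _)

/-- Regular forms modulo `J` may be exchanged. -/
lemma swap_regular {J : Ideal (MvPolynomial (Fin n) L)} (hJ : IsHom J)
    {a b : MvPolynomial (Fin n) L} {i k : ℕ} (hi : 0 < i) (ha : a.IsHomogeneous i)
    (hb : b.IsHomogeneous k) (hreg : ∀ u, u * a ∈ J → u ∈ J)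
    (hbreg : ∀ u, u * b ∈ J ⊔ Ideal.span {a} → u ∈ J ⊔ Ideal.span {a}) :
    (∀ u, u * b ∈ J → u ∈ J) ∧
      ∀ u, u * a ∈ J ⊔ Ideal.span {b} → u ∈ J ⊔ Ideal.span {b} := by
  have h1 : ∀ u, u * b ∈ J → u ∈ J := by
    refine cancel_of_homog hJ hb fun d => ?_
    induction d using Nat.strong_induction_on with
    | _ d ih =>
      intro u hu hub
      obtain ⟨y, hy, c, hyc⟩ := mem_sup_span (hbreg u (Ideal.mem_sup_left hub))
      have hd := homogeneousComponent_eq_self hu
      rw [← hyc, map_add] at hd
      rcases Nat.lt_or_ge d i with h | h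
      · rw [comp_mul_of_lt ha c h, add_zero] at hd
        rw [← hyc, ← hd]
        exact hJ y hy d
      · obtain ⟨e, rfl⟩ := Nat.exists_eq_add_of_le' h
        rw [comp_mul ha] at hd
        have hc : homogeneousComponent e c * b * a ∈ J := by
          have h2 : homogeneousComponent e c * a * b =
              u * b - homogeneousComponent (e + i) y * b := by
            rw [← sub_mul, ← hyc, ← hd, add_sub_cancel_left]
          rw [mul_right_comm, h2]
          exact sub_mem hub (J.mul_mem_right _ (hJ y hy _))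
        have hcJ := ih e (by omega) _ (homogeneousComponent_isHomogeneous e c) (hreg _ hc)
        rw [← hyc, ← hd]
        exact add_mem (hJ y hy _) (J.mul_mem_right _ hcJ)
  refine ⟨h1, fun u hu => ?_⟩
  obtain ⟨y, hy, v, hv⟩ := mem_sup_span hu
  have hva : v * b ∈ J ⊔ Ideal.span {a} := by
    rw [eq_sub_of_add_eq' hv]
    exact sub_mem (Ideal.mem_sup_right (Ideal.mul_mem_left _ _ (Ideal.mem_span_singleton_self a)))
      (Ideal.mem_sup_left hy)
  obtain ⟨y', hy', w, hw⟩ := mem_sup_span (hbreg v hva)
  have h2 : (u - w * b) * a ∈ J := by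
    have : (u - w * b) * a = y + y' * b := by
      rw [sub_mul, ← hv, ← hw]; ring
    rw [this]
    exact add_mem hy (J.mul_mem_right _ hy')
  rw [← sub_add_cancel u (w * b)]
  exact add_mem (Ideal.mem_sup_left (hreg _ h2))
    (Ideal.mem_sup_right (Ideal.mul_mem_left _ _ (Ideal.mem_span_singleton_self b)))

lemma X_mem_origin (i : Fin n) : (X i : MvPolynomial (Fin n) L) ∈ origin L n := by
  simp [origin, RingHom.mem_ker]

lemma mem_origin_of_homog {g : MvPolynomial (Fin n) L} {k : ℕ} (hk : 0 < k)
    (hg : g.IsHomogeneous k) : g ∈ origin L n := by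
  show constantCoeff g = 0
  exact hg.coeff_eq_zero (by simp; omega)

lemma map_mem_map_cut {l : MvPolynomial (Fin (n + 1)) L} (P : Cut l)
    {J : Ideal (MvPolynomial (Fin (n + 1)) L)} {u : MvPolynomial (Fin (n + 1)) L}
    (h : P.phi u ∈ J.map P.phi) : u ∈ J ⊔ Ideal.span {l} := by
  obtain ⟨y, hy, he⟩ := (map_mem_map _ P.surj).1 h
  obtain ⟨c, hc⟩ := (P.ker (u - y)).1 (by rw [map_sub, he, sub_self])
  rw [← add_sub_cancel y u, hc]
  exact add_mem (Ideal.mem_sup_left hy)
    (Ideal.mem_sup_right (Ideal.mul_mem_right _ _ (Ideal.mem_span_singleton_self l)))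

lemma map_cut_mem {l : MvPolynomial (Fin (n + 1)) L} (P : Cut l)
    {J : Ideal (MvPolynomial (Fin (n + 1)) L)} {u : MvPolynomial (Fin (n + 1)) L}
    (h : u ∈ J ⊔ Ideal.span {l}) : P.phi u ∈ J.map P.phi := by
  obtain ⟨y, hy, c, rfl⟩ := mem_sup_span h
  rw [map_add, map_mul, (P.ker l).2 (dvd_refl l), mul_zero, add_zero]
  exact Ideal.mem_map_of_mem _ hy

variable [IsAlgClosed L]

/-- When one form completes `J` to an ideal without common zero, so does a linear form. -/
lemma exists_linear_completion {J : Ideal (MvPolynomial (Fin n) L)} (hJ : IsHom J)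
    (hJ0 : J ≤ origin L n) {f : MvPolynomial (Fin n) L} {k : ℕ} (hk : 0 < k)
    (hf : f.IsHomogeneous k) (hA : Artin (J ⊔ Ideal.span {f})) :
    ∃ l : MvPolynomial (Fin n) L, l.IsHomogeneous 1 ∧ Artin (J ⊔ Ideal.span {l}) := by
  classical
  have hdim : DimLE J 1 := by
    intro m p hp hlt hle hend
    by_contra hm
    push Not at hm
    have hmo : (origin L n).IsPrime := RingHom.ker_isPrime _
    have hmono : ∀ i ≤ m, J ≤ p i := by
      intro i
      induction i with
      | zero => exact fun _ => hle
      | succ i ih => exact fun hi => (ih (by omega)).trans (hlt i (by omega)).le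
    let π := Ideal.Quotient.mk J
    let Q : ℕ → Ideal (MvPolynomial (Fin n) L ⧸ J) := fun i => (p i).map π
    have hcomap : ∀ i ≤ m, (Q i).comap π = p i := fun i hi => by
      rw [Ideal.comap_map_of_surjective _ Ideal.Quotient.mk_surjective, ← RingHom.ker_eq_comap_bot,
        Ideal.mk_ker]
      exact sup_eq_left.2 (hmono i hi)
    have hQ : ∀ i ≤ m, (Q i).IsPrime := fun i hi => by
      have := hp i hi
      exact Ideal.map_isPrime_of_surjective Ideal.Quotient.mk_surjective (by
        rw [Ideal.mk_ker]; exact hmono i hi)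
    have hge : (m : ℕ∞) ≤ (Q m).height := by
      refine height_ge_of_chain m Q hQ fun i hi => ?_
      refine lt_of_le_of_ne (Ideal.map_mono (hlt i hi).le) fun he => (hlt i hi).ne ?_
      rw [← hcomap i hi.le, ← hcomap (i + 1) (by omega), he]
    set M := (origin L n).map π
    have hMp : M.IsPrime := Ideal.map_isPrime_of_surjective Ideal.Quotient.mk_surjective (by
      rw [Ideal.mk_ker]; exact hJ0)
    have hmin : M ∈ (Ideal.span (({π f} : Finset (MvPolynomial (Fin n) L ⧸ J)) :
        Set (MvPolynomial (Fin n) L ⧸ J))).minimalPrimes := by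
      refine ⟨⟨hMp, ?_⟩, ?_⟩
      · rw [Finset.coe_singleton, Ideal.span_le, Set.singleton_subset_iff]
        exact Ideal.mem_map_of_mem _ (mem_origin_of_homog hk hf)
      · rintro P ⟨hP, hfP⟩ _
        rw [Ideal.map_le_iff_le_comap]
        intro g hg
        have hP' : (P.comap π).IsPrime := Ideal.IsPrime.comap π
        have hle' : J ⊔ Ideal.span {f} ≤ P.comap π := by
          refine sup_le (fun x hx => ?_) ?_
          · show π x ∈ P
            rw [show π x = 0 from Ideal.Quotient.eq_zero_iff_mem.2 hx]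
            exact P.zero_mem
          · rw [Ideal.span_le, Set.singleton_subset_iff]
            exact hfP (Ideal.subset_span (by simp))
        obtain ⟨T, hT⟩ := hA
        have hX : ∀ i : Fin n, (X i : MvPolynomial (Fin n) L) ∈ P.comap π := fun i =>
          hP'.mem_of_pow_mem T (hle' (hT _ (by simpa using (isHomogeneous_X L i).pow T)))
        have hg0 : constantCoeff g = 0 := hg
        simpa [hg0] using sub_constantCoeff_mem _ hX g
    have hh := (Ideal.height_mono (Ideal.map_mono hend)).trans
      (Ideal.height_le_card_of_mem_minimalPrimes_span_finset hmin)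
    rw [Finset.card_singleton] at hh
    have h3 : (m : ℕ∞) ≤ (1 : ℕ) := hge.trans hh
    have : m ≤ 1 := by exact_mod_cast h3
    omega
  obtain ⟨l, hl, hz⟩ := exists_complete 1 J hJ hdim
  refine ⟨l 0, hl 0, artin_of_zeros fun z hz' => hz z (fun g hg => hz' g (Ideal.mem_sup_left hg))
    fun i => ?_⟩
  obtain rfl : i = 0 := Subsingleton.elim _ _
  exact hz' _ (Ideal.mem_sup_right (Ideal.mem_span_singleton_self _))

/-- The last of `n` forms without common zero can be traded for a linear form `l`: the others are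
then forms without common zero modulo `l`. -/
lemma exists_reduction {a : Fin (n + 1) → ℕ} (ha1 : ∀ i, 1 ≤ a i)
    {f : Fin (n + 1) → MvPolynomial (Fin (n + 1)) L} (hf : ∀ i, (f i).IsHomogeneous (a i))
    (hA : Artin (Ideal.span (Set.range f))) :
    ∃ l : MvPolynomial (Fin (n + 1)) L, l.IsHomogeneous 1 ∧ l ≠ 0 ∧
      Artin (Ideal.span (Set.range (f ∘ Fin.castSucc)) ⊔ Ideal.span {l}) ∧
      ∀ P : Cut l, Artin (Ideal.span (Set.range fun i : Fin n => P.phi (f i.castSucc))) := by
  classical
  set J := Ideal.span (Set.range (f ∘ Fin.castSucc)) with hJdef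
  have hJ : IsHom J := isHom_span fun g ⟨i, hi⟩ => ⟨a i.castSucc, hi ▸ hf _⟩
  have hJ0 : J ≤ origin L (n + 1) := Ideal.span_le.2 (by
    rintro _ ⟨i, rfl⟩; exact mem_origin_of_homog (ha1 _) (hf _))
  obtain ⟨T, hT⟩ := hA
  have hA' : Artin (J ⊔ Ideal.span {f (Fin.last n)}) := ⟨T, fun g hg => by
    refine Ideal.span_le.2 ?_ (hT g hg)
    rintro _ ⟨i, rfl⟩
    cases i using Fin.lastCases with
    | last => exact Ideal.mem_sup_right (Ideal.mem_span_singleton_self _)
    | cast i => exact Ideal.mem_sup_left (Ideal.subset_span ⟨i, rfl⟩)⟩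
  obtain ⟨l, hl, hlA⟩ := exists_linear_completion hJ hJ0 (ha1 _) (hf _) hA'
  have hl0 : l ≠ 0 := by
    rintro rfl
    obtain ⟨N, hN⟩ := hlA
    have h := le_card_of_artin (Finset.univ.image (f ∘ Fin.castSucc))
      (fun x hx => by
        obtain ⟨i, _, rfl⟩ := Finset.mem_image.1 hx
        exact ⟨a i.castSucc, ha1 _, hf _⟩)
      ⟨N, fun g hg => by
        have h1 := hN g hg
        rw [Ideal.span_singleton_zero, sup_bot_eq] at h1
        simpa [hJdef, Function.comp_def] using h1⟩
    have := h.trans Finset.card_image_le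
    simp at this
  refine ⟨l, hl, hl0, hlA, fun P => ?_⟩
  obtain ⟨N, hN⟩ := hlA
  refine ⟨N, fun y hy => ?_⟩
  obtain ⟨g, hg, rfl⟩ := P.sec N y hy
  have h1 := map_cut_mem P (hN g hg)
  rw [hJdef, Ideal.map_span, ← Set.range_comp] at h1
  exact h1

/-- Forms without a common zero, as many as variables, form a regular sequence. -/
theorem artin_regular : ∀ (n : ℕ) (a : Fin n → ℕ), (∀ i, 1 ≤ a i) →
    ∀ f : Fin n → MvPolynomial (Fin n) L, (∀ i, (f i).IsHomogeneous (a i)) →
      Artin (Ideal.span (Set.range f)) →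
      IsRegSeq a f := by
  intro n
  induction n with
  | zero => exact fun a _ f hf _ => ⟨hf, fun i => i.elim0⟩
  | succ n ih =>
    intro a ha1 f hf hA
    obtain ⟨l, hl, hl0, hlA, hP⟩ := exists_reduction ha1 hf hA
    obtain ⟨P⟩ := exists_cut hl hl0
    have hg := ih (fun i => a i.castSucc) (fun i => ha1 _) _
      (fun i => isHomogeneous_map P.phi P.homog (hf i.castSucc)) (hP P)
    let J : ℕ → Ideal (MvPolynomial (Fin (n + 1)) L) := fun i => Ideal.span (f '' {j | j.val < i})
    have hJ : ∀ i, IsHom (J i) := fun i => isHom_span fun g ⟨j, _, hj⟩ => ⟨a j, hj ▸ hf j⟩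
    have hJlt : ∀ i : Fin (n + 1), Ideal.span (f '' {j | j < i}) = J i.val := fun i => rfl
    have hJmap : ∀ i : Fin n, (J i.val).map P.phi =
        Ideal.span ((fun j => P.phi (f j.castSucc)) '' {j | j < i}) := by
      intro i
      rw [Ideal.map_span]
      refine congrArg Ideal.span ?_
      ext y
      constructor
      · rintro ⟨_, ⟨j, hj, rfl⟩, rfl⟩
        exact ⟨⟨j.val, lt_trans hj i.isLt⟩, hj, rfl⟩
      · rintro ⟨j, hj, rfl⟩
        exact ⟨_, ⟨j.castSucc, hj, rfl⟩, rfl⟩
    have hJs : ∀ i : Fin (n + 1), J (i.val + 1) = J i.val ⊔ Ideal.span {f i} := by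
      intro i
      rw [← Ideal.span_union]
      refine congrArg Ideal.span ?_
      ext g
      constructor
      · rintro ⟨j, hj, rfl⟩
        rcases Nat.lt_succ_iff_lt_or_eq.1 hj with h | h
        · exact Or.inl ⟨j, h, rfl⟩
        · exact Or.inr (congrArg f (Fin.ext h))
      · rintro (⟨j, hj, rfl⟩ | rfl)
        · exact ⟨j, Nat.lt_succ_of_lt hj, rfl⟩
        · exact ⟨i, Nat.lt_succ_self _, rfl⟩
    have hquot : ∀ (i : Fin n) u, u * f i.castSucc ∈ J i.val ⊔ Ideal.span {l} →
        u ∈ J i.val ⊔ Ideal.span {l} := by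
      intro i u hu
      have h1 := map_cut_mem P hu
      rw [hJmap, map_mul] at h1
      have h2 := hg.2 i _ h1
      rw [← hJmap] at h2
      exact map_mem_map_cut P h2
    have hlreg : ∀ i ≤ n, ∀ u, u * l ∈ J i → u ∈ J i := by
      intro i
      induction i with
      | zero =>
        intro _ u hu
        have hb : J 0 = ⊥ := by simp [J]
        rw [hb, Ideal.mem_bot] at hu ⊢
        exact (mul_eq_zero.1 hu).resolve_right hl0
      | succ i ihi =>
        intro hi
        have h := hJs ⟨i, by omega⟩
        rw [h]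
        exact (swap_regular (hJ i) one_pos hl (hf (⟨i, hi⟩ : Fin n).castSucc) (ihi (by omega))
          (hquot ⟨i, hi⟩)).2
    refine ⟨hf, fun i g hgi => ?_⟩
    rw [hJlt] at hgi ⊢
    cases i using Fin.lastCases with
    | cast i =>
      exact (swap_regular (hJ i.val) one_pos hl (hf i.castSucc) (hlreg i.val i.isLt.le)
        (hquot i)).1 g hgi
    | last =>
      obtain ⟨T, hT⟩ := hA
      have hK : Ideal.span (Set.range f) ≤ colonBy (J n) g := by
        rw [Ideal.span_le]
        rintro _ ⟨j, rfl⟩
        rw [SetLike.mem_coe, mem_colonBy]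
        cases j using Fin.lastCases with
        | last => rw [mul_comm]; simpa using hgi
        | cast j => exact Ideal.mul_mem_right _ _ (Ideal.subset_span ⟨j.castSucc, j.isLt, rfl⟩)
      have hpow := mem_colonBy.1 (hK (hT (l ^ T) (by simpa using hl.pow T)))
      have hcancel : ∀ k, g * l ^ k ∈ J n → g ∈ J n := by
        intro k
        induction k with
        | zero => intro h; simpa using h
        | succ k ihk =>
          intro h
          rw [pow_succ, ← mul_assoc] at h
          exact ihk (hlreg n le_rfl _ h)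
      exact hcancel T (by rwa [mul_comm] at hpow)

end Vale.Agent.P200
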