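import Mathlib

/-!
The Clements-Lindstrom theorem: in a box with sides increasing from the first coordinate, the
lex-least segments of a level have the smallest lower shadow.
-/

open Finset

namespace Vale.Agent.P200.Box

variable {n : ℕ}

/-- Exponent vectors of total degree `d` with every entry below the bound `a`. -/
def lvl (a : Fin n → ℕ) (d : ℕ) : Finset (Fin n → ℕ) :=
  (piAntidiag univ d).filter fun e => ∀ i, e i < a i

lemma mem_lvl {a : Fin n → ℕ} {d : ℕ} {e : Fin n → ℕ} :
    e ∈ lvl a d ↔ ∑ i, e i = d ∧ ∀ i, e i < a i := by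
  simp [lvl]

/-- Add one to the entry `i`. -/
def up (t : Fin n → ℕ) (i : Fin n) : Fin n → ℕ := Function.update t i (t i + 1)

lemma up_self (t : Fin n → ℕ) (i : Fin n) : up t i i = t i + 1 := by simp [up]

lemma up_of_ne (t : Fin n → ℕ) {i k : Fin n} (h : k ≠ i) : up t i k = t k := by simp [up, h]

lemma sum_up (t : Fin n → ℕ) (i : Fin n) : ∑ k, up t i k = (∑ k, t k) + 1 := by
  classical
  rw [up, sum_update_of_mem (mem_univ i), ← Finset.add_sum_erase univ t (mem_univ i),
    sdiff_singleton_eq_erase]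
  omega

/-- The lower shadow in degree `d`. -/
def sh (a : Fin n → ℕ) (d : ℕ) (A : Finset (Fin n → ℕ)) : Finset (Fin n → ℕ) :=
  (lvl a d).filter fun t => ∃ i, up t i ∈ A

lemma mem_sh {a : Fin n → ℕ} {d : ℕ} {A : Finset (Fin n → ℕ)} {t : Fin n → ℕ} :
    t ∈ sh a d A ↔ t ∈ lvl a d ∧ ∃ i, up t i ∈ A := by simp [sh]

lemma sh_mono {a : Fin n → ℕ} {d : ℕ} {A B : Finset (Fin n → ℕ)} (h : A ⊆ B) :
    sh a d A ⊆ sh a d B := fun _ ht => by
  obtain ⟨h1, i, hi⟩ := mem_sh.1 ht
  exact mem_sh.2 ⟨h1, i, h hi⟩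

lemma toLex_lt_iff {p q : Fin n → ℕ} :
    toLex p < toLex q ↔ ∃ i, (∀ j < i, p j = q j) ∧ p i < q i := Iff.rfl

/-- A lex-least segment of a level. -/
def Seg (a : Fin n → ℕ) (d : ℕ) (S : Finset (Fin n → ℕ)) : Prop :=
  S ⊆ lvl a d ∧ ∀ s ∈ S, ∀ t ∈ lvl a d, toLex t < toLex s → t ∈ S

lemma Seg.total {a : Fin n → ℕ} {d : ℕ} {S T : Finset (Fin n → ℕ)} (hS : Seg a d S)
    (hT : Seg a d T) : S ⊆ T ∨ T ⊆ S := by
  by_contra h
  rw [not_or, not_subset, not_subset] at h
  obtain ⟨⟨s, hs, hs'⟩, ⟨t, ht, ht'⟩⟩ := h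
  rcases lt_trichotomy (toLex s) (toLex t) with h | h | h
  · exact hs' (hT.2 t ht s (hS.1 hs) h)
  · exact hs' (toLex.injective h ▸ ht)
  · exact ht' (hS.2 s hs t (hT.1 ht) h)

lemma exists_seg (a : Fin n → ℕ) (d k : ℕ) (hk : k ≤ (lvl a d).card) :
    ∃ S, Seg a d S ∧ S.card = k := by
  suffices h : ∀ j, j ≤ (lvl a d).card →
      ∃ S, Seg a d S ∧ S.card = (lvl a d).card - j by
    obtain ⟨S, hS, hc⟩ := h ((lvl a d).card - k) (Nat.sub_le _ _)
    exact ⟨S, hS, by omega⟩
  intro j
  induction j with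
  | zero => exact fun _ => ⟨lvl a d, ⟨Subset.refl _, fun _ _ t ht _ => ht⟩, by simp⟩
  | succ j ih =>
    intro hj
    obtain ⟨S, hS, hc⟩ := ih (by omega)
    have hne : S.Nonempty := card_pos.1 (by omega)
    obtain ⟨s, hs, hmax⟩ := S.exists_max_image (fun t => toLex t) hne
    refine ⟨S.erase s, ⟨(erase_subset _ _).trans hS.1, fun u hu t ht hlt => ?_⟩, ?_⟩
    · refine mem_erase.2 ⟨?_, hS.2 u (mem_of_mem_erase hu) t ht hlt⟩
      rintro rfl
      exact absurd hlt (not_lt.2 (hmax u (mem_of_mem_erase hu)))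
    · rw [card_erase_of_mem hs, hc]; omega

lemma exists_cover_le {a : Fin n → ℕ} {d : ℕ} {t t' : Fin n → ℕ} (ht : t ∈ lvl a d)
    (ht' : t' ∈ lvl a d) (hlt : toLex t' < toLex t) {k : Fin n}
    (hk : up t k ∈ lvl a (d + 1)) :
    ∃ k', up t' k' ∈ lvl a (d + 1) ∧ toLex (up t' k') ≤ toLex (up t k) := by
  classical
  obtain ⟨i, hlow, hi⟩ := toLex_lt_iff.1 hlt
  rw [mem_lvl] at ht ht'
  have hk2 := (mem_lvl.1 hk).2
  have hup : ∀ k', t' k' + 1 < a k' → up t' k' ∈ lvl a (d + 1) := fun k' h => by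
    refine mem_lvl.2 ⟨by rw [sum_up, ht'.1], fun j => ?_⟩
    by_cases hj : j = k'
    · rw [hj, up_self]; exact h
    · rw [up_of_ne _ hj]; exact ht'.2 j
  have hsi : t i ≤ up t k i := by
    by_cases h : i = k
    · rw [h, up_self]; omega
    · rw [up_of_ne _ h]
  by_cases hex : ∃ k', i < k' ∧ t' k' + 1 < a k'
  · obtain ⟨k', hik, hcap⟩ := hex
    refine ⟨k', hup k' hcap, le_of_lt ?_⟩
    by_cases hki : k < i
    · refine toLex_lt_iff.2 ⟨k, fun j hj => ?_, ?_⟩
      · rw [up_of_ne _ (hj.trans (hki.trans hik)).ne, up_of_ne _ hj.ne, hlow j (hj.trans hki)]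
      · rw [up_of_ne _ (hki.trans hik).ne, up_self, hlow k hki]; omega
    · refine toLex_lt_iff.2 ⟨i, fun j hj => ?_, ?_⟩
      · rw [up_of_ne _ (hj.trans hik).ne, up_of_ne _ (hj.trans_le (not_lt.1 hki)).ne, hlow j hj]
      · rw [up_of_ne _ hik.ne]; omega
  · have hi' : t' i + 1 < a i := by have := ht.2 i; omega
    refine ⟨i, hup i hi', ?_⟩
    by_cases hki : k < i
    · refine (le_of_lt (toLex_lt_iff.2 ⟨k, fun j hj => ?_, ?_⟩))
      · rw [up_of_ne _ (hj.trans hki).ne, up_of_ne _ hj.ne, hlow j (hj.trans hki)]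
      · rw [up_of_ne _ hki.ne, up_self, hlow k hki]; omega
    · rcases lt_or_eq_of_le (show up t' i i ≤ up t k i by rw [up_self]; omega) with h | h
      · refine le_of_lt (toLex_lt_iff.2 ⟨i, fun j hj => ?_, h⟩)
        rw [up_of_ne _ hj.ne, up_of_ne _ (hj.trans_le (not_lt.1 hki)).ne, hlow j hj]
      · refine le_of_eq (congrArg toLex ?_)
        have hle : ∀ j, up t k j ≤ up t' i j := by
          intro j
          rcases lt_trichotomy j i with hj | rfl | hj
          · rw [up_of_ne _ hj.ne, up_of_ne _ (hj.trans_le (not_lt.1 hki)).ne, hlow j hj]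
          · exact h.ge
          · have h1 : a j ≤ t' j + 1 := by
              by_contra hc
              exact hex ⟨j, hj, by omega⟩
            have := hk2 j
            rw [up_of_ne _ hj.ne']
            omega
        have hsum : ∑ j, up t k j = ∑ j, up t' i j := by rw [sum_up, sum_up, ht.1, ht'.1]
        funext j
        exact ((Finset.sum_eq_sum_iff_of_le fun j _ => hle j).1 hsum j (mem_univ j)).symm

lemma Seg.shadow {a : Fin n → ℕ} {d : ℕ} {S : Finset (Fin n → ℕ)} (hS : Seg a (d + 1) S) :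
    Seg a d (sh a d S) := by
  refine ⟨filter_subset _ _, fun t ht t' ht' hlt => ?_⟩
  obtain ⟨ht1, k, hk⟩ := mem_sh.1 ht
  obtain ⟨k', hk', hle⟩ := exists_cover_le ht1 ht' hlt (hS.1 hk)
  refine mem_sh.2 ⟨ht', k', ?_⟩
  rcases hle.lt_or_eq with h | h
  · exact hS.2 _ hk _ hk' h
  · rwa [toLex.injective h]

/-- Lex-least segments have the smallest shadow in the box `a`. -/
def IsBest (n : ℕ) (a : Fin n → ℕ) : Prop :=
  ∀ d (A S : Finset (Fin n → ℕ)), A ⊆ lvl a (d + 1) → Seg a (d + 1) S → S.card = A.card →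
    (sh a d S).card ≤ (sh a d A).card

section slices

variable (a : Fin (n + 1) → ℕ) (i : Fin (n + 1))

lemma insertNth_mem_lvl {v d : ℕ} {u : Fin n → ℕ} (hv : v ≤ d) :
    Fin.insertNth (α := fun _ => ℕ) i v u ∈ lvl a d ↔
      v < a i ∧ u ∈ lvl (a ∘ i.succAbove) (d - v) := by
  simp only [mem_lvl, Fin.sum_univ_succAbove _ i, Fin.forall_iff_succAbove i,
    Fin.insertNth_apply_same, Fin.insertNth_apply_succAbove, Function.comp_apply]
  constructor
  · rintro ⟨h1, h2, h3⟩; exact ⟨h2, by omega, h3⟩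
  · rintro ⟨h2, h1, h3⟩; exact ⟨by omega, h2, h3⟩

lemma le_of_insertNth_mem {v d : ℕ} {u : Fin n → ℕ}
    (h : Fin.insertNth (α := fun _ => ℕ) i v u ∈ lvl a d) : v ≤ d := by
  rw [mem_lvl, Fin.sum_univ_succAbove _ i, Fin.insertNth_apply_same] at h
  omega

lemma up_insertNth_self (v : ℕ) (u : Fin n → ℕ) :
    up (Fin.insertNth (α := fun _ => ℕ) i v u) i = Fin.insertNth (α := fun _ => ℕ) i (v + 1) u := by
  refine (Fin.insertNth_eq_iff (α := fun _ => ℕ)).2 ⟨?_, ?_⟩ |>.symm
  · simp [up_self]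
  · funext k
    simp [Fin.removeNth, up_of_ne _ (Fin.succAbove_ne i k)]

lemma up_insertNth_succAbove (v : ℕ) (u : Fin n → ℕ) (k : Fin n) :
    up (Fin.insertNth (α := fun _ => ℕ) i v u) (i.succAbove k) =
      Fin.insertNth (α := fun _ => ℕ) i v (up u k) := by
  refine (Fin.insertNth_eq_iff (α := fun _ => ℕ)).2 ⟨?_, ?_⟩ |>.symm
  · simp [up_of_ne _ (Fin.succAbove_ne i k).symm]
  · funext j
    by_cases h : j = k
    · subst h; simp [Fin.removeNth, up_self]
    · simp [Fin.removeNth, up_of_ne _ h,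
        up_of_ne _ (fun e => h (Fin.succAbove_right_injective e))]

lemma toLex_insertNth_lt (v : ℕ) {u u' : Fin n → ℕ} :
    toLex (Fin.insertNth (α := fun _ => ℕ) i v u) < toLex (Fin.insertNth (α := fun _ => ℕ) i v u') ↔
      toLex u < toLex u' := by
  simp only [toLex_lt_iff]
  constructor
  · rintro ⟨j, h1, h2⟩
    rcases Fin.eq_self_or_eq_succAbove i j with rfl | ⟨j, rfl⟩
    · simp at h2
    · refine ⟨j, fun k hk => ?_, by simpa using h2⟩
      simpa using h1 (i.succAbove k) (Fin.strictMono_succAbove i hk)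
  · rintro ⟨j, h1, h2⟩
    refine ⟨i.succAbove j, fun k hk => ?_, by simpa using h2⟩
    rcases Fin.eq_self_or_eq_succAbove i k with rfl | ⟨k, rfl⟩
    · simp
    · simpa using h1 k ((Fin.strictMono_succAbove i).lt_iff_lt.1 hk)

/-- The slice at value `v` of coordinate `i`. -/
def slice (d : ℕ) (A : Finset (Fin (n + 1) → ℕ)) (v : ℕ) : Finset (Fin n → ℕ) :=
  (lvl (a ∘ i.succAbove) (d - v)).filter fun u => Fin.insertNth (α := fun _ => ℕ) i v u ∈ A

/-- The set with given slices. -/
def unslice (d : ℕ) (L : ℕ → Finset (Fin n → ℕ)) : Finset (Fin (n + 1) → ℕ) :=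
  (lvl a d).filter fun e => Fin.removeNth i e ∈ L (e i)

lemma mem_slice {d v : ℕ} {A : Finset (Fin (n + 1) → ℕ)} {u : Fin n → ℕ}
    (hA : A ⊆ lvl a d) : u ∈ slice a i d A v ↔ Fin.insertNth (α := fun _ => ℕ) i v u ∈ A := by
  simp only [slice, mem_filter, and_iff_right_iff_imp]
  exact fun h => ((insertNth_mem_lvl a i (le_of_insertNth_mem a i (hA h))).1 (hA h)).2

lemma slice_unslice {d v : ℕ} {L : ℕ → Finset (Fin n → ℕ)} (hv : v ≤ d) (hva : v < a i)
    (hL : L v ⊆ lvl (a ∘ i.succAbove) (d - v)) : slice a i d (unslice a i d L) v = L v := by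
  ext u
  simp only [slice, unslice, mem_filter, insertNth_mem_lvl a i hv, Fin.removeNth_insertNth,
    Fin.insertNth_apply_same]
  exact ⟨fun h => h.2.2, fun h => ⟨hL h, ⟨hva, hL h⟩, h⟩⟩

lemma card_eq_sum_slice {d : ℕ} {A : Finset (Fin (n + 1) → ℕ)} (hA : A ⊆ lvl a d) :
    A.card = ∑ v ∈ (range (d + 1)).filter (fun v => v < a i), (slice a i d A v).card := by
  rw [card_eq_sum_card_fiberwise (f := fun e => e i)
    (t := (range (d + 1)).filter fun v => v < a i)]
  · refine sum_congr rfl fun v _ => card_bij (fun e _ => Fin.removeNth i e) ?_ ?_ ?_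
    · intro e he
      simp only [mem_filter] at he
      rw [mem_slice a i hA, ← he.2, Fin.insertNth_self_removeNth]
      exact he.1
    · intro e he e' he' h
      simp only [mem_filter] at he he'
      rw [← Fin.insertNth_self_removeNth i e, ← Fin.insertNth_self_removeNth i e', h, he.2, he'.2]
    · intro u hu
      rw [mem_slice a i hA] at hu
      exact ⟨Fin.insertNth (α := fun _ => ℕ) i v u, by simp [hu],
        Fin.removeNth_insertNth (α := fun _ => ℕ) i v u⟩
  · intro e he
    have h := mem_lvl.1 (hA he)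
    simp only [coe_filter, Set.mem_ofPred_eq, mem_range]
    refine ⟨?_, h.2 i⟩
    have := single_le_sum (f := e) (fun _ _ => Nat.zero_le _) (mem_univ i)
    omega

lemma slice_sh {d v : ℕ} {A : Finset (Fin (n + 1) → ℕ)} (hA : A ⊆ lvl a (d + 1)) (hv : v ≤ d)
    (hva : v < a i) : slice a i d (sh a d A) v =
      sh (a ∘ i.succAbove) (d - v) (slice a i (d + 1) A v) ∪ slice a i (d + 1) A (v + 1) := by
  ext u
  rw [mem_slice a i (show sh a d A ⊆ lvl a d from filter_subset _ _), mem_sh, mem_union, mem_sh, mem_slice a i hA,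
    insertNth_mem_lvl a i hv, Fin.exists_iff_succAbove i]
  simp only [up_insertNth_self, up_insertNth_succAbove, mem_slice a i hA]
  constructor
  · rintro ⟨⟨_, hu⟩, h | h⟩
    · exact Or.inr h
    · exact Or.inl ⟨hu, h⟩
  · rintro (⟨hu, h⟩ | h)
    · exact ⟨⟨hva, hu⟩, Or.inr h⟩
    · have := ((insertNth_mem_lvl a i (by omega)).1 (hA h)).2
      rw [Nat.add_sub_add_right] at this
      exact ⟨⟨hva, this⟩, Or.inl h⟩

lemma card_sh_eq {d : ℕ} {A : Finset (Fin (n + 1) → ℕ)} (hA : A ⊆ lvl a (d + 1)) :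
    (sh a d A).card = ∑ v ∈ (range (d + 1)).filter (fun v => v < a i),
      (sh (a ∘ i.succAbove) (d - v) (slice a i (d + 1) A v) ∪
        slice a i (d + 1) A (v + 1)).card := by
  rw [card_eq_sum_slice a i (A := sh a d A) (filter_subset _ _)]
  refine sum_congr rfl fun v hv => ?_
  simp only [mem_filter, mem_range] at hv
  rw [slice_sh a i hA (by omega) hv.2]

lemma slice_subset (d : ℕ) (A : Finset (Fin (n + 1) → ℕ)) (v : ℕ) :
    slice a i d A v ⊆ lvl (a ∘ i.succAbove) (d - v) := filter_subset _ _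

lemma slice_eq_empty {d v : ℕ} {A : Finset (Fin (n + 1) → ℕ)} (hA : A ⊆ lvl a d)
    (h : d < v ∨ a i ≤ v) : slice a i d A v = ∅ := by
  rw [eq_empty_iff_forall_notMem]
  intro u hu
  rw [mem_slice a i hA] at hu
  have h1 := le_of_insertNth_mem a i (hA hu)
  have h2 := ((insertNth_mem_lvl a i h1).1 (hA hu)).1
  omega

end slices

lemma sum_le_of_seg {α : Type*} [DecidableEq α] {f : α → ℕ} {S T : Finset α}
    (h : ∀ s ∈ S \ T, ∀ t ∈ T \ S, f s < f t) (hc : S.card = T.card) :
    (∑ x ∈ S, f x ≤ ∑ x ∈ T, f x) ∧ (∑ x ∈ T, f x ≤ ∑ x ∈ S, f x → S = T) := by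
  have h1 := sum_sdiff_sub_sum_sdiff (s₁ := S) (s₂ := T) (f := fun x => (f x : ℤ))
  have hc2 : (S \ T).card = (T \ S).card := by
    have e1 := card_sdiff_add_card_inter S T
    have e2 := card_sdiff_add_card_inter T S
    rw [inter_comm T S] at e2
    omega
  obtain ⟨e⟩ : Nonempty ((S \ T : Finset α) ≃ (T \ S : Finset α)) :=
    ⟨Finset.equivOfCardEq hc2⟩
  have hsumle : ∑ x ∈ S \ T, f x ≤ ∑ x ∈ T \ S, f x := by
    rw [← sum_coe_sort (S \ T), ← sum_coe_sort (T \ S), ← e.sum_comp]
    exact sum_le_sum fun x _ => (h _ x.2 _ (e x).2).le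
  have e1 := sum_inter_add_sum_sdiff S T f
  have e2 := sum_inter_add_sum_sdiff T S f
  rw [inter_comm T S] at e2
  refine ⟨by omega, fun hle => ?_⟩
  by_contra hne
  obtain ⟨s, hs⟩ : (S \ T).Nonempty := by
    rw [sdiff_nonempty]
    exact fun hsub => hne (eq_of_subset_of_card_le hsub hc.ge)
  have hlt : ∑ x ∈ S \ T, f x < ∑ x ∈ T \ S, f x := by
    rw [← sum_coe_sort (S \ T), ← sum_coe_sort (T \ S), ← e.sum_comp]
    exact sum_lt_sum_of_nonempty ⟨⟨s, hs⟩, mem_univ _⟩ fun x _ => h _ x.2 _ (e x).2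
  omega

open scoped Classical in
/-- Position of `e` in its level. -/
noncomputable def rank (a : Fin n → ℕ) (d : ℕ) (e : Fin n → ℕ) : ℕ :=
  ((lvl a d).filter fun t => toLex t < toLex e).card

lemma rank_lt {a : Fin n → ℕ} {d : ℕ} {e e' : Fin n → ℕ} (he : e ∈ lvl a d)
    (h : toLex e < toLex e') : rank a d e < rank a d e' := by
  classical
  refine card_lt_card ⟨?_, fun hsub => ?_⟩
  · intro t ht
    rw [mem_filter] at ht ⊢
    exact ⟨ht.1, ht.2.trans h⟩
  · exact absurd (mem_filter.1 (hsub (mem_filter.2 ⟨he, h⟩))).2 (lt_irrefl _)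

/-- Replacing every slice by a segment gains in shadow and in position. -/
lemma compress (a : Fin (n + 1) → ℕ) (i : Fin (n + 1)) (ih : IsBest n (a ∘ i.succAbove))
    {d : ℕ} {A : Finset (Fin (n + 1) → ℕ)} (hA : A ⊆ lvl a (d + 1)) :
    ∃ B : Finset (Fin (n + 1) → ℕ), B ⊆ lvl a (d + 1) ∧ B.card = A.card ∧
      (sh a d B).card ≤ (sh a d A).card ∧
      ∑ x ∈ B, rank a (d + 1) x ≤ ∑ x ∈ A, rank a (d + 1) x ∧
      (∑ x ∈ A, rank a (d + 1) x ≤ ∑ x ∈ B, rank a (d + 1) x →
        ∀ v, Seg (a ∘ i.succAbove) (d + 1 - v) (slice a i (d + 1) A v)) := by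
  choose L hL hLc using fun v => exists_seg (a ∘ i.succAbove) (d + 1 - v)
    (slice a i (d + 1) A v).card (card_le_card (slice_subset a i _ A v))
  have hs : ∀ v, slice a i (d + 1) (unslice a i (d + 1) L) v = L v := by
    intro v
    by_cases hv : v ≤ d + 1 ∧ v < a i
    · exact slice_unslice a i hv.1 hv.2 (hL v).1
    · have h0 : slice a i (d + 1) A v = ∅ := slice_eq_empty a i hA (by omega)
      have hB : slice a i (d + 1) (unslice a i (d + 1) L) v = ∅ :=
        slice_eq_empty a i (filter_subset _ _) (by omega)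
      rw [hB]
      symm
      rw [← card_eq_zero, hLc, h0, card_empty]
  set B := unslice a i (d + 1) L with hB
  have hBsub : B ⊆ lvl a (d + 1) := filter_subset _ _
  refine ⟨B, hBsub, ?_, ?_, ?_⟩
  · rw [card_eq_sum_slice a i hBsub, card_eq_sum_slice a i hA]
    exact sum_congr rfl fun v _ => by rw [hs, hLc]
  · rw [card_sh_eq a i hBsub, card_sh_eq a i hA]
    refine sum_le_sum fun v hv => ?_
    simp only [mem_filter, mem_range] at hv
    rw [hs, hs]
    have he : d + 1 - v = d - v + 1 := by omega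
    have h1 : Seg (a ∘ i.succAbove) (d - v) (sh (a ∘ i.succAbove) (d - v) (L v)) := by
      refine Seg.shadow ?_
      rw [← he]; exact hL v
    have h2 : Seg (a ∘ i.succAbove) (d - v) (L (v + 1)) := by
      have := hL (v + 1)
      rwa [Nat.add_sub_add_right] at this
    have h3 : (sh (a ∘ i.succAbove) (d - v) (L v)).card ≤
        (sh (a ∘ i.succAbove) (d - v) (slice a i (d + 1) A v)).card := by
      refine ih _ _ _ ?_ ?_ (hLc v)
      · rw [← he]; exact slice_subset a i _ A v
      · rw [← he]; exact hL v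
    rcases h1.total h2 with h | h
    · rw [union_eq_right.2 h, hLc]
      exact card_le_card subset_union_right
    · rw [union_eq_left.2 h]
      exact h3.trans (card_le_card subset_union_left)
  · have key : ∀ v, ∀ s ∈ L v \ slice a i (d + 1) A v, ∀ t ∈ slice a i (d + 1) A v \ L v,
        rank a (d + 1) (Fin.insertNth (α := fun _ => ℕ) i v s) <
          rank a (d + 1) (Fin.insertNth (α := fun _ => ℕ) i v t) := by
      intro v s hs' t ht'
      rw [mem_sdiff] at hs' ht'
      refine rank_lt ?_ ((toLex_insertNth_lt i v).2 ?_)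
      · have := hs'.1
        rw [← hs v, mem_slice a i hBsub] at this
        exact hBsub this
      · rcases lt_trichotomy (toLex s) (toLex t) with h | h | h
        · exact h
        · exact absurd (toLex.injective h ▸ hs'.1) ht'.2
        · exact absurd ((hL v).2 s hs'.1 t (slice_subset a i _ A v ht'.1) h) ht'.2
    have hsum : ∀ X : Finset (Fin (n + 1) → ℕ), X ⊆ lvl a (d + 1) →
        ∑ x ∈ X, rank a (d + 1) x = ∑ v ∈ (range (d + 2)).filter (fun v => v < a i),
          ∑ u ∈ slice a i (d + 1) X v,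
            rank a (d + 1) (Fin.insertNth (α := fun _ => ℕ) i v u) := by
      intro X hX
      rw [← sum_fiberwise_of_maps_to (g := fun e => e i)
        (t := (range (d + 2)).filter fun v => v < a i)]
      · refine sum_congr rfl fun v _ => sum_bij' (fun e _ => Fin.removeNth i e)
          (fun u _ => Fin.insertNth (α := fun _ => ℕ) i v u) ?_ ?_ ?_ ?_ ?_
        · intro e he
          simp only [mem_filter] at he
          rw [mem_slice a i hX, ← he.2, Fin.insertNth_self_removeNth]
          exact he.1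
        · intro u hu
          rw [mem_slice a i hX] at hu
          simp [hu]
        · intro e he
          simp only [mem_filter] at he
          rw [← he.2, Fin.insertNth_self_removeNth]
        · intro u _
          exact Fin.removeNth_insertNth (α := fun _ => ℕ) i v u
        · intro e he
          simp only [mem_filter] at he
          rw [← he.2, Fin.insertNth_self_removeNth]
      · intro e he
        have h := mem_lvl.1 (hX he)
        simp only [mem_filter, mem_range]
        refine ⟨?_, h.2 i⟩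
        have := single_le_sum (f := e) (fun _ _ => Nat.zero_le _) (mem_univ i)
        omega
    rw [hsum B hBsub, hsum A hA]
    simp only [hs]
    refine ⟨sum_le_sum fun v _ => (sum_le_of_seg (key v) (hLc v)).1, fun hle v => ?_⟩
    by_cases hv : v ∈ (range (d + 2)).filter (fun v => v < a i)
    · have heq := (sum_eq_sum_iff_of_le fun v _ => (sum_le_of_seg (key v) (hLc v)).1).1
        (le_antisymm (sum_le_sum fun v _ => (sum_le_of_seg (key v) (hLc v)).1) hle) v hv
      rw [← (sum_le_of_seg (key v) (hLc v)).2 heq.ge]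
      exact hL v
    · simp only [mem_filter, mem_range] at hv
      rw [slice_eq_empty a i hA (by omega)]
      exact ⟨empty_subset _, fun s hs => absurd hs (notMem_empty s)⟩

end Vale.Agent.P200.Box
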