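import Mathlib
import Vale.Agent.P200.Box

/-!
Proof of the Clements-Lindstrom theorem by compression and one exchange.
-/

open Finset

namespace Vale.Agent.P200.Box

lemma exists_le_sum {ι : Type*} (s : Finset ι) (q : ι → ℕ) :
    ∀ t ≤ ∑ i ∈ s, q i, ∃ r : ι → ℕ,
      (∀ i, r i ≤ q i) ∧ (∀ i ∉ s, r i = q i) ∧ ∑ i ∈ s, r i = t := by
  classical
  induction s using Finset.induction with
  | empty => exact fun t ht => ⟨q, fun _ => le_rfl, fun _ _ => rfl, by simp at ht ⊢; omega⟩
  | insert j s hj ih =>
    intro t ht
    rw [sum_insert hj] at ht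
    obtain ⟨r, h1, h2, h3⟩ := ih (t - q j) (by omega)
    refine ⟨Function.update r j (min t (q j)), fun i => ?_, fun i hi => ?_, ?_⟩
    · by_cases h : i = j
      · subst h; simp
      · simpa [h] using h1 i
    · rw [mem_insert, not_or] at hi
      simpa [hi.1] using h2 i hi.2
    · rw [sum_insert hj, Function.update_self, sum_congr rfl fun i hi =>
        Function.update_of_ne (show i ≠ j from fun e => hj (e ▸ hi)) _ r, h3]
      omega

variable {n : ℕ}

/-- Membership passes to smaller elements of the level agreeing in some coordinate. -/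
def Closed (a : Fin n → ℕ) (d : ℕ) (A : Finset (Fin n → ℕ)) : Prop :=
  ∀ r ∈ A, ∀ t ∈ lvl a d, toLex t < toLex r → (∃ i, t i = r i) → t ∈ A

lemma lt_of_head_lt {p q : Fin (n + 1) → ℕ} (h : p 0 < q 0) : toLex p < toLex q :=
  toLex_lt_iff.2 ⟨0, fun j hj => absurd hj (Fin.not_lt_zero j), h⟩

lemma sum_split {m : ℕ} (e : Fin (m + 3) → ℕ) : ∑ i, e i =
    e 0 + e 1 + e (Fin.last (m + 2)) +
      ∑ i ∈ (((univ : Finset (Fin (m + 3))).erase 0).erase 1).erase (Fin.last (m + 2)), e i := by
  have h1 : (1 : Fin (m + 3)) ≠ 0 := by simp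
  have h2 : Fin.last (m + 2) ≠ 0 := by simp [Fin.ext_iff]
  have h3 : Fin.last (m + 2) ≠ 1 := by simp [Fin.ext_iff]
  rw [← add_sum_erase univ e (mem_univ 0),
    ← add_sum_erase (univ.erase 0) e (mem_erase.2 ⟨h1, mem_univ _⟩),
    ← add_sum_erase ((univ.erase 0).erase 1) e
      (mem_erase.2 ⟨h3, mem_erase.2 ⟨h2, mem_univ _⟩⟩)]
  ring

lemma chain_false {m d : ℕ} {a : Fin (m + 3) → ℕ} (ha : Monotone a)
    {A : Finset (Fin (m + 3) → ℕ)} (hA : A ⊆ lvl a d) (hC : Closed a d A)
    {p q : Fin (m + 3) → ℕ} (hp : p ∈ lvl a d) (hpA : p ∉ A) (hqA : q ∈ A)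
    (hpq : toLex p < toLex q) (hlast : q (Fin.last (m + 2)) < p (Fin.last (m + 2)))
    (hside : q (Fin.last (m + 2)) = 0 ∨ a (Fin.last (m + 2)) ≤ p (Fin.last (m + 2)) + 1) :
    False := by
  set L : Fin (m + 3) := Fin.last (m + 2) with hL
  have e1 : (1 : Fin (m + 3)) ≠ 0 := by simp
  have eL0 : L ≠ 0 := by simp [L, Fin.ext_iff]
  have eL1 : L ≠ 1 := by simp [L, Fin.ext_iff]
  have hdiff : ∀ i, p i ≠ q i := fun i hi => hpA (hC q hqA p hp hpq ⟨i, hi⟩)
  have up' : ∀ x ∈ lvl a d, toLex p < toLex x → (∃ i, p i = x i) → x ∉ A :=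
    fun x _ hlt hsh hxA => hpA (hC x hxA p hp hlt hsh)
  have mid : ∀ x ∈ lvl a d, toLex p < toLex x → (∃ i, p i = x i) → toLex x < toLex q →
      (∃ i, x i = q i) → False :=
    fun x hx h1 h2 h3 h4 => up' x hx h1 h2 (hC q hqA x hx h3 h4)
  have h0 : p 0 < q 0 := by
    obtain ⟨i, hlow, hi⟩ := toLex_lt_iff.1 hpq
    rcases eq_or_ne i 0 with rfl | hne
    · exact hi
    · exact absurd (hlow 0 (Fin.pos_iff_ne_zero.2 hne)) (hdiff 0)
  have hsp := (mem_lvl.1 hp).1
  have hsq := (mem_lvl.1 (hA hqA)).1
  have hbp := (mem_lvl.1 hp).2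
  have hbq := (mem_lvl.1 (hA hqA)).2
  rw [sum_split, ← hL] at hsp hsq
  by_cases hd : q 0 - p 0 ≤ p L
  · have hq1 : q 1 < p 1 := by
      set x := Function.update (Function.update p 0 (q 0)) L (p L - (q 0 - p 0)) with hx
      have x0 : x 0 = q 0 := by rw [hx, Function.update_of_ne eL0.symm, Function.update_self]
      have xo : ∀ i : Fin (m + 3), i ≠ 0 → i ≠ L → x i = p i := fun i h1 h2 => by
        rw [hx, Function.update_of_ne h2, Function.update_of_ne h1]
      have xL : x L = p L - (q 0 - p 0) := by rw [hx, Function.update_self]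
      have xmem : x ∈ lvl a d := by
        refine mem_lvl.2 ⟨?_, fun i => ?_⟩
        · have hs : ∑ i ∈ (((univ : Finset (Fin (m + 3))).erase 0).erase 1).erase L, x i =
              ∑ i ∈ (((univ : Finset (Fin (m + 3))).erase 0).erase 1).erase L, p i :=
            sum_congr rfl fun i hi => xo i
              (ne_of_mem_erase (mem_of_mem_erase (mem_of_mem_erase hi))) (ne_of_mem_erase hi)
          rw [sum_split, ← hL, x0, xo 1 e1 eL1.symm, xL, hs]
          omega
        · rcases eq_or_ne i L with rfl | h2
          · rw [xL]; have := hbp L; omega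
          rcases eq_or_ne i 0 with rfl | h1
          · rw [x0]; exact hbq 0
          · rw [xo i h1 h2]; exact hbp i
      have hpx : toLex p < toLex x := lt_of_head_lt (by rw [x0]; exact h0)
      have hxs : ∃ i, p i = x i := ⟨1, (xo 1 e1 eL1.symm).symm⟩
      have hxA : x ∉ A := up' x xmem hpx hxs
      rcases lt_trichotomy (toLex q) (toLex x) with h | h | h
      · obtain ⟨i, hlow, hi⟩ := toLex_lt_iff.1 h
        rcases eq_or_ne i 0 with rfl | hne
        · omega
        rcases eq_or_ne i 1 with rfl | hne1
        · rwa [xo 1 e1 eL1.symm] at hi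
        · have h1i : (1 : Fin (m + 3)) < i := by
            rw [Fin.lt_def, Fin.val_one]
            have a1 := Fin.val_ne_iff.2 hne
            have a2 := Fin.val_ne_iff.2 hne1
            simp only [Fin.val_zero, Fin.val_one] at a1 a2
            omega
          have := hlow 1 h1i
          rw [xo 1 e1 eL1.symm] at this
          exact absurd this.symm (hdiff 1)
      · exact absurd (toLex.injective h ▸ hqA) hxA
      · exact (mid x xmem hpx hxs h ⟨0, x0⟩).elim
    set rest := ((univ.erase (0 : Fin (m + 3))).erase 1).erase L with hrest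
    by_cases hQ : q L + ∑ i ∈ rest, q i < p L
    · set l := d - q 1 - p L with hl
      set x : Fin (m + 3) → ℕ :=
        Function.update (Function.update (Function.update (fun _ => 0) L (p L)) 1 (q 1)) 0 l
        with hx
      have x0 : x 0 = l := by rw [hx, Function.update_self]
      have x1 : x 1 = q 1 := by rw [hx, Function.update_of_ne e1, Function.update_self]
      have xL : x L = p L := by
        rw [hx, Function.update_of_ne eL0, Function.update_of_ne eL1, Function.update_self]
      have xo : ∀ i ∈ rest, x i = 0 := fun i hi => by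
        rw [hx, Function.update_of_ne (ne_of_mem_erase (mem_of_mem_erase (mem_of_mem_erase hi))),
          Function.update_of_ne (ne_of_mem_erase (mem_of_mem_erase hi)),
          Function.update_of_ne (ne_of_mem_erase hi)]
      have hlp : p 0 < l := by omega
      have hlq : l < q 0 := by omega
      have xmem : x ∈ lvl a d := by
        refine mem_lvl.2 ⟨?_, fun i => ?_⟩
        · rw [sum_split, ← hL, x0, x1, xL, sum_congr rfl fun i hi => xo i hi]
          simp; omega
        · rcases eq_or_ne i 0 with rfl | h1
          · rw [x0]; exact hlq.trans (hbq 0)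
          rcases eq_or_ne i 1 with rfl | h2
          · rw [x1]; exact hbq 1
          rcases eq_or_ne i L with rfl | h3
          · rw [xL]; exact hbp L
          · rw [xo i (by simp [rest, h1, h2, h3])]
            exact lt_of_le_of_lt (Nat.zero_le _) (hbp i)
      exact mid x xmem (lt_of_head_lt (by rw [x0]; exact hlp)) ⟨L, xL.symm⟩
        (lt_of_head_lt (by rw [x0]; exact hlq)) ⟨1, x1⟩
    · obtain ⟨r, hr1, hr2, hr3⟩ := exists_le_sum rest q (∑ i ∈ rest, q i - (p L - q L)) (by omega)
      set x := Function.update r L (p L) with hx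
      have xo : ∀ i, i ≠ L → x i = r i := fun i h => by rw [hx, Function.update_of_ne h]
      have xL : x L = p L := by rw [hx, Function.update_self]
      have x0 : x 0 = q 0 := by rw [xo 0 eL0.symm]; exact hr2 0 (by simp [rest])
      have x1 : x 1 = q 1 := by rw [xo 1 eL1.symm]; exact hr2 1 (by simp [rest])
      have xmem : x ∈ lvl a d := by
        refine mem_lvl.2 ⟨?_, fun i => ?_⟩
        · rw [sum_split, ← hL, x0, x1, xL, ← hrest,
            sum_congr rfl fun i hi => xo i (ne_of_mem_erase hi), hr3]
          omega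
        · rcases eq_or_ne i L with rfl | h
          · rw [xL]; exact hbp L
          · rw [xo i h]; exact (hr1 i).trans_lt (hbq i)
      obtain ⟨i0, hi0, hlt0⟩ : ∃ i ∈ rest, r i < q i := by
        by_contra hcon
        push Not at hcon
        have := sum_le_sum hcon
        omega
      obtain ⟨i₁, hi₁, hmin⟩ := (rest.filter fun i => r i < q i).exists_min_image id
        ⟨i0, mem_filter.2 ⟨hi0, hlt0⟩⟩
      rw [mem_filter] at hi₁
      have hxq : toLex x < toLex q := by
        refine toLex_lt_iff.2 ⟨i₁, fun j hj => ?_, ?_⟩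
        · have hjL : j ≠ L := fun e => by
            subst e; exact absurd hj (not_lt.2 (Fin.le_last i₁))
          rw [xo j hjL]
          by_cases hjr : j ∈ rest
          · refine le_antisymm (hr1 j) (not_lt.1 fun hc => ?_)
            exact absurd hj (not_lt.2 (hmin j (mem_filter.2 ⟨hjr, hc⟩)))
          · exact hr2 j hjr
        · rw [xo i₁ (ne_of_mem_erase hi₁.1)]; exact hi₁.2
      exact mid x xmem (lt_of_head_lt (by rw [x0]; exact h0)) ⟨L, xL.symm⟩ hxq ⟨0, x0⟩
  · have hqL : q L = 0 := by
      rcases hside with h | h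
      · exact h
      · have := ha (Fin.zero_le L)
        have := hbq 0
        omega
    set x := Function.update (Function.update p 0 (p 0 + p L)) L 0 with hx
    have x0 : x 0 = p 0 + p L := by rw [hx, Function.update_of_ne eL0.symm, Function.update_self]
    have xo : ∀ i : Fin (m + 3), i ≠ 0 → i ≠ L → x i = p i := fun i h1 h2 => by
      rw [hx, Function.update_of_ne h2, Function.update_of_ne h1]
    have xL : x L = 0 := by rw [hx, Function.update_self]
    have xmem : x ∈ lvl a d := by
      refine mem_lvl.2 ⟨?_, fun i => ?_⟩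
      · have hs : ∑ i ∈ (((univ : Finset (Fin (m + 3))).erase 0).erase 1).erase L, x i =
            ∑ i ∈ (((univ : Finset (Fin (m + 3))).erase 0).erase 1).erase L, p i :=
          sum_congr rfl fun i hi => xo i
            (ne_of_mem_erase (mem_of_mem_erase (mem_of_mem_erase hi))) (ne_of_mem_erase hi)
        rw [sum_split, ← hL, x0, xo 1 e1 eL1.symm, xL, hs]
        omega
      · rcases eq_or_ne i L with rfl | h2
        · rw [xL]; exact lt_of_le_of_lt (Nat.zero_le _) (hbp L)
        rcases eq_or_ne i 0 with rfl | h1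
        · rw [x0]; have := hbq 0; omega
        · rw [xo i h1 h2]; exact hbp i
    exact mid x xmem (lt_of_head_lt (by rw [x0]; omega)) ⟨1, (xo 1 e1 eL1.symm).symm⟩
      (lt_of_head_lt (by rw [x0]; omega)) ⟨L, by rw [xL, hqL]⟩

/-- Moving the largest member to the smallest non-member does not increase the shadow. -/
lemma swap_shadow {m d : ℕ} {a : Fin (m + 3) → ℕ} (ha : Monotone a)
    {A : Finset (Fin (m + 3) → ℕ)} (hA : A ⊆ lvl a (d + 1)) (hC : Closed a (d + 1) A)
    {p q : Fin (m + 3) → ℕ} (hp : p ∈ lvl a (d + 1)) (hpA : p ∉ A)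
    (hpmin : ∀ t ∈ lvl a (d + 1), toLex t < toLex p → t ∈ A)
    (hqA : q ∈ A) (hqmax : ∀ t ∈ A, toLex t ≤ toLex q) (hpq : toLex p < toLex q) :
    (sh a d (insert p (A.erase q))).card ≤ (sh a d A).card := by
  classical
  set L : Fin (m + 3) := Fin.last (m + 2) with hL
  have hdiff : ∀ i, p i ≠ q i := fun i hi => hpA (hC q hqA p hp hpq ⟨i, hi⟩)
  have hbp := (mem_lvl.1 hp).2
  have hbq := (mem_lvl.1 (hA hqA)).2
  have hpL : p L + 1 < a L := by
    by_contra hc
    refine chain_false ha hA hC hp hpA hqA hpq ?_ (Or.inr (by simp only [← hL]; omega))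
    simp only [← hL]
    have := hbp L
    have := hbq L
    have := hdiff L
    omega
  have hqL : 0 < q L := by
    by_contra hc
    refine chain_false ha hA hC hp hpA hqA hpq ?_ (Or.inl (by simp only [← hL]; omega))
    simp only [← hL]
    have := hdiff L
    omega
  set v := Function.update q L (q L - 1) with hv
  have hvL : v L = q L - 1 := by rw [hv, Function.update_self]
  have hvo : ∀ i, i ≠ L → v i = q i := fun i h => by rw [hv, Function.update_of_ne h]
  have hupv : up v L = q := by
    funext i
    by_cases h : i = L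
    · subst h; rw [up_self, hvL]; omega
    · rw [up_of_ne _ h, hvo i h]
  have hvmem : v ∈ lvl a d := by
    refine mem_lvl.2 ⟨?_, fun i => ?_⟩
    · have h1 := sum_up v L
      rw [hupv, (mem_lvl.1 (hA hqA)).1] at h1
      omega
    · by_cases h : i = L
      · subst h; rw [hvL]; have := hbq L; omega
      · rw [hvo i h]; exact hbq i
  have hlost : v ∈ sh a d A := mem_sh.2 ⟨hvmem, L, by rwa [hupv]⟩
  have hv' : v ∉ sh a d (A.erase q) := by
    intro h
    obtain ⟨_, k, hk⟩ := mem_sh.1 h
    obtain ⟨hne, hkA⟩ := mem_erase.1 hk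
    rcases eq_or_lt_of_le (Fin.le_last k) with h2 | h2
    · exact hne (by rw [h2, ← hL]; exact hupv)
    · refine absurd (hqmax _ hkA) (not_le.2 (toLex_lt_iff.2 ⟨k, fun j hj => ?_, ?_⟩))
      · rw [up_of_ne _ hj.ne, hvo j (hj.trans h2).ne]
      · rw [up_self, hvo k h2.ne]; omega
  set u := Function.update p L (p L - 1) with hu
  have hsub : sh a d (insert p (A.erase q)) ⊆ insert u (sh a d (A.erase q)) := by
    intro t ht
    obtain ⟨htm, i, hi⟩ := mem_sh.1 ht
    rcases mem_insert.1 hi with h | h
    · by_cases hiL : i = L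
      · refine mem_insert.2 (Or.inl ?_)
        subst hiL
        funext j
        by_cases hj : j = L
        · subst hj; rw [hu, Function.update_self, ← h, up_self]; omega
        · rw [hu, Function.update_of_ne hj, ← h, up_of_ne _ hj]
      · refine mem_insert_of_mem (mem_sh.2 ⟨htm, L, ?_⟩)
        have hiL' : i < L := lt_of_le_of_ne (Fin.le_last i) hiL
        have htL : t L = p L := by rw [← h, up_of_ne _ (Ne.symm hiL)]
        have hm : up t L ∈ lvl a (d + 1) := by
          refine mem_lvl.2 ⟨by rw [sum_up, (mem_lvl.1 htm).1], fun j => ?_⟩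
          by_cases hj : j = L
          · subst hj; rw [up_self, htL]; exact hpL
          · rw [up_of_ne _ hj]; exact (mem_lvl.1 htm).2 j
        have hlt : toLex (up t L) < toLex p := by
          refine toLex_lt_iff.2 ⟨i, fun j hj => ?_, ?_⟩
          · rw [up_of_ne _ (hj.trans hiL').ne, ← h, up_of_ne _ hj.ne]
          · rw [up_of_ne _ hiL, ← h, up_self]; omega
        refine mem_erase.2 ⟨fun e => ?_, hpmin _ hm hlt⟩
        rw [e] at hlt
        exact absurd hlt (not_lt.2 hpq.le)
    · exact mem_insert_of_mem (mem_sh.2 ⟨htm, i, h⟩)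
  have hlt2 : (sh a d (A.erase q)).card < (sh a d A).card :=
    card_lt_card ⟨sh_mono (erase_subset _ _), fun h => hv' (h hlost)⟩
  have h3 := (card_le_card hsub).trans (card_insert_le _ _)
  omega

lemma isBest_two (a : Fin 2 → ℕ) (ha : Monotone a) : IsBest 2 a := by
  classical
  intro d A S hA hS hc
  have hs : ∀ e ∈ lvl a (d + 1), e 0 + e 1 = d + 1 ∧ e 0 < a 0 ∧ e 1 < a 1 := fun e he => by
    have h := mem_lvl.1 he; rw [Fin.sum_univ_two] at h; exact ⟨h.1, h.2 0, h.2 1⟩
  have hinj : ∀ D (X : Finset (Fin 2 → ℕ)), X ⊆ lvl a D →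
      (X.image fun e => e 0).card = X.card := by
    intro D X hX
    refine card_image_of_injOn fun e he e' he' h => ?_
    have h1 := (mem_lvl.1 (hX he)).1
    have h2 := (mem_lvl.1 (hX he')).1
    rw [Fin.sum_univ_two] at h1 h2
    funext i
    fin_cases i
    · exact h
    · show e 1 = e' 1
      have : e 0 = e' 0 := h
      omega
  have mk : ∀ D x : ℕ, x ≤ D → x < a 0 → D - x < a 1 → (![x, D - x] : Fin 2 → ℕ) ∈ lvl a D := by
    intro D x h1 h2 h3
    refine mem_lvl.2 ⟨by simp [Fin.sum_univ_two]; omega, fun i => ?_⟩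
    fin_cases i <;> simp [h2, h3]
  have ha01 : a 0 ≤ a 1 := ha (by simp)
  set lo := d + 2 - a 1 with hlo
  have hprefix : ∀ s ∈ S, s 0 < lo + S.card := by
    intro s hsS
    obtain ⟨h1, h2, h3⟩ := hs s (hS.1 hsS)
    have hsub : Finset.Icc lo (s 0) ⊆ S.image fun e => e 0 := by
      intro x hx
      rw [mem_Icc] at hx
      refine mem_image.2 ⟨![x, d + 1 - x], ?_, by simp⟩
      have hm := mk (d + 1) x (by omega) (by omega) (by omega)
      rcases lt_or_eq_of_le hx.2 with h | h
      · refine hS.2 s hsS _ hm (toLex_lt_iff.2 ⟨0, fun j hj => absurd hj (Fin.not_lt_zero j), ?_⟩)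
        simpa using h
      · convert hsS using 1
        funext i
        fin_cases i
        · simpa using h
        · simp; omega
    have := card_le_card hsub
    rw [Nat.card_Icc, hinj _ S hS.1] at this
    omega
  have hshS : ∀ t ∈ sh a d S, lo - 1 ≤ t 0 ∧ t 0 < lo + S.card := by
    intro t ht
    obtain ⟨htm, i, hi⟩ := mem_sh.1 ht
    obtain ⟨h1, h2, h3⟩ := hs _ (hS.1 hi)
    have hle : t 0 ≤ up t i 0 := by
      by_cases h : (0 : Fin 2) = i
      · rw [← h, up_self]; omega
      · rw [up_of_ne _ h]
    have := hprefix _ hi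
    have h4 := mem_lvl.1 htm
    rw [Fin.sum_univ_two] at h4
    have := h4.2 1
    constructor <;> omega
  rw [← hinj d (sh a d S) (filter_subset _ _), ← hinj d (sh a d A) (filter_subset _ _)]
  have hin : ∀ x, x ≤ d → x < a 0 → d - x < a 1 →
      (∃ e ∈ A, e 0 = x ∨ e 0 = x + 1) → x ∈ (sh a d A).image fun e => e 0 := by
    rintro x h1 h2 h3 ⟨e, he, hex⟩
    refine mem_image.2 ⟨![x, d - x], mem_sh.2 ⟨mk d x h1 h2 h3, ?_⟩, by simp⟩
    obtain ⟨g1, g2, g3⟩ := hs e (hA he)
    rcases hex with h | h
    · refine ⟨1, ?_⟩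
      convert he using 1
      funext i
      fin_cases i
      · simp [up_of_ne, h]
      · simp [up_self]; omega
    · refine ⟨0, ?_⟩
      convert he using 1
      funext i
      fin_cases i
      · simp [up_self, h]
      · simp [up_of_ne]; omega
  by_cases hlo0 : lo = 0
  · by_cases hall : ∀ e ∈ lvl a (d + 1), e ∈ A
    · have hAe : A = lvl a (d + 1) := Subset.antisymm hA hall
      have : S = A := eq_of_subset_of_card_le (hAe ▸ hS.1) hc.ge
      rw [this]
    push Not at hall
    obtain ⟨g, hg, hgA⟩ := hall
    obtain ⟨gs, g0, g1⟩ := hs g hg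
    calc ((sh a d S).image fun e => e 0).card ≤ (range S.card).card :=
          card_le_card fun x hx => by
            obtain ⟨t, ht, rfl⟩ := mem_image.1 hx
            have := (hshS t ht).2
            rw [mem_range]
            omega
      _ = (A.image fun e => e 0).card := by rw [card_range, hinj _ A hA, hc]
      _ ≤ ((sh a d A).image fun e => e 0).card := by
        refine card_le_card_of_injOn (fun x => if x < g 0 then x else x - 1) ?_ ?_
        · intro x hx
          obtain ⟨e, he, rfl⟩ := mem_image.1 hx
          obtain ⟨e1, e2, e3⟩ := hs e (hA he)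
          by_cases h : e 0 < g 0
          · simp only [if_pos h]
            exact hin _ (by omega) e2 (by omega) ⟨e, he, Or.inl rfl⟩
          · have hne : e 0 ≠ g 0 := by
              intro h'
              refine hgA ?_
              convert he using 1
              funext i
              fin_cases i
              · exact h'.symm
              · show g 1 = e 1; omega
            simp only [if_neg h]
            exact hin _ (by omega) (by omega) (by omega) ⟨e, he, Or.inr (by omega)⟩
        · intro x hx y hy hxy
          have hxne : ∀ z ∈ (A.image fun e => e 0), z ≠ g 0 := by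
            intro z hz h'
            obtain ⟨e, he, rfl⟩ := mem_image.1 hz
            refine hgA ?_
            convert he using 1
            funext i
            fin_cases i
            · exact h'.symm
            · obtain ⟨e1, _, _⟩ := hs e (hA he)
              show g 1 = e 1
              omega
          have := hxne x hx
          have := hxne y hy
          simp only at hxy
          split_ifs at hxy <;> omega
  · rcases A.eq_empty_or_nonempty with rfl | hne
    · rw [card_empty, card_eq_zero] at hc
      subst hc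
      simp [sh]
    obtain ⟨e₀, he₀, hmin⟩ := A.exists_min_image (fun e => e 0) hne
    obtain ⟨m1, m2, m3⟩ := hs e₀ (hA he₀)
    calc ((sh a d S).image fun e => e 0).card ≤ (Icc (lo - 1) (lo + S.card - 1)).card :=
          card_le_card fun x hx => by
            obtain ⟨t, ht, rfl⟩ := mem_image.1 hx
            have := hshS t ht
            rw [mem_Icc]
            omega
      _ = (A.image fun e => e 0).card + 1 := by
        rw [Nat.card_Icc, hinj _ A hA, hc]; omega
      _ = (insert (e₀ 0 - 1) (A.image fun e => e 0)).card := by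
        rw [card_insert_of_notMem]
        intro h
        obtain ⟨e, he, hee⟩ := mem_image.1 h
        have := hmin e he
        omega
      _ ≤ ((sh a d A).image fun e => e 0).card := by
        refine card_le_card (insert_subset ?_ fun x hx => ?_)
        · exact hin _ (by omega) (by omega) (by omega) ⟨e₀, he₀, Or.inr (by omega)⟩
        · obtain ⟨e, he, rfl⟩ := mem_image.1 hx
          obtain ⟨e1, e2, e3⟩ := hs e (hA he)
          exact hin _ (by omega) e2 (by omega) ⟨e, he, Or.inl rfl⟩

/-- The Clements-Lindstrom theorem. -/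
theorem isBest : ∀ (n : ℕ) (a : Fin n → ℕ), Monotone a → IsBest n a := by
  intro n
  induction n with
  | zero =>
    intro a _ d A S hA hS hc
    have : ∀ X : Finset (Fin 0 → ℕ), X ⊆ lvl a (d + 1) → X = ∅ := fun X hX =>
      eq_empty_iff_forall_notMem.2 fun e he => by simpa using (mem_lvl.1 (hX he)).1
    rw [this S hS.1, this A hA]
  | succ n ih =>
    match n, ih with
    | 0, _ =>
      intro a _ d A S hA hS hc
      have huniq : ∀ e ∈ lvl a (d + 1), e = fun _ => d + 1 := fun e he => by
        funext i
        have := (mem_lvl.1 he).1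
        simpa [Fin.eq_zero i] using this
      rcases A.eq_empty_or_nonempty with rfl | ⟨e, he⟩
      · rw [card_empty, card_eq_zero] at hc
        rw [hc]
      · have hSA : S ⊆ A := fun s hs => by rw [huniq s (hS.1 hs), ← huniq e (hA he)]; exact he
        rw [eq_of_subset_of_card_le hSA hc.ge]
    | 1, _ => exact fun a ha => isBest_two a ha
    | m + 2, ih =>
      intro a ha d A S hA hS hc
      classical
      let F := ((lvl a (d + 1)).powerset).filter fun B =>
        B.card = A.card ∧ (sh a d B).card ≤ (sh a d A).card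
      have hAF : A ∈ F := by simp [F, hA]
      obtain ⟨B, hBF, hmin⟩ := F.exists_min_image (fun B => ∑ x ∈ B, rank a (d + 1) x) ⟨A, hAF⟩
      simp only [F, mem_filter, mem_powerset] at hBF hmin
      obtain ⟨hB, hBc, hBs⟩ := hBF
      have hclosed : Closed a (d + 1) B := by
        intro r hr t ht hlt hex
        obtain ⟨i, hi⟩ := hex
        have hmono : Monotone (a ∘ i.succAbove) := ha.comp (Fin.strictMono_succAbove i).monotone
        obtain ⟨B', h1, h2, h3, h4, h5⟩ := compress a i (ih _ hmono) hB
        have hseg := h5 (hmin B' ⟨h1, h2.trans hBc, h3.trans hBs⟩) (r i)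
        rw [← Fin.insertNth_self_removeNth i r] at hr hlt
        rw [← Fin.insertNth_self_removeNth i t, hi] at hlt ht ⊢
        rw [toLex_insertNth_lt] at hlt
        have h0 := le_of_insertNth_mem a i ht
        rw [← mem_slice a i hB]
        rw [← mem_slice a i hB] at hr
        exact hseg.2 _ hr _ ((insertNth_mem_lvl a i h0).1 ht).2 hlt
      have hsegB : Seg a (d + 1) B := by
        refine ⟨hB, ?_⟩
        by_contra hcon
        push Not at hcon
        obtain ⟨s, hs, t, ht, hts, htB⟩ := hcon
        obtain ⟨q, hq, hqmax⟩ := B.exists_max_image (fun e => toLex e) ⟨s, hs⟩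
        obtain ⟨p, hp, hpmin⟩ := ((lvl a (d + 1)) \ B).exists_min_image (fun e => toLex e)
          ⟨t, mem_sdiff.2 ⟨ht, htB⟩⟩
        rw [mem_sdiff] at hp
        have hpq : toLex p < toLex q :=
          ((hpmin t (mem_sdiff.2 ⟨ht, htB⟩)).trans_lt hts).trans_le (hqmax s hs)
        have hsw := swap_shadow ha hB hclosed hp.1 hp.2
          (fun t ht hlt => by_contra fun hc =>
            absurd hlt (not_lt.2 (hpmin t (mem_sdiff.2 ⟨ht, hc⟩)))) hq hqmax hpq
        have hpn : p ∉ B.erase q := fun h => hp.2 (mem_of_mem_erase h)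
        have hcard : (insert p (B.erase q)).card = A.card := by
          rw [card_insert_of_notMem hpn, card_erase_of_mem hq, hBc]
          have := card_pos.2 ⟨q, hq⟩
          omega
        have hle := hmin _ ⟨insert_subset hp.1 ((erase_subset _ _).trans hB), hcard,
          hsw.trans hBs⟩
        rw [sum_insert hpn, ← add_sum_erase B _ hq] at hle
        have := rank_lt hp.1 hpq
        omega
      rcases hS.total hsegB with h | h
      · rw [eq_of_subset_of_card_le h (by omega)]; exact hBs
      · rw [← eq_of_subset_of_card_le h (by omega)]; exact hBs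

end Vale.Agent.P200.Box
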