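import Mathlib
import Vale.Agent.P200.BoxMain

/-!
Growth conditions in a box, gluing of layers, and the resulting complex of segments.
-/

open Finset

namespace Vale.Agent.P200.Box

/-- `h` satisfies the Clements-Lindstrom growth condition in the box `a`. -/
def Adm {n : ℕ} (a : Fin n → ℕ) (h : ℕ → ℕ) : Prop :=
  h 0 ≤ (lvl a 0).card ∧
    ∀ d, ∃ A ⊆ lvl a (d + 1), A.card = h (d + 1) ∧ (sh a d A).card ≤ h d

lemma Adm.le_card {n : ℕ} {a : Fin n → ℕ} {h : ℕ → ℕ} (H : Adm a h) (d : ℕ) :
    h d ≤ (lvl a d).card := by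
  cases d with
  | zero => exact H.1
  | succ d =>
    obtain ⟨A, hA, hc, _⟩ := H.2 d
    exact hc ▸ card_le_card hA

lemma Adm.seg {n : ℕ} {a : Fin n → ℕ} {h : ℕ → ℕ} (ha : Monotone a) (H : Adm a h) (d : ℕ) :
    ∃ S, Seg a (d + 1) S ∧ S.card = h (d + 1) ∧ (sh a d S).card ≤ h d := by
  obtain ⟨A, hA, hc, hs⟩ := H.2 d
  obtain ⟨S, hS, hSc⟩ := exists_seg a (d + 1) A.card (card_le_card hA)
  exact ⟨S, hS, hSc.trans hc, (isBest n a ha d A S hA hS hSc).trans hs⟩

/-- Layers with controlled shadows give a set with controlled shadow. -/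
lemma glue {n d : ℕ} (a : Fin (n + 1) → ℕ) (i : Fin (n + 1)) (L : ℕ → Finset (Fin n → ℕ))
    (hL : ∀ v, L v ⊆ lvl (a ∘ i.succAbove) (d + 1 - v))
    (hL0 : ∀ v, (a i ≤ v ∨ d + 1 < v) → L v = ∅) {h1 h0 : ℕ}
    (hc : ∑ v ∈ range (d + 2), (L v).card = h1)
    (hs : ∑ v ∈ range (d + 1),
      (sh (a ∘ i.succAbove) (d - v) (L v) ∪ L (v + 1)).card ≤ h0) :
    ∃ C ⊆ lvl a (d + 1), C.card = h1 ∧ (sh a d C).card ≤ h0 := by
  have hCsub : unslice a i (d + 1) L ⊆ lvl a (d + 1) := filter_subset _ _
  have hsl : ∀ v, slice a i (d + 1) (unslice a i (d + 1) L) v = L v := by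
    intro v
    by_cases hv : v ≤ d + 1 ∧ v < a i
    · exact slice_unslice a i hv.1 hv.2 (hL v)
    · rw [slice_eq_empty a i hCsub (by omega), hL0 v (by omega)]
  refine ⟨_, hCsub, ?_, ?_⟩
  · rw [card_eq_sum_slice a i hCsub, ← hc, sum_filter]
    refine sum_congr rfl fun v _ => ?_
    split
    · rw [hsl]
    · rename_i h; rw [hL0 v (Or.inl (not_lt.1 h)), card_empty]
  · rw [card_sh_eq a i hCsub]
    refine le_trans (sum_le_sum_of_subset (filter_subset _ _)) (le_of_eq_of_le ?_ hs)
    exact sum_congr rfl fun v _ => by rw [hsl, hsl]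

/-- A sequence with the growth condition counts a down-closed set of lex-least segments. -/
theorem exists_complex {n : ℕ} {a : Fin n → ℕ} (ha : Monotone a) {h : ℕ → ℕ} (H : Adm a h) :
    ∃ D : Finset (Fin n → ℕ), (∀ e ∈ D, ∀ i, e i < a i) ∧
      (∀ e ∈ D, ∀ t : Fin n → ℕ, t ≤ e → t ∈ D) ∧
      (∀ e ∈ D, ∀ t : Fin n → ℕ, (∀ i, t i < a i) → ∑ i, t i = ∑ i, e i →
        toLex t < toLex e → t ∈ D) ∧
      ∀ d, (D.filter fun e => ∑ i, e i = d).card = h d := by
  classical
  choose S hS hSc using fun d => exists_seg a d (h d) (H.le_card d)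
  let D : Finset (Fin n → ℕ) :=
    (Fintype.piFinset fun i => range (a i)).filter fun e => e ∈ S (∑ i, e i)
  have hmemD : ∀ e, e ∈ D ↔ e ∈ S (∑ i, e i) := by
    intro e
    simp only [D, mem_filter, Fintype.mem_piFinset, mem_range, and_iff_right_iff_imp]
    exact fun he => (mem_lvl.1 ((hS _).1 he)).2
  have hstep : ∀ d, sh a d (S (d + 1)) ⊆ S d := by
    intro d
    obtain ⟨T, hT, hTc, hTs⟩ := H.seg ha d
    have hST : S (d + 1) = T := by
      rcases (hS (d + 1)).total hT with h' | h'
      · exact eq_of_subset_of_card_le h' (by rw [hSc, hTc])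
      · exact (eq_of_subset_of_card_le h' (by rw [hSc, hTc])).symm
    rcases (hST ▸ hT.shadow : Seg a d (sh a d (S (d + 1)))).total (hS d) with h' | h'
    · exact h'
    · exact (eq_of_subset_of_card_le h' (by rw [hSc, hST]; exact hTs)).ge
  refine ⟨D, fun e he => (mem_lvl.1 ((hS _).1 ((hmemD e).1 he))).2, ?_, ?_, ?_⟩
  · have key : ∀ k, ∀ e ∈ D, ∀ t : Fin n → ℕ, t ≤ e → ∑ i, e i = ∑ i, t i + k → t ∈ D := by
      intro k
      induction k with
      | zero =>
        intro e he t hte hsum
        have : t = e := funext fun i =>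
          (sum_eq_sum_iff_of_le fun i _ => hte i).1 (by simpa using hsum.symm) i (mem_univ i)
        rwa [this]
      | succ k ih =>
        intro e he t hte hsum
        obtain ⟨i, hi⟩ : ∃ i, t i < e i := by
          by_contra hcon
          push Not at hcon
          have := sum_le_sum (s := univ) fun i _ => hcon i
          omega
        set e' := Function.update e i (e i - 1) with he'
        have hup : up e' i = e := by
          funext j
          by_cases hj : j = i
          · subst hj; rw [up_self, he', Function.update_self]; omega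
          · rw [up_of_ne _ hj, he', Function.update_of_ne hj]
        have hsum' : ∑ j, e j = ∑ j, e' j + 1 := by rw [← sum_up e' i, hup]
        have he'D : e' ∈ D := by
          have h1 := (hmemD e).1 he
          rw [hsum'] at h1
          refine (hmemD e').2 (hstep _ (mem_sh.2 ⟨mem_lvl.2 ⟨rfl, fun j => ?_⟩, i, hup.symm ▸ h1⟩))
          have := (mem_lvl.1 ((hS _).1 h1)).2 j
          by_cases hj : j = i
          · subst hj; rw [he', Function.update_self]; omega
          · rw [he', Function.update_of_ne hj]; exact this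
        refine ih e' he'D t (fun j => ?_) (by omega)
        have := hte j
        by_cases hj : j = i
        · subst hj; rw [he', Function.update_self]; exact Nat.le_sub_one_of_lt hi
        · rw [he', Function.update_of_ne hj]; exact this
    intro e he t hte
    refine key (∑ i, e i - ∑ i, t i) e he t hte ?_
    have := sum_le_sum (s := univ) fun i _ => hte i
    omega
  · intro e he t hta hsum hlt
    refine (hmemD t).2 ?_
    rw [hsum]
    exact (hS _).2 e ((hmemD e).1 he) t (mem_lvl.2 ⟨hsum, hta⟩) hlt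
  · intro d
    rw [show D.filter (fun e => ∑ i, e i = d) = S d from ?_, hSc]
    ext e
    rw [mem_filter, hmemD]
    constructor
    · rintro ⟨h1, rfl⟩; exact h1
    · intro h1
      have h2 := (mem_lvl.1 ((hS d).1 h1)).1
      exact ⟨by rwa [h2], h2⟩

end Vale.Agent.P200.Box
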