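import Mathlib
import Vale.Agent.P200.ArtinReg
import Vale.Agent.P200.BoxComplex

/-!
Socle and linkage duality of a complete intersection of forms without common zero.
-/

open MvPolynomial

namespace Vale.Agent.P200

variable {L : Type*} [Field L] [IsAlgClosed L] {n : ℕ}

lemma card_lvl_succ (a : Fin (n + 1) → ℕ) (i : Fin (n + 1)) (d : ℕ) :
    (Box.lvl a d).card = ∑ v ∈ (Finset.range (d + 1)).filter (fun v => v < a i),
      (Box.lvl (a ∘ i.succAbove) (d - v)).card := by
  rw [Box.card_eq_sum_slice a i (Finset.Subset.refl _)]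
  refine Finset.sum_congr rfl fun v hv => ?_
  rw [Finset.mem_filter, Finset.mem_range] at hv
  congr 1
  ext u
  rw [Box.mem_slice a i (Finset.Subset.refl _),
    Box.insertNth_mem_lvl a i (Nat.lt_succ_iff.1 hv.1)]
  exact and_iff_right hv.2

lemma forms_zero (a : Fin 0 → ℕ) (f : Fin 0 → MvPolynomial (Fin 0) L) (d : ℕ) :
    hilb (Ideal.span (Set.range f)) d = (Box.lvl a d).card := by
  have hb : degPart (Ideal.span (Set.range f)) d = ⊥ := by
    rw [eq_bot_iff]
    intro x hx
    have h0 : x ∈ Ideal.span (Set.range f) := hx.2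
    simpa [Set.range_eq_empty] using h0
  rw [hilb, hb, finrank_bot, Nat.sub_zero]
  cases d with
  | zero =>
    rw [finrank_Vd_zero]
    refine (Finset.card_eq_one.2 ⟨fun i => i.elim0, ?_⟩).symm
    ext e
    simp only [Box.mem_lvl, Finset.mem_singleton]
    exact ⟨fun _ => funext fun i => i.elim0, fun _ => ⟨by simp, fun i => i.elim0⟩⟩
  | succ d =>
    rw [finrank_Vd_zero_succ]
    refine (Finset.card_eq_zero.2 ?_).symm
    ext e
    simp [Box.mem_lvl]

/-- The data of a reduction: `l` and every form are regular modulo the forms but the last. -/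
lemma exists_regular_reduction {a : Fin (n + 1) → ℕ} (ha1 : ∀ i, 1 ≤ a i)
    {f : Fin (n + 1) → MvPolynomial (Fin (n + 1)) L} (hf : ∀ i, (f i).IsHomogeneous (a i))
    (hA : Artin (Ideal.span (Set.range f))) :
    ∃ l : MvPolynomial (Fin (n + 1)) L, l.IsHomogeneous 1 ∧ l ≠ 0 ∧
      (∀ P : Cut l, Artin (Ideal.span (Set.range fun i : Fin n => P.phi (f i.castSucc)))) ∧
      (∀ u, u * l ∈ Ideal.span (Set.range (f ∘ Fin.castSucc)) →
        u ∈ Ideal.span (Set.range (f ∘ Fin.castSucc))) ∧
      ∀ u, u * f (Fin.last n) ∈ Ideal.span (Set.range (f ∘ Fin.castSucc)) →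
        u ∈ Ideal.span (Set.range (f ∘ Fin.castSucc)) := by
  obtain ⟨l, hl, hl0, hlA, hP⟩ := exists_reduction ha1 hf hA
  have himg : ∀ g : Fin (n + 1) → MvPolynomial (Fin (n + 1)) L,
      g '' {j | j < Fin.last n} = Set.range (g ∘ Fin.castSucc) := by
    intro g
    ext x
    constructor
    · rintro ⟨j, hj, rfl⟩
      exact ⟨⟨j.val, hj⟩, rfl⟩
    · rintro ⟨j, rfl⟩
      exact ⟨j.castSucc, Fin.castSucc_lt_last j, rfl⟩
  refine ⟨l, hl, hl0, hP, fun u hu => ?_, fun u hu => ?_⟩
  · let g : Fin (n + 1) → MvPolynomial (Fin (n + 1)) L := Fin.snoc (f ∘ Fin.castSucc) l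
    obtain ⟨T, hT⟩ := hlA
    have hgA : Artin (Ideal.span (Set.range g)) := ⟨T, fun x hx => by
      refine (sup_le (Ideal.span_le.2 ?_) (Ideal.span_le.2 ?_) :
        Ideal.span (Set.range (f ∘ Fin.castSucc)) ⊔ Ideal.span {l} ≤ Ideal.span (Set.range g))
          (hT x hx)
      · rintro _ ⟨i, rfl⟩
        exact Ideal.subset_span ⟨i.castSucc, by simp [g]⟩
      · rintro _ rfl
        exact Ideal.subset_span ⟨Fin.last n, by simp [g]⟩⟩
    have hreg := artin_regular (n + 1) (Fin.snoc (fun i => a i.castSucc) 1)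
      (fun i => by cases i using Fin.lastCases with
        | last => simp
        | cast i => simpa using ha1 i.castSucc)
      g (fun i => by cases i using Fin.lastCases with
        | last => simpa [g] using hl
        | cast i => simpa [g] using hf i.castSucc) hgA
    have h := hreg.2 (Fin.last n) u
    rw [himg, show g ∘ Fin.castSucc = f ∘ Fin.castSucc from funext fun i => by simp [g],
      show g (Fin.last n) = l by simp [g]] at h
    exact h hu
  · have h := (artin_regular (n + 1) a ha1 f hf hA).2 (Fin.last n) u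
    rw [himg] at h
    exact h hu

/-- The Hilbert function of a complete intersection counts the box. -/
theorem hilb_forms : ∀ (n : ℕ) (a : Fin n → ℕ), (∀ i, 1 ≤ a i) →
    ∀ f : Fin n → MvPolynomial (Fin n) L, (∀ i, (f i).IsHomogeneous (a i)) →
      Artin (Ideal.span (Set.range f)) →
      ∀ d, hilb (Ideal.span (Set.range f)) d = (Box.lvl a d).card := by
  intro n
  induction n with
  | zero => exact fun a _ f _ _ d => forms_zero a f d
  | succ n ih =>
    intro a ha1 f hf hA d
    obtain ⟨l, hl, hl0, hP, hlreg, hfreg⟩ := exists_regular_reduction ha1 hf hA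
    obtain ⟨P⟩ := exists_cut hl hl0
    set J := Ideal.span (Set.range (f ∘ Fin.castSucc)) with hJdef
    have hJ : IsHom J := isHom_span fun g ⟨i, hi⟩ => ⟨a i.castSucc, hi ▸ hf _⟩
    have hcol : colonBy J l = J :=
      le_antisymm (fun u hu => hlreg u (mem_colonBy.1 hu)) (le_colonBy J l)
    have hmap : J.map P.phi = Ideal.span (Set.range fun i : Fin n => P.phi (f i.castSucc)) := by
      rw [hJdef, Ideal.map_span, ← Set.range_comp]
      rfl
    have hM := ih (fun i => a i.castSucc) (fun i => ha1 _) _
      (fun i => isHomogeneous_map P.phi P.homog (hf i.castSucc)) (hP P)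
    rw [← hmap] at hM
    set a' : Fin n → ℕ := fun i => a i.castSucc with ha'
    have hJd : ∀ d, hilb J d = ∑ v ∈ Finset.range (d + 1), (Box.lvl a' (d - v)).card := by
      intro d
      induction d with
      | zero => simp [← hilb_map_zero P hJ, hM]
      | succ d ihd =>
        rw [hilb_split P hl hl0 hJ d, hcol, ihd, hM, Finset.sum_range_succ' _ (d + 1)]
        simp [add_comm]
    have hJs : Ideal.span (Set.range f) = J ⊔ Ideal.span {f (Fin.last n)} := by
      rw [hJdef, ← Ideal.span_union]
      refine congrArg Ideal.span ?_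
      ext g
      constructor
      · rintro ⟨i, rfl⟩
        cases i using Fin.lastCases with
        | last => exact Or.inr rfl
        | cast i => exact Or.inl ⟨i, rfl⟩
      · rintro (⟨i, rfl⟩ | rfl) <;> exact ⟨_, rfl⟩
    have hf0 : f (Fin.last n) ≠ 0 := ne_zero_of_regular_last ha1 hf hfreg
    obtain ⟨h1, h2⟩ := hilb_add_form hJ (hf _) hf0 hfreg
    rw [hJs, card_lvl_succ a (Fin.last n) d,
      show a ∘ (Fin.last n).succAbove = a' from funext fun i => by simp [ha']]
    set k := a (Fin.last n) with hk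
    rcases Nat.lt_or_ge d k with h | h
    · rw [h1 d h, hJd, Finset.filter_true_of_mem fun v hv => by
        rw [Finset.mem_range] at hv; omega]
    · obtain ⟨e, rfl⟩ := Nat.exists_eq_add_of_le' h
      have h3 := h2 e
      rw [hJd, hJd] at h3
      have h5 := Finset.sum_range_add (fun v => (Box.lvl a' (e + k - v)).card) k (e + 1)
      rw [show k + (e + 1) = e + k + 1 by omega] at h5
      have hfil : (Finset.range (e + k + 1)).filter (fun v => v < k) = Finset.range k := by
        ext v
        simp only [Finset.mem_filter, Finset.mem_range]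
        omega
      rw [hfil]
      have h4 : ∀ x, e + k - (k + x) = e - x := fun x => by omega
      simp only [h4] at h5
      omega
where
  ne_zero_of_regular_last {m : ℕ} {a : Fin (m + 1) → ℕ} (ha1 : ∀ i, 1 ≤ a i)
      {f : Fin (m + 1) → MvPolynomial (Fin (m + 1)) L} (hf : ∀ i, (f i).IsHomogeneous (a i))
      (hfreg : ∀ u, u * f (Fin.last m) ∈ Ideal.span (Set.range (f ∘ Fin.castSucc)) →
        u ∈ Ideal.span (Set.range (f ∘ Fin.castSucc))) : f (Fin.last m) ≠ 0 := by
    intro h0
    have h1 := hfreg 1 (by rw [h0, mul_zero]; exact Submodule.zero_mem _)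
    have hle : Ideal.span (Set.range (f ∘ Fin.castSucc)) ≤ origin L (m + 1) :=
      Ideal.span_le.2 (by rintro _ ⟨i, rfl⟩; exact mem_origin_of_homog (ha1 _) (hf _))
    simpa [origin, RingHom.mem_ker] using hle h1

/-- The socle of a complete intersection sits in degree `Σ (a i - 1)`. -/
theorem socle_forms : ∀ (n : ℕ) (a : Fin n → ℕ), (∀ i, 1 ≤ a i) →
    ∀ f : Fin n → MvPolynomial (Fin n) L, (∀ i, (f i).IsHomogeneous (a i)) →
      Artin (Ideal.span (Set.range f)) →
      ∀ (d : ℕ) (u : MvPolynomial (Fin n) L), u.IsHomogeneous d → d ≠ ∑ i, (a i - 1) →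
        (∀ i, u * X i ∈ Ideal.span (Set.range f)) → u ∈ Ideal.span (Set.range f) := by
  intro n
  induction n with
  | zero =>
    intro a _ f _ _ d u hu hd _
    obtain ⟨e, rfl⟩ := Nat.exists_eq_succ_of_ne_zero (show d ≠ 0 by simpa using hd)
    have h0 : Vd L 0 (e + 1) = ⊥ := by rw [← Submodule.finrank_eq_zero, finrank_Vd_zero_succ]
    have hu' : u ∈ Vd L 0 (e + 1) := hu
    rw [h0, Submodule.mem_bot] at hu'
    rw [hu']
    exact Submodule.zero_mem _
  | succ n ih =>
    intro a ha1 f hf hA d u hu hd hX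
    obtain ⟨l, hl, hl0, hP, hlreg, hfreg⟩ := exists_regular_reduction ha1 hf hA
    obtain ⟨P⟩ := exists_cut hl hl0
    set J := Ideal.span (Set.range (f ∘ Fin.castSucc)) with hJdef
    set fl := f (Fin.last n)
    set k := a (Fin.last n)
    have hFJ : J ≤ Ideal.span (Set.range f) := Ideal.span_mono (Set.range_comp_subset_range _ _)
    have hflF : fl ∈ Ideal.span (Set.range f) := Ideal.subset_span ⟨_, rfl⟩
    have hle : Ideal.span (Set.range f) ≤ J ⊔ Ideal.span {fl} := by
      rw [Ideal.span_le]
      rintro _ ⟨i, rfl⟩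
      cases i using Fin.lastCases with
      | last => exact Ideal.mem_sup_right (Ideal.mem_span_singleton_self _)
      | cast i => exact Ideal.mem_sup_left (Ideal.subset_span ⟨i, rfl⟩)
    have hlin : ∀ x : MvPolynomial (Fin (n + 1)) L, x.IsHomogeneous 1 →
        u * x ∈ Ideal.span (Set.range f) := by
      intro x hx
      have hmem : x ∈ Submodule.span L
          (Set.range (X : Fin (n + 1) → MvPolynomial (Fin (n + 1)) L)) := by
        rw [← homogeneousSubmodule_one_eq_span_X]; exact hx
      obtain ⟨c, rfl⟩ := (Submodule.mem_span_range_iff_exists_fun L).1 hmem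
      rw [Finset.mul_sum]
      refine sum_mem fun i _ => ?_
      rw [mul_smul_comm]
      exact Submodule.smul_of_tower_mem _ _ (hX i)
    obtain ⟨j, hj, c, hjc⟩ := mem_sup_span (hle (hlin l hl))
    have hJ : IsHom J := isHom_span fun g ⟨i, hi⟩ => ⟨a i.castSucc, hi ▸ hf _⟩
    have hd1 := homogeneousComponent_eq_self (hu.mul hl)
    rw [← hjc, map_add] at hd1
    rcases Nat.lt_or_ge (d + 1) k with h | h
    · rw [comp_mul_of_lt (hf _) c h, add_zero] at hd1
      refine hFJ (hlreg u ?_)
      rw [← hjc, ← hd1]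
      exact hJ j hj _
    obtain ⟨e, he⟩ := Nat.exists_eq_add_of_le' h
    rw [he, comp_mul (hf _)] at hd1
    set c' := homogeneousComponent e c
    set j' := homogeneousComponent (e + k) j
    have hj' : j' ∈ J := hJ j hj _
    have heq : j' + c' * fl = u * l := hd1.trans hjc
    have hc' : c' ∈ J ⊔ Ideal.span {l} := by
      refine map_mem_map_cut P ?_
      rw [hJdef, Ideal.map_span, ← Set.range_comp]
      refine ih (fun i => a i.castSucc) (fun i => ha1 _) _
        (fun i => isHomogeneous_map P.phi P.homog (hf i.castSucc)) (hP P) e _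
        (isHomogeneous_map P.phi P.homog (homogeneousComponent_isHomogeneous e c)) ?_ fun i => ?_
      · rw [Fin.sum_univ_castSucc] at hd
        have := ha1 (Fin.last n)
        omega
      · obtain ⟨x, hx, hxX⟩ := P.sec 1 (X i) (isHomogeneous_X L i)
        obtain ⟨j1, hj1, w, hw⟩ := mem_sup_span (hle (hlin x hx))
        have h2 : (c' * x - w * l) * fl ∈ J := by
          have : (c' * x - w * l) * fl = j1 * l - j' * x := by
            linear_combination x * heq - l * hw
          rw [this]
          exact sub_mem (J.mul_mem_right _ hj1) (J.mul_mem_right _ hj')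
        have h3 : c' * x ∈ J ⊔ Ideal.span {l} := by
          rw [← sub_add_cancel (c' * x) (w * l)]
          exact add_mem (Ideal.mem_sup_left (hfreg _ h2))
            (Ideal.mem_sup_right (Ideal.mul_mem_left _ _ (Ideal.mem_span_singleton_self l)))
        have h4 := map_cut_mem P h3
        rw [hJdef, Ideal.map_span, ← Set.range_comp, map_mul, hxX] at h4
        exact h4
    obtain ⟨j2, hj2, w, hw⟩ := mem_sup_span hc'
    have h5 : (u - w * fl) * l ∈ J := by
      have : (u - w * fl) * l = j' + j2 * fl := by linear_combination fl * hw.symm - heq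
      rw [this]
      exact add_mem hj' (J.mul_mem_right _ hj2)
    rw [← sub_add_cancel u (w * fl)]
    exact add_mem (hFJ (hlreg _ h5)) (Ideal.mul_mem_left _ _ hflF)

/-- Beyond the socle degree everything lies in the complete intersection. -/
lemma mem_forms_of_gt {a : Fin n → ℕ} (ha1 : ∀ i, 1 ≤ a i)
    {f : Fin n → MvPolynomial (Fin n) L} (hf : ∀ i, (f i).IsHomogeneous (a i))
    (hA : Artin (Ideal.span (Set.range f))) {d : ℕ} (hd : ∑ i, (a i - 1) < d)
    {u : MvPolynomial (Fin n) L} (hu : u.IsHomogeneous d) : u ∈ Ideal.span (Set.range f) := by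
  have h : hilb (Ideal.span (Set.range f)) d = 0 := by
    rw [hilb_forms n a ha1 f hf hA, Finset.card_eq_zero, Finset.eq_empty_iff_forall_notMem]
    intro e he
    obtain ⟨h1, h2⟩ := Box.mem_lvl.1 he
    have : ∑ i, e i ≤ ∑ i, (a i - 1) := Finset.sum_le_sum fun i _ => by have := h2 i; omega
    omega
  have heq : degPart (Ideal.span (Set.range f)) d = Vd L n d := by
    refine Submodule.eq_of_le_of_finrank_eq (degPart_le _ _) ?_
    have := finrank_degPart_add (Ideal.span (Set.range f)) d
    omega
  have : u ∈ degPart (Ideal.span (Set.range f)) d := by rw [heq]; exact hu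
  exact this.2

/-- The pairing into the socle degree is nondegenerate. -/
lemma pairing_nondegenerate {a : Fin n → ℕ} (ha1 : ∀ i, 1 ≤ a i)
    {f : Fin n → MvPolynomial (Fin n) L} (hf : ∀ i, (f i).IsHomogeneous (a i))
    (hA : Artin (Ideal.span (Set.range f))) : ∀ (k d : ℕ) (u : MvPolynomial (Fin n) L),
      d + k = ∑ i, (a i - 1) → u.IsHomogeneous d →
      (∀ g : MvPolynomial (Fin n) L, g.IsHomogeneous k → u * g ∈ Ideal.span (Set.range f)) →
      u ∈ Ideal.span (Set.range f) := by
  intro k
  induction k with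
  | zero => exact fun d u _ _ h => by simpa using h 1 (isHomogeneous_one (Fin n) L)
  | succ k ih =>
    intro d u hk hu h
    refine socle_forms n a ha1 f hf hA d u hu (by omega) fun i => ?_
    refine ih (d + 1) _ (by omega) (hu.mul (isHomogeneous_X L i)) fun g hg => ?_
    rw [mul_assoc]
    exact h _ (by simpa [add_comm] using (isHomogeneous_X L i).mul hg)

/-- The linked ideal. -/
noncomputable def linkBy (F I : Ideal (MvPolynomial (Fin n) L)) :
    Ideal (MvPolynomial (Fin n) L) :=
  ⨅ y ∈ I, colonBy F y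

omit [IsAlgClosed L] in
lemma mem_linkBy {F I : Ideal (MvPolynomial (Fin n) L)} {x : MvPolynomial (Fin n) L} :
    x ∈ linkBy F I ↔ ∀ y ∈ I, x * y ∈ F := by
  simp [linkBy, Submodule.mem_iInf, mem_colonBy]

omit [IsAlgClosed L] in
lemma isHom_linkBy {F I : Ideal (MvPolynomial (Fin n) L)} (hF : IsHom F) (hI : IsHom I) :
    IsHom (linkBy F I) := fun x hx d => mem_linkBy.2 fun y hy => by
  rw [← sum_homogeneousComponent y, Finset.mul_sum]
  refine sum_mem fun e _ => ?_
  rw [← comp_mul (homogeneousComponent_isHomogeneous e y)]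
  exact hF _ (mem_linkBy.1 hx _ (hI y hy e)) _

/-- Linkage: the Hilbert functions of `I` and of the linked ideal are complementary. -/
theorem hilb_linkBy {a : Fin n → ℕ} (ha1 : ∀ i, 1 ≤ a i)
    {f : Fin n → MvPolynomial (Fin n) L} (hf : ∀ i, (f i).IsHomogeneous (a i))
    (hA : Artin (Ideal.span (Set.range f))) {I : Ideal (MvPolynomial (Fin n) L)} (hI : IsHom I)
    (hFI : Ideal.span (Set.range f) ≤ I) {d e : ℕ} (hde : d + e = ∑ i, (a i - 1)) :
    hilb (linkBy (Ideal.span (Set.range f)) I) d + hilb I e = (Box.lvl a e).card := by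
  classical
  set F := Ideal.span (Set.range f) with hFdef
  set s := ∑ i, (a i - 1)
  set Fs := (degPart F s).comap (Vd L n s).subtype
  have hs1 : Module.finrank L (Vd L n s ⧸ Fs) = 1 := by
    have h := Submodule.finrank_quotient_add_finrank Fs
    rw [(Submodule.comapSubtypeEquivOfLe (degPart_le F s)).finrank_eq] at h
    have h2 := finrank_degPart_add F s
    have h3 : (Box.lvl a s).card = 1 := by
      refine Finset.card_eq_one.2 ⟨fun i => a i - 1, ?_⟩
      ext x
      rw [Box.mem_lvl, Finset.mem_singleton]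
      constructor
      · rintro ⟨h1, h2⟩
        have hle : ∀ i ∈ Finset.univ, x i ≤ a i - 1 := fun i _ => by have := h2 i; omega
        exact funext fun i => (Finset.sum_eq_sum_iff_of_le hle).1 h1 i (Finset.mem_univ i)
      · rintro rfl
        exact ⟨rfl, fun i => show a i - 1 < a i by have := ha1 i; omega⟩
    rw [hilb_forms n a ha1 f hf hA, h3] at h2
    omega
  let μ : Vd L n s →ₗ[L] L :=
    (LinearEquiv.ofFinrankEq (Vd L n s ⧸ Fs) L (by rw [hs1, Module.finrank_self])).toLinearMap.comp
      Fs.mkQ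
  have hμ : ∀ x : Vd L n s, μ x = 0 ↔ (x : MvPolynomial (Fin n) L) ∈ F := by
    intro x
    simp only [μ, LinearMap.comp_apply, LinearEquiv.coe_coe, LinearEquiv.map_eq_zero_iff,
      Submodule.mkQ_apply, Submodule.Quotient.mk_eq_zero]
    exact ⟨fun h => h.2, fun h => ⟨x.2, h⟩⟩
  have hmem : ∀ (y : degPart I e) (u : Vd L n d),
      ((u : MvPolynomial (Fin n) L) * y) ∈ Vd L n s := fun y u => hde ▸ u.2.mul y.2.1
  let B : degPart I e →ₗ[L] Module.Dual L (Vd L n d) :=
    LinearMap.mk₂ L (fun y u => μ ⟨(u : MvPolynomial (Fin n) L) * y, hmem y u⟩)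
      (fun y y' u => by rw [← map_add]; exact congrArg μ (Subtype.ext (by simp [mul_add])))
      (fun c y u => by rw [← map_smul]; exact congrArg μ (Subtype.ext (by simp)))
      (fun y u u' => by rw [← map_add]; exact congrArg μ (Subtype.ext (by simp [add_mul])))
      (fun c y u => by rw [← map_smul]; exact congrArg μ (Subtype.ext (by simp)))
  have hB : ∀ y u, B y u = 0 ↔ (u : MvPolynomial (Fin n) L) * y ∈ F := fun y u => hμ _
  have hker : LinearMap.ker B = (degPart F e).comap (degPart I e).subtype := by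
    ext y
    rw [LinearMap.mem_ker, Submodule.mem_comap, Submodule.subtype_apply]
    constructor
    · intro h
      refine ⟨y.2.1, pairing_nondegenerate ha1 hf hA d e _ (by omega) y.2.1 fun g hg => ?_⟩
      rw [mul_comm]
      exact (hB y ⟨g, hg⟩).1 (by rw [h, LinearMap.zero_apply])
    · intro h
      exact LinearMap.ext fun u => (hB y u).2 (F.mul_mem_left _ h.2)
  have hle : degPart F e ≤ degPart I e := inf_le_inf_left _ fun x hx => hFI hx
  have h1 := B.finrank_range_add_finrank_ker
  rw [hker, (Submodule.comapSubtypeEquivOfLe hle).finrank_eq] at h1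
  have hco : (LinearMap.range B).dualCoannihilator =
      (degPart (linkBy F I) d).comap (Vd L n d).subtype := by
    ext u
    rw [Submodule.mem_dualCoannihilator, Submodule.mem_comap, Submodule.subtype_apply]
    constructor
    · intro h
      refine ⟨u.2, mem_linkBy.2 fun y hy => ?_⟩
      rw [← sum_homogeneousComponent y, Finset.mul_sum]
      refine sum_mem fun k _ => ?_
      have hk := homogeneousComponent_isHomogeneous k y
      rcases lt_trichotomy k e with hlt | rfl | hgt
      · refine pairing_nondegenerate ha1 hf hA (e - k) (d + k) _ (by omega) (u.2.mul hk)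
          fun g hg => ?_
        rw [mul_assoc]
        exact (hB ⟨homogeneousComponent k y * g,
          Nat.add_sub_cancel' hlt.le ▸ hk.mul hg, I.mul_mem_right _ (hI y hy k)⟩ u).1
          (h _ ⟨_, rfl⟩)
      · exact (hB ⟨homogeneousComponent k y, hk, hI y hy k⟩ u).1 (h _ ⟨_, rfl⟩)
      · exact mem_forms_of_gt ha1 hf hA (by omega) (u.2.mul hk)
    · rintro h _ ⟨y, rfl⟩
      exact (hB y u).2 (mem_linkBy.1 h.2 _ y.2.2)
  have h2 := Subspace.finrank_add_finrank_dualCoannihilator_eq (LinearMap.range B)
  rw [hco, (Submodule.comapSubtypeEquivOfLe (degPart_le (linkBy F I) d)).finrank_eq] at h2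
  have := finrank_degPart_add F e
  have := finrank_degPart_add I e
  have := finrank_degPart_add (linkBy F I) d
  have := hilb_forms n a ha1 f hf hA e
  rw [← hFdef] at this
  omega

end Vale.Agent.P200

namespace Vale.Agent.P200.Box

open Finset

/-- Reflection of the box. -/
def flip {n : ℕ} (a e : Fin n → ℕ) : Fin n → ℕ := fun i => a i - 1 - e i

lemma flip_mem {n d k : ℕ} {a e : Fin n → ℕ} (ha1 : ∀ i, 1 ≤ a i)
    (hdk : d + k = ∑ i, (a i - 1)) (he : e ∈ lvl a d) :
    flip a e ∈ lvl a k ∧ flip a (flip a e) = e := by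
  obtain ⟨h1, h2⟩ := mem_lvl.1 he
  refine ⟨mem_lvl.2 ⟨?_, fun i => ?_⟩, funext fun i => ?_⟩
  · have h3 : ∑ i, flip a e i + ∑ i, e i = ∑ i, (a i - 1) := by
      rw [← sum_add_distrib]
      exact sum_congr rfl fun i _ => by have := h2 i; simp only [flip]; omega
    omega
  · have := ha1 i; simp only [flip]; omega
  · have := h2 i; simp only [flip]; omega

/-- The growth condition passes to the complementary degrees. -/
lemma step_flip {n d k : ℕ} {a : Fin n → ℕ} (ha1 : ∀ i, 1 ≤ a i)
    (hdk : d + 1 + k = ∑ i, (a i - 1)) {A : Finset (Fin n → ℕ)} (hA : A ⊆ lvl a (k + 1))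
    {h0 h1 : ℕ} (h0A : A.card + h0 = (lvl a d).card)
    (h1A : (sh a k A).card + h1 ≤ (lvl a (d + 1)).card) :
    ∃ C ⊆ lvl a (d + 1), C.card = h1 ∧ (sh a d C).card ≤ h0 := by
  classical
  set U := (sh a k A).image (flip a) with hU
  have hUc : U.card ≤ (sh a k A).card := card_image_le
  obtain ⟨C, hC, hCc⟩ := exists_subset_card_eq (s := lvl a (d + 1) \ U) (n := h1)
    (by have := le_card_sdiff U (lvl a (d + 1)); omega)
  refine ⟨C, hC.trans sdiff_subset, hCc, ?_⟩
  have hsub : sh a d C ⊆ lvl a d \ A.image (flip a) := by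
    intro t ht
    obtain ⟨ht1, i, hti⟩ := mem_sh.1 ht
    refine mem_sdiff.2 ⟨ht1, fun hmem => ?_⟩
    obtain ⟨x, hx, rfl⟩ := mem_image.1 hmem
    obtain ⟨hm1, hm2⟩ := mem_sdiff.1 (hC hti)
    obtain ⟨hm3, hm4⟩ := flip_mem ha1 hdk hm1
    refine hm2 (mem_image.2 ⟨_, mem_sh.2 ⟨hm3, i, ?_⟩, hm4⟩)
    have hx2 := (mem_lvl.1 (hA hx)).2
    have hup := (mem_lvl.1 hm1).2 i
    have : up (flip a (up (flip a x) i)) i = x := by
      funext j
      have := hx2 j
      by_cases hj : j = i
      · subst hj
        rw [up_self] at hup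
        simp only [flip, up_self] at *
        omega
      · simp only [flip, up_of_ne _ hj]
        omega
    rw [this]
    exact hx
  have hinj : (A.image (flip a)).card = A.card := by
    refine card_image_of_injOn fun x hx y hy hxy => funext fun i => ?_
    have hxi := (mem_lvl.1 (hA hx)).2 i
    have hyi := (mem_lvl.1 (hA hy)).2 i
    have := congrFun hxy i
    simp only [flip] at this
    omega
  have hsubA : A.image (flip a) ⊆ lvl a d := by
    intro t ht
    obtain ⟨x, hx, rfl⟩ := mem_image.1 ht
    exact (flip_mem ha1 (by omega) (hA hx)).1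
  have := card_le_card hsub
  rw [card_sdiff_of_subset hsubA] at this
  omega

end Vale.Agent.P200.Box
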