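import Mathlib
import Vale.Agent.P200.Linkage

/-!
The middle degree when the last degree equals the socle degree of the others.
-/

open MvPolynomial

namespace Vale.Agent.P200

section operators

variable {k T : Type*} [Field k] [AddCommGroup T] [Module k T] [FiniteDimensional k T]

/-- A subspace which a rich commuting family of operators moves by at most one dimension. -/
lemma operators_false (Op : Submodule k (Module.End k T))
    (hcomm : ∀ p ∈ Op, ∀ q ∈ Op, p * q = q * p) (hone : (1 : Module.End k T) ∈ Op)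
    (hbig : ∀ p ∈ Op, ∃ z ∈ Op, ∀ r s : k, z ≠ r • (1 : Module.End k T) + s • p)
    {h : T} (hcyc : ∀ Z : Submodule k T, h ∈ Z → (∀ p ∈ Op, ∀ t ∈ Z, p t ∈ Z) → Z = ⊤)
    {U U' : Submodule k T} (hU0 : U ≠ ⊥) (hU' : U' ≠ ⊤) (hUU' : U ≤ U') (hh : h ∈ U')
    (hAU : ∀ p ∈ Op, ∀ t ∈ U, p t ∈ U')
    (hfree : ∀ Z : Submodule k T, Z ≤ U → (∀ p ∈ Op, ∀ t ∈ Z, p t ∈ Z) → Z = ⊥)
    (hdim : Module.finrank k U' ≤ Module.finrank k U + 1) : False := by
  classical
  have comm : ∀ p ∈ Op, ∀ q ∈ Op, ∀ t, p (q t) = q (p t) := fun p hp q hq t =>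
    LinearMap.congr_fun (hcomm p hp q hq) t
  have hne : U ≠ U' := by
    intro he
    refine hU0 (hfree U le_rfl fun p hp t ht => ?_)
    rw [he]
    exact hAU p hp t ht
  obtain ⟨g, hg, hgU⟩ := SetLike.exists_of_lt (lt_of_le_of_ne hUU' hne)
  obtain ⟨φ, hφg, hφU⟩ := Submodule.exists_dual_map_eq_bot_of_notMem hgU inferInstance
  have hφU0 : ∀ t ∈ U, φ t = 0 := fun t ht =>
    (Submodule.mem_bot k).1 (hφU ▸ Submodule.mem_map_of_mem ht)
  set g' := (φ g)⁻¹ • g
  have hg' : g' ∈ U' := U'.smul_mem _ hg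
  have hφg' : φ g' = 1 := by simp [g', inv_mul_cancel₀ hφg]
  have hspan : U ⊔ Submodule.span k {g'} = U' := by
    refine Submodule.eq_of_le_of_finrank_le
      (sup_le hUU' ((Submodule.span_singleton_le_iff_mem _ _).2 hg')) (hdim.trans ?_)
    refine Submodule.finrank_lt_finrank_of_lt (lt_of_le_not_ge le_sup_left fun hle => ?_)
    have := hφU0 _ (hle (Submodule.mem_sup_right (Submodule.mem_span_singleton_self g')))
    rw [hφg'] at this
    exact one_ne_zero this
  have hdec : ∀ t ∈ U', t - φ t • g' ∈ U := by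
    intro t ht
    rw [← hspan, Submodule.mem_sup] at ht
    obtain ⟨u, hu, v, hv, rfl⟩ := ht
    obtain ⟨r, rfl⟩ := Submodule.mem_span_singleton.1 hv
    simpa [hφU0 u hu, hφg'] using hu
  have hkey : ∀ p ∈ Op, ∀ q ∈ Op, ∀ u ∈ U, φ (p u) • q g' - φ (q u) • p g' ∈ U' := by
    intro p hp q hq u hu
    have e1 := hAU q hq _ (hdec _ (hAU p hp u hu))
    have e2 := hAU p hp _ (hdec _ (hAU q hq u hu))
    have e3 : φ (p u) • q g' - φ (q u) • p g' =
        p (q u - φ (q u) • g') - q (p u - φ (p u) • g') := by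
      simp only [map_sub, map_smul, comm p hp q hq u]
      abel
    rw [e3]
    exact U'.sub_mem e2 e1
  obtain ⟨p0, hp0, u1, hu1, hne1⟩ : ∃ p ∈ Op, ∃ u ∈ U, φ (p u) ≠ 0 := by
    by_contra hcon
    push Not at hcon
    refine hU0 (hfree U le_rfl fun p hp t ht => ?_)
    simpa [hcon p hp t ht] using hdec _ (hAU p hp t ht)
  set c := φ (p0 u1)
  have hK0g : ∀ q ∈ Op, φ (q u1) = 0 → q g' ∈ U' := by
    intro q hq hq0
    have h1 := hkey p0 hp0 q hq u1 hu1
    rw [hq0, zero_smul, sub_zero] at h1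
    simpa [smul_smul, inv_mul_cancel₀ hne1, c] using U'.smul_mem c⁻¹ h1
  have hsplit : ∀ q ∈ Op, (q - (φ (q u1) / c) • p0) ∈ Op ∧
      φ ((q - (φ (q u1) / c) • p0) u1) = 0 := by
    intro q hq
    refine ⟨Op.sub_mem hq (Op.smul_mem _ hp0), ?_⟩
    simp [c, div_mul_cancel₀ _ hne1]
  have hstab : ∀ q ∈ Op, φ (q u1) = 0 → ∀ t ∈ U, q t ∈ U := by
    intro q hq hq0 u2 hu2
    by_cases hc : φ (q u2) = 0
    · simpa [hc] using hdec _ (hAU q hq u2 hu2)
    exfalso
    have h1 := hkey q hq p0 hp0 u2 hu2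
    have hgq := hK0g q hq hq0
    have hp0g : p0 g' ∈ U' := by
      have h2 := U'.smul_mem (φ (q u2))⁻¹ (U'.add_mem h1 (U'.smul_mem (φ (p0 u2)) hgq))
      simpa [smul_smul, inv_mul_cancel₀ hc] using h2
    refine hU' (hcyc U' hh fun p hp t ht => ?_)
    have hpg : p g' ∈ U' := by
      obtain ⟨h3, h4⟩ := hsplit p hp
      have h5 := U'.add_mem (hK0g _ h3 h4) (U'.smul_mem (φ (p u1) / c) hp0g)
      simpa using h5
    have h6 := U'.add_mem (hAU p hp _ (hdec t ht)) (U'.smul_mem (φ t) hpg)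
    simpa using h6
  have hstab' : ∀ q ∈ Op, φ (q u1) = 0 → ∀ t ∈ U', q t ∈ U' := by
    intro q hq hq0 t ht
    have h6 := U'.add_mem (hUU' (hstab q hq hq0 _ (hdec t ht)))
      (U'.smul_mem (φ t) (hK0g q hq hq0))
    simpa using h6
  obtain ⟨z, hz, hzne⟩ := hbig p0 hp0
  set z' := z - (φ (z u1) / c) • p0
  obtain ⟨hz', hz'0⟩ := hsplit z hz
  set χ := φ (z' g')
  set P : Module.End k T := z' - χ • 1
  have hP : P ∈ Op := Op.sub_mem hz' (Op.smul_mem _ hone)
  have hP1 : φ (P u1) = 0 := by simp [P, z', c, div_mul_cancel₀ _ hne1, hφU0 u1 hu1]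
  have hP0 : P ≠ 0 := by
    intro h0
    refine hzne χ (φ (z u1) / c) ?_
    rw [← sub_eq_zero, ← h0]
    simp only [P, z']
    abel
  have hPU : ∀ t ∈ U', P t ∈ U := by
    intro t ht
    have h1 := hstab P hP hP1 _ (hdec t ht)
    have h2 : P g' ∈ U := by
      have h3 := hdec _ (hstab' z' hz' hz'0 g' hg')
      simpa [P, χ] using h3
    have h4 := U.add_mem h1 (U.smul_mem (φ t) h2)
    simpa using h4
  have stable : ∀ Z : Submodule k T, Z ≤ U → (∀ t ∈ Z, p0 t ∈ Z) →
      (∀ q ∈ Op, φ (q u1) = 0 → ∀ t ∈ Z, q t ∈ Z) → Z = ⊥ := by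
    intro Z hZ h1 h2
    refine hfree Z hZ fun p hp t ht => ?_
    obtain ⟨h3, h4⟩ := hsplit p hp
    have h5 := Z.add_mem (h2 _ h3 h4 t ht) (Z.smul_mem (φ (p u1) / c) (h1 t ht))
    simpa using h5
  have commP : ∀ q ∈ Op, ∀ (i : ℕ) t, q ((P ^ i) t) = (P ^ i) (q t) := by
    intro q hq i
    induction i with
    | zero => simp
    | succ i ih =>
      intro t
      rw [pow_succ', Module.End.mul_apply, Module.End.mul_apply, comm q hq P hP, ih]
  obtain ⟨N, hN⟩ : ∃ N, U'.map (P ^ (N + 1)) = U'.map (P ^ (N + 2)) := by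
    have hanti : ∀ i, U'.map (P ^ (i + 1)) ≤ U'.map (P ^ i) := by
      rintro i _ ⟨t, ht, rfl⟩
      exact ⟨P t, hUU' (hPU t ht), by rw [pow_succ, Module.End.mul_apply]⟩
    by_contra hcon
    push Not at hcon
    have hlt : ∀ i, Module.finrank k (U'.map (P ^ (i + 1))) + i ≤ Module.finrank k T := by
      intro i
      induction i with
      | zero => simpa using Submodule.finrank_le _
      | succ i ih =>
        have := Submodule.finrank_lt_finrank_of_lt (lt_of_le_of_ne (hanti (i + 1)) (hcon i).symm)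
        omega
    have := hlt (Module.finrank k T + 1)
    omega
  have hZ : U'.map (P ^ (N + 1)) = ⊥ := by
    refine stable _ ?_ ?_ ?_
    · rintro _ ⟨t, ht, rfl⟩
      have hin : ∀ i, (P ^ i) t ∈ U' := by
        intro i
        induction i with
        | zero => simpa using ht
        | succ i ih => rw [pow_succ', Module.End.mul_apply]; exact hUU' (hPU _ ih)
      rw [pow_succ', Module.End.mul_apply]
      exact hPU _ (hin N)
    · intro x hx
      rw [hN] at hx
      obtain ⟨t, ht, rfl⟩ := hx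
      refine ⟨p0 (P t), hAU p0 hp0 _ (hPU t ht), ?_⟩
      rw [pow_succ (n := N + 1), Module.End.mul_apply, commP p0 hp0]
    · intro q hq hq0 x hx
      obtain ⟨t, ht, rfl⟩ := hx
      exact ⟨q t, hstab' q hq hq0 t ht, (commP q hq _ t).symm⟩
  have hnil : ∀ t, (P ^ (N + 1)) t = 0 := by
    have hker : LinearMap.ker (P ^ (N + 1)) = ⊤ := by
      refine hcyc _ ?_ fun q hq t ht => ?_
      · rw [LinearMap.mem_ker, ← Submodule.mem_bot k, ← hZ]
        exact ⟨h, hh, rfl⟩
      · rw [LinearMap.mem_ker] at ht ⊢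
        rw [← commP q hq, ht, map_zero]
    exact fun t => LinearMap.mem_ker.1 (hker ▸ Submodule.mem_top)
  by_cases hW : U' ⊓ LinearMap.ker P ≤ U
  · have hW0 : U' ⊓ LinearMap.ker P = ⊥ := by
      refine stable _ hW (fun t ht => ?_) fun q hq hq0 t ht => ?_
      · refine ⟨hAU p0 hp0 t (hW ht), ?_⟩
        rw [SetLike.mem_coe, LinearMap.mem_ker, comm P hP p0 hp0, LinearMap.mem_ker.1 ht.2,
          map_zero]
      · refine ⟨hstab' q hq hq0 t ht.1, ?_⟩
        rw [SetLike.mem_coe, LinearMap.mem_ker, comm P hP q hq, LinearMap.mem_ker.1 ht.2,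
          map_zero]
    have hall : ∀ i, ∀ t ∈ U', (P ^ i) t = 0 → t = 0 := by
      intro i
      induction i with
      | zero => intro t _ h0; simpa using h0
      | succ i ih =>
        intro t ht h0
        rw [pow_succ, Module.End.mul_apply] at h0
        have hPt : P t = 0 := ih _ (hUU' (hPU t ht)) h0
        have : t ∈ U' ⊓ LinearMap.ker P := ⟨ht, hPt⟩
        rwa [hW0, Submodule.mem_bot] at this
    have hh0 := hall (N + 1) g' hg' (hnil g')
    rw [hh0, map_zero] at hφg'
    exact zero_ne_one hφg'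
  · obtain ⟨g2, hg2, hg2U⟩ := SetLike.not_le_iff_exists.1 hW
    have hPU' : U'.map P ≤ U.map P := by
      rintro _ ⟨t, ht, rfl⟩
      have hc2 : φ g2 ≠ 0 := fun h0 => hg2U (by simpa [h0] using hdec g2 hg2.1)
      refine ⟨t - (φ t / φ g2) • g2, ?_, ?_⟩
      · have h1 := hdec _ (U'.sub_mem ht (U'.smul_mem (φ t / φ g2) hg2.1))
        have h2 : φ (t - (φ t / φ g2) • g2) = 0 := by simp [div_mul_cancel₀ _ hc2]
        rwa [h2, zero_smul, sub_zero] at h1
      · rw [map_sub, map_smul, LinearMap.mem_ker.1 hg2.2, smul_zero, sub_zero]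
    have hPU0 : U.map P = ⊥ := by
      refine stable _ ?_ ?_ ?_
      · rintro _ ⟨t, ht, rfl⟩; exact hPU t (hUU' ht)
      · rintro _ ⟨t, ht, rfl⟩
        exact hPU' ⟨p0 t, hAU p0 hp0 t ht, comm P hP p0 hp0 t⟩
      · rintro q hq hq0 _ ⟨t, ht, rfl⟩
        exact ⟨q t, hstab q hq hq0 t ht, comm P hP q hq t⟩
    have hker : LinearMap.ker P = ⊤ := by
      refine hcyc _ ?_ fun q hq t ht => ?_
      · rw [LinearMap.mem_ker, ← Submodule.mem_bot k, ← hPU0]
        exact hPU' ⟨h, hh, rfl⟩
      · rw [LinearMap.mem_ker] at ht ⊢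
        rw [comm P hP q hq, ht, map_zero]
    exact hP0 (LinearMap.ker_eq_top.1 hker)

end operators

section concrete

variable {L : Type*} [Field L] [IsAlgClosed L] {n : ℕ}

/-- The forms of degree `e` modulo `J`. -/
noncomputable def piece (J : Ideal (MvPolynomial (Fin n) L)) (e : ℕ) :
    Submodule L (MvPolynomial (Fin n) L ⧸ J) :=
  (Vd L n e).map (Ideal.Quotient.mkₐ L J).toLinearMap

instance finite_piece (J : Ideal (MvPolynomial (Fin n) L)) (e : ℕ) :
    Module.Finite L (piece J e) := by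
  unfold piece; infer_instance

omit [IsAlgClosed L] in
lemma finrank_map_inf {V W : Type*} [AddCommGroup V] [Module L V] [AddCommGroup W] [Module L W]
    (g : V →ₗ[L] W) (A B : Submodule L V) [Module.Finite L A]
    (h : A ⊓ LinearMap.ker g = B) :
    Module.finrank L (A.map g) + Module.finrank L B = Module.finrank L A := by
  have h1 := (g.domRestrict A).finrank_range_add_finrank_ker
  rw [LinearMap.range_domRestrict] at h1
  have h2 : Module.finrank L (LinearMap.ker (g.domRestrict A)) = Module.finrank L B := by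
    have e1 := (Submodule.comapSubtypeEquivOfLe
      (inf_le_left : A ⊓ LinearMap.ker g ≤ A)).finrank_eq
    rw [Submodule.comap_inf, Submodule.comap_subtype_self, top_inf_eq, h] at e1
    exact e1
  omega

omit [IsAlgClosed L] in
lemma mk_eq_zero {J : Ideal (MvPolynomial (Fin n) L)} {x : MvPolynomial (Fin n) L} :
    (Ideal.Quotient.mkₐ L J).toLinearMap x = 0 ↔ x ∈ J := Ideal.Quotient.eq_zero_iff_mem

omit [IsAlgClosed L] in
lemma finrank_piece (J : Ideal (MvPolynomial (Fin n) L)) (e : ℕ) :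
    Module.finrank L (piece J e) = hilb J e := by
  have h1 := finrank_map_inf (Ideal.Quotient.mkₐ L J).toLinearMap (Vd L n e) (degPart J e)
    (Submodule.ext fun x => ⟨fun h => ⟨h.1, mk_eq_zero.1 h.2⟩,
      fun h => ⟨h.1, mk_eq_zero.2 h.2⟩⟩)
  have h2 := finrank_degPart_add J e
  unfold piece
  omega

omit [IsAlgClosed L] in
lemma mk_mul (J : Ideal (MvPolynomial (Fin n) L)) (x y : MvPolynomial (Fin n) L) :
    (Ideal.Quotient.mkₐ L J).toLinearMap (x * y) =
      (Ideal.Quotient.mkₐ L J).toLinearMap x * (Ideal.Quotient.mkₐ L J).toLinearMap y :=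
  map_mul (Ideal.Quotient.mkₐ L J) x y

omit [IsAlgClosed L] in
lemma cancel_pow {l : MvPolynomial (Fin n) L} {J : Ideal (MvPolynomial (Fin n) L)}
    (hlreg : ∀ u, u * l ∈ J → u ∈ J) (j : ℕ) : ∀ p q : MvPolynomial (Fin n) L ⧸ J,
      (Ideal.Quotient.mkₐ L J).toLinearMap l ^ j * p =
        (Ideal.Quotient.mkₐ L J).toLinearMap l ^ j * q → p = q := by
  induction j with
  | zero => intro p q h; simpa using h
  | succ j ih =>
    intro p q h
    rw [pow_succ', mul_assoc, mul_assoc] at h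
    refine ih p q ?_
    set v := (Ideal.Quotient.mkₐ L J).toLinearMap l ^ j
    obtain ⟨u, hu⟩ := Ideal.Quotient.mk_surjective (v * p - v * q)
    have h1 : (Ideal.Quotient.mkₐ L J).toLinearMap (u * l) = 0 := by
      rw [mk_mul, show (Ideal.Quotient.mkₐ L J).toLinearMap u = v * p - v * q from hu, mul_comm,
        mul_sub, h, sub_self]
    rw [← sub_eq_zero, ← hu]
    exact Ideal.Quotient.eq_zero_iff_mem.2 (hlreg u (mk_eq_zero.1 h1))

omit [IsAlgClosed L] in
/-- Multiplication by linear forms, divided by `l`. -/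
lemma exists_ops {l : MvPolynomial (Fin n) L} (hl : l.IsHomogeneous 1)
    {J : Ideal (MvPolynomial (Fin n) L)} (hlreg : ∀ u, u * l ∈ J → u ∈ J)
    {d : ℕ} (hTT : hilb J (d + 1) = hilb J (d + 2)) :
    ∃ A : Vd L n 1 →ₗ[L] Module.End L (piece J (d + 1)), ∀ x t,
      (Ideal.Quotient.mkₐ L J).toLinearMap l * (A x t : MvPolynomial (Fin n) L ⧸ J) =
        (Ideal.Quotient.mkₐ L J).toLinearMap x * t := by
  have hmulT : ∀ (x : Vd L n 1) (t : piece J (d + 1)),
      (Ideal.Quotient.mkₐ L J).toLinearMap x * (t : MvPolynomial (Fin n) L ⧸ J) ∈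
        piece J (d + 2) := by
    rintro ⟨x, hx⟩ ⟨t, y, hy, rfl⟩
    refine ⟨x * y, ?_, mk_mul J x y⟩
    have h := IsHomogeneous.mul hx hy
    rwa [show 1 + (d + 1) = d + 2 by omega] at h
  let M : Vd L n 1 →ₗ[L] piece J (d + 1) →ₗ[L] piece J (d + 2) := LinearMap.mk₂ L
    (fun x t => ⟨_, hmulT x t⟩)
    (fun x y t => Subtype.ext (by simp [add_mul]))
    (fun c x t => Subtype.ext (by simp [smul_mul_assoc]))
    (fun x t s => Subtype.ext (by simp [mul_add]))
    (fun c x t => Subtype.ext (by simp [mul_smul_comm]))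
  have hMinj : Function.Injective (M ⟨l, hl⟩) := by
    intro s t h
    exact Subtype.ext (cancel_pow hlreg 1 _ _ (by simpa [M] using congrArg Subtype.val h))
  let E : piece J (d + 1) ≃ₗ[L] piece J (d + 2) := LinearMap.linearEquivOfInjective (M ⟨l, hl⟩)
    hMinj (by rw [finrank_piece, finrank_piece, hTT])
  refine ⟨LinearMap.mk₂ L (fun x t => E.symm (M x t)) (fun x y t => by simp)
    (fun c x t => by simp) (fun x t s => by simp) (fun c x t => by simp), fun x t => ?_⟩
  exact congrArg Subtype.val (E.apply_symm_apply (M x t))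

omit [IsAlgClosed L] in
/-- A stable subspace containing the last form is everything. -/
lemma cyclic_top {l fl : MvPolynomial (Fin n) L} (hl : l.IsHomogeneous 1) {J : Ideal (MvPolynomial (Fin n) L)} (hlreg : ∀ u, u * l ∈ J → u ∈ J)
    {d : ℕ} (A : Vd L n 1 →ₗ[L] Module.End L (piece J (d + 1)))
    (hAdef : ∀ (x : Vd L n 1) (t : piece J (d + 1)),
      (Ideal.Quotient.mkₐ L J).toLinearMap l * (A x t : MvPolynomial (Fin n) L ⧸ J) =
        (Ideal.Quotient.mkₐ L J).toLinearMap x * t)
    (hJ : IsHom J) (hfld : fl.IsHomogeneous (d + 1)) (hA : Artin (J ⊔ Ideal.span {fl}))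
    {h : piece J (d + 1)} (hh : (h : MvPolynomial (Fin n) L ⧸ J) =
      (Ideal.Quotient.mkₐ L J).toLinearMap fl)
    {Z : Submodule L (piece J (d + 1))} (hZ : h ∈ Z)
    (hstab : ∀ p ∈ LinearMap.range A, ∀ t ∈ Z, p t ∈ Z) : Z = ⊤ := by
  set π := (Ideal.Quotient.mkₐ L J).toLinearMap
  have hπmul : ∀ x y, π (x * y) = π x * π y := mk_mul J
  have hcancel := cancel_pow (L := L) hlreg
  refine Submodule.eq_top_iff'.2 fun t => ?_
  obtain ⟨g, hg, hgt⟩ := t.2
  obtain ⟨N, hN⟩ := hA
  have hgl : g * l ^ N ∈ J ⊔ Ideal.span {fl} :=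
    Ideal.mul_mem_left _ g (hN _ (by simpa using hl.pow N))
  obtain ⟨j, hj, c, hc⟩ := mem_sup_span hgl
  have hgl' : (g * l ^ N).IsHomogeneous (N + (d + 1)) := by
    simpa [add_comm] using IsHomogeneous.mul hg (hl.pow N)
  have hc1 := homogeneousComponent_eq_self hgl'
  rw [← hc, map_add, comp_mul hfld] at hc1
  rw [hc] at hc1
  have hkey : π l ^ N * (t : MvPolynomial (Fin n) L ⧸ J) =
      π (homogeneousComponent N c) * h := by
    have h1 := congrArg π hc1
    rw [map_add, mk_eq_zero.2 (hJ j hj _), zero_add, hπmul, hπmul,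
      show π (l ^ N) = π l ^ N from map_pow (Ideal.Quotient.mkₐ L J) l N] at h1
    rw [← hgt, hh, mul_comm]
    exact h1.symm
  have hreach : ∀ (k : ℕ) (s : Fin n →₀ ℕ), s.degree = k → ∀ (r : L) (z : piece J (d + 1)), z ∈ Z →
      ∃ z' ∈ Z, π l ^ k * (z' : MvPolynomial (Fin n) L ⧸ J) = π (monomial s r) * z := by
    intro k
    induction k with
    | zero =>
      intro s hs r z hz
      rw [Finsupp.degree_eq_zero_iff] at hs
      refine ⟨r • z, Z.smul_mem r hz, ?_⟩
      rw [hs, monomial_zero', show π (C r) = algebraMap L _ r from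
        (Ideal.Quotient.mkₐ L J).commutes r, ← Algebra.smul_def, pow_zero, one_mul]
      rfl
    | succ k ih =>
      intro s hs r z hz
      obtain ⟨i, hi⟩ : ∃ i, s i ≠ 0 := by
        by_contra h0
        push Not at h0
        rw [show s = 0 from Finsupp.ext h0, map_zero] at hs
        omega
      obtain ⟨s', rfl⟩ : ∃ s', s = Finsupp.single i 1 + s' :=
        ⟨s - Finsupp.single i 1, (add_tsub_cancel_of_le
          (Finsupp.single_le_iff.2 (Nat.one_le_iff_ne_zero.2 hi))).symm⟩
      rw [map_add, Finsupp.degree_single] at hs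
      obtain ⟨z', hz', he⟩ := ih s' (by omega) r z hz
      refine ⟨A ⟨X i, isHomogeneous_X L i⟩ z', hstab _ ⟨_, rfl⟩ _ hz', ?_⟩
      rw [show monomial (Finsupp.single i 1 + s') r = X i * monomial s' r by
        rw [X, monomial_mul, one_mul], hπmul, pow_succ, mul_assoc, hAdef, mul_left_comm, he,
        mul_assoc]
  obtain ⟨z', hz', he⟩ : ∃ z' ∈ Z, π l ^ N * (z' : MvPolynomial (Fin n) L ⧸ J) =
      π (homogeneousComponent N c) * h := by
    have hch := homogeneousComponent_isHomogeneous N c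
    have hall : ∀ v ∈ (homogeneousComponent N c).support, ∃ z' ∈ Z,
        π l ^ N * (z' : MvPolynomial (Fin n) L ⧸ J) =
          π (monomial v (coeff v (homogeneousComponent N c))) * h := fun v hv => by
      refine hreach N v ?_ _ h hZ
      have := hch (mem_support_iff.1 hv)
      rwa [Finsupp.degree_eq_weight_one]
    choose! w hw1 hw2 using hall
    refine ⟨∑ v ∈ (homogeneousComponent N c).support, w v, sum_mem hw1, ?_⟩
    conv_rhs => rw [← support_sum_monomial_coeff (homogeneousComponent N c), map_sum,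
      Finset.sum_mul]
    rw [Submodule.coe_sum, Finset.mul_sum]
    exact Finset.sum_congr rfl hw2
  rwa [show t = z' from Subtype.ext (hcancel N _ _ (hkey.trans he.symm))]

omit [IsAlgClosed L] in
/-- A stable subspace of multiples of `l` vanishes. -/
lemma stable_eq_bot {l : MvPolynomial (Fin n) L} (hl : l.IsHomogeneous 1) {J : Ideal (MvPolynomial (Fin n) L)} (hlreg : ∀ u, u * l ∈ J → u ∈ J)
    {d : ℕ} (A : Vd L n 1 →ₗ[L] Module.End L (piece J (d + 1)))
    (hAdef : ∀ (x : Vd L n 1) (t : piece J (d + 1)),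
      (Ideal.Quotient.mkₐ L J).toLinearMap l * (A x t : MvPolynomial (Fin n) L ⧸ J) =
        (Ideal.Quotient.mkₐ L J).toLinearMap x * t)
    (hJ : IsHom J) (hsoc : ∀ e, e ≠ d + 1 → ∀ w : MvPolynomial (Fin n) L, w.IsHomogeneous e →
      (∀ x : MvPolynomial (Fin n) L, x.IsHomogeneous 1 → x * w ∈ J ⊔ Ideal.span {l}) →
      w ∈ J ⊔ Ideal.span {l})
    {Z : Submodule L (piece J (d + 1))}
    (hZU : ∀ z ∈ Z, ∃ u : MvPolynomial (Fin n) L, u.IsHomogeneous d ∧
      (Ideal.Quotient.mkₐ L J).toLinearMap (u * l) = (z : MvPolynomial (Fin n) L ⧸ J))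
    (hstab : ∀ p ∈ LinearMap.range A, ∀ t ∈ Z, p t ∈ Z) : Z = ⊥ := by
  set π := (Ideal.Quotient.mkₐ L J).toLinearMap
  have hπmul : ∀ x y, π (x * y) = π x * π y := mk_mul J
  have hcancel := cancel_pow (L := L) hlreg
  have hdown : ∀ (e j : ℕ), e + j = d + 1 → 1 ≤ j →
      (∀ z ∈ Z, ∃ w : MvPolynomial (Fin n) L, w.IsHomogeneous e ∧
        ((z : piece J (d + 1)) : MvPolynomial (Fin n) L ⧸ J) = π l ^ j * π w) → Z = ⊥ := by
    intro e
    induction e using Nat.strong_induction_on with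
    | _ e ih =>
      intro j hej hj hw
      have hstep : ∀ z ∈ Z, ∃ y ∈ J, ∃ c, ∃ w : MvPolynomial (Fin n) L,
          w.IsHomogeneous e ∧ homogeneousComponent e (y + c * l) = w ∧
          ((z : piece J (d + 1)) : MvPolynomial (Fin n) L ⧸ J) = π l ^ j * π w := by
        intro z hz
        obtain ⟨w, hwh, hwz⟩ := hw z hz
        have hin : w ∈ J ⊔ Ideal.span {l} := by
          refine hsoc e (by omega) w hwh fun x hx => ?_
          obtain ⟨w', hw'h, hw'z⟩ := hw _ (hstab _ ⟨⟨x, hx⟩, rfl⟩ z hz)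
          have h1 := hAdef ⟨x, hx⟩ z
          rw [hw'z, hwz, mul_left_comm (π x), ← mul_assoc, mul_comm (π l) (π l ^ j),
            mul_assoc] at h1
          have h2 := hcancel j _ _ h1
          have h3 : x * w - l * w' ∈ J := by
            refine mk_eq_zero.1 ?_
            rw [map_sub, hπmul, hπmul]
            exact sub_eq_zero.2 h2.symm
          rw [← sub_add_cancel (x * w) (l * w')]
          exact add_mem (Ideal.mem_sup_left h3) (Ideal.mem_sup_right
            (Ideal.mul_mem_right _ _ (Ideal.mem_span_singleton_self l)))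
        obtain ⟨y, hy, c, hyc⟩ := mem_sup_span hin
        exact ⟨y, hy, c, w, hwh, by rw [hyc, homogeneousComponent_eq_self hwh], hwz⟩
      cases e with
      | zero =>
        refine (Submodule.eq_bot_iff Z).2 fun z hz => Subtype.ext ?_
        obtain ⟨y, hy, c, w, _, hc, hwz⟩ := hstep z hz
        rw [map_add, comp_mul_of_lt hl c one_pos, add_zero] at hc
        rw [hwz, ← hc, mk_eq_zero.2 (hJ y hy 0), mul_zero]
        rfl
      | succ e =>
        refine ih e (by omega) (j + 1) (by omega) (by omega) fun z hz => ?_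
        obtain ⟨y, hy, c, w, _, hc, hwz⟩ := hstep z hz
        rw [map_add, comp_mul hl] at hc
        refine ⟨homogeneousComponent e c, homogeneousComponent_isHomogeneous e c, ?_⟩
        rw [hwz, ← hc, map_add, mk_eq_zero.2 (hJ y hy _), zero_add, hπmul, pow_succ]
        ring
  refine hdown d 1 rfl le_rfl fun z hz => ?_
  obtain ⟨u, hu, hut⟩ := hZU z hz
  refine ⟨u, hu, ?_⟩
  rw [pow_one, ← hπmul, mul_comm]
  exact hut.symm

/-- In degree equal to the socle degree of the other forms the Hilbert function drops. -/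
theorem middle_growth {a : Fin (n + 1) → ℕ} (ha : Monotone a) (ha1 : ∀ i, 1 ≤ a i)
    {f : Fin (n + 1) → MvPolynomial (Fin (n + 1)) L} (hf : ∀ i, (f i).IsHomogeneous (a i))
    (hA : Artin (Ideal.span (Set.range f))) {I : Ideal (MvPolynomial (Fin (n + 1)) L)}
    (hfI : ∀ i, f i ∈ I) {d : ℕ} (hd : a (Fin.last n) = d + 1)
    (hsum : ∑ i : Fin n, (a i.castSucc - 1) = d + 1) :
    hilb I (d + 1) = 0 ∨ hilb I d = (Box.lvl a d).card ∨ hilb I (d + 1) + 1 ≤ hilb I d := by
  classical
  obtain ⟨l, hl, hl0, hP, hlreg, hfreg⟩ := exists_regular_reduction ha1 hf hA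
  obtain ⟨P⟩ := exists_cut hl hl0
  set a' : Fin n → ℕ := fun i => a i.castSucc
  set J := Ideal.span (Set.range (f ∘ Fin.castSucc)) with hJdef
  set fl := f (Fin.last n) with hfl
  have hJ : IsHom J := isHom_span fun g ⟨i, hi⟩ => ⟨a i.castSucc, hi ▸ hf _⟩
  have hJI : J ≤ I := Ideal.span_le.2 (by rintro _ ⟨i, rfl⟩; exact hfI _)
  have hmap : J.map P.phi = Ideal.span (Set.range fun i : Fin n => P.phi (f i.castSucc)) := by
    rw [hJdef, Ideal.map_span, ← Set.range_comp]
    rfl
  have hfbar := fun i : Fin n => isHomogeneous_map P.phi P.homog (hf i.castSucc)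
  have hM : ∀ e, hilb (J.map P.phi) e = (Box.lvl a' e).card := fun e => by
    rw [hmap]
    exact hilb_forms n a' (fun i => ha1 _) _ hfbar (hP P) e
  have hsplit : ∀ e, hilb J (e + 1) = (Box.lvl a' (e + 1)).card + hilb J e := fun e => by
    rw [hilb_split P hl hl0 hJ e, hM,
      le_antisymm (fun u hu => hlreg u (mem_colonBy.1 hu)) (le_colonBy J l)]
  have hlvl0 : (Box.lvl a' 0).card = 1 := by
    refine Finset.card_eq_one.2 ⟨0, ?_⟩
    ext x
    simp only [Box.mem_lvl, Finset.mem_singleton, Finset.sum_eq_zero_iff, Finset.mem_univ,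
      true_implies]
    exact ⟨fun h => funext h.1, fun h => h ▸ ⟨fun _ => rfl, fun i => ha1 _⟩⟩
  have htop : (Box.lvl a' (d + 1)).card = 1 := by
    refine Finset.card_eq_one.2 ⟨fun i => a' i - 1, ?_⟩
    ext x
    rw [Box.mem_lvl, Finset.mem_singleton]
    constructor
    · rintro ⟨h1, h2⟩
      have hle : ∀ i ∈ Finset.univ, x i ≤ a' i - 1 := fun i _ => by have := h2 i; omega
      exact funext fun i =>
        (Finset.sum_eq_sum_iff_of_le hle).1 (h1.trans hsum.symm) i (Finset.mem_univ i)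
    · rintro rfl
      exact ⟨hsum, fun i => show a' i - 1 < a' i by have : 1 ≤ a' i := ha1 _; omega⟩
  have hover : (Box.lvl a' (d + 2)).card = 0 := by
    rw [Finset.card_eq_zero, Finset.eq_empty_iff_forall_notMem]
    intro e he
    obtain ⟨h1, h2⟩ := Box.mem_lvl.1 he
    have : ∑ i, e i ≤ ∑ i, (a' i - 1) := Finset.sum_le_sum fun i _ => by have := h2 i; omega
    have : ∑ i, (a' i - 1) = d + 1 := hsum
    omega
  have hJs : Ideal.span (Set.range f) = J ⊔ Ideal.span {fl} := by
    rw [hJdef, ← Ideal.span_union]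
    refine congrArg Ideal.span ?_
    ext g
    constructor
    · rintro ⟨i, rfl⟩
      cases i using Fin.lastCases with
      | last => exact Or.inr rfl
      | cast i => exact Or.inl ⟨i, rfl⟩
    · rintro (⟨i, rfl⟩ | rfl) <;> exact ⟨_, rfl⟩
  have hJd : hilb J d = (Box.lvl a d).card := by
    rw [← hilb_forms (n + 1) a ha1 f hf hA d, hJs]
    exact ((hilb_add_form hJ (hf _) (hilb_forms.ne_zero_of_regular_last ha1 hf hfreg) hfreg).1 d
      (by omega)).symm
  set π := (Ideal.Quotient.mkₐ L J).toLinearMap with hπ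
  have hπmul : ∀ x y, π (x * y) = π x * π y := mk_mul J
  have hcancel := cancel_pow (L := L) hlreg
  set T := piece J (d + 1) with hT
  obtain ⟨A, hAdef⟩ := exists_ops hl hlreg (d := d) (by rw [hsplit (d + 1), hover, zero_add])
  have hAeq : ∀ (x : Vd L (n + 1) 1) (t s : T), π l * (s : MvPolynomial (Fin (n + 1)) L ⧸ J) = π x * t → A x t = s :=
    fun x t s h => Subtype.ext (hcancel 1 _ _ (by rw [pow_one, hAdef, h]))
  set Op := LinearMap.range A
  have hAl : A ⟨l, hl⟩ = 1 := LinearMap.ext fun t => hAeq _ _ _ rfl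
  have hone : (1 : Module.End L T) ∈ Op := ⟨_, hAl⟩
  have hcomm : ∀ p ∈ Op, ∀ q ∈ Op, p * q = q * p := by
    rintro _ ⟨x, rfl⟩ _ ⟨y, rfl⟩
    refine LinearMap.ext fun t => Subtype.ext (hcancel 2 _ _ ?_)
    simp only [Module.End.mul_apply]
    linear_combination (π l) * hAdef x (A y t) + (π x) * hAdef y t - (π l) * hAdef y (A x t) -
      (π y) * hAdef x t
  have hker : ∀ x, A x = 0 → (x : MvPolynomial (Fin (n + 1)) L) ∈ J := by
    intro x h0
    have h1 := hAdef x ⟨π (l ^ (d + 1)), ⟨l ^ (d + 1), by simpa using hl.pow (d + 1), rfl⟩⟩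
    rw [h0, LinearMap.zero_apply, ZeroMemClass.coe_zero, mul_zero] at h1
    have hp : π (l ^ (d + 1)) = π l ^ (d + 1) := map_pow (Ideal.Quotient.mkₐ L J) l (d + 1)
    refine mk_eq_zero.1 (hcancel (d + 1) _ 0 ?_)
    rw [mul_zero, ← hp, mul_comm, h1]
  have hOp : 3 ≤ Module.finrank L Op := by
    have h1 := LinearMap.finrank_range_add_finrank_ker (K := L) (V := Vd L (n + 1) 1)
      (V₂ := Module.End L (piece J (d + 1))) A
    have h2 : Module.finrank L (LinearMap.ker A) ≤ Module.finrank L (degPart J 1) :=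
      (Submodule.finrank_mono (fun x hx => (⟨x.2, hker x hx⟩ :
        (x : MvPolynomial (Fin (n + 1)) L) ∈ degPart J 1) :
        LinearMap.ker A ≤ (degPart J 1).comap (Vd L (n + 1) 1).subtype)).trans_eq
        (Submodule.comapSubtypeEquivOfLe (degPart_le J 1)).finrank_eq
    have h3 := finrank_degPart_add J 1
    have h4 : hilb J 0 = 1 := by rw [← hilb_map_zero P hJ, hM, hlvl0]
    have h5 : 2 ≤ (Box.lvl a' 1).card := by
      obtain ⟨i, -, hi⟩ : ∃ i ∈ (Finset.univ : Finset (Fin n)), a' i - 1 ≠ 0 :=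
        Finset.exists_ne_zero_of_sum_ne_zero (show ∑ i, (a' i - 1) ≠ 0 by
          rw [show ∑ i, (a' i - 1) = d + 1 from hsum]; omega)
      obtain ⟨j, hji, hj⟩ : ∃ j, j ≠ i ∧ a' j - 1 ≠ 0 := by
        by_contra hcon
        push Not at hcon
        have h6 : ∑ j, (a' j - 1) = a' i - 1 :=
          Finset.sum_eq_single i (fun j _ hj => hcon j hj) (by simp)
        have h7 : a' i ≤ d + 1 := hd ▸ ha (Fin.le_last _)
        have : ∑ j, (a' j - 1) = d + 1 := hsum
        omega
      have hmem : ∀ i, a' i - 1 ≠ 0 → Pi.single i 1 ∈ Box.lvl a' 1 := fun i hi =>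
        Box.mem_lvl.2 ⟨by simp, fun j => by
          have : 1 ≤ a' j := ha1 _
          by_cases h : j = i
          · subst h; simp; omega
          · simp [h]; omega⟩
      exact Finset.one_lt_card.2 ⟨_, hmem i hi, _, hmem j hj, fun h => by
        have := congrFun h i
        simp [hji] at this⟩
    have h7 := hsplit 0
    rw [zero_add] at h7
    change _ ≤ Module.finrank L (LinearMap.range A)
    omega
  have hbig : ∀ p ∈ Op, ∃ z ∈ Op, ∀ r s : L, z ≠ r • (1 : Module.End L T) + s • p := by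
    intro p _
    obtain ⟨z, hz, hz'⟩ := SetLike.not_le_iff_exists.1
      (show ¬ Op ≤ Submodule.span L {(1 : Module.End L T), p} from fun hle => by
        have hle' : Op ≤ Submodule.span L
            (({(1 : Module.End L T), p} : Finset (Module.End L T)) : Set (Module.End L T)) := by
          rwa [Finset.coe_pair]
        have h2 := hOp.trans ((Submodule.finrank_mono hle').trans
          ((finrank_span_finset_le_card _).trans Finset.card_le_two))
        omega)
    exact ⟨z, hz, fun r s h => hz' (h ▸ Submodule.mem_span_pair.2 ⟨r, s, rfl⟩)⟩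
  set U : Submodule L T := ((degPart I d).map (π ∘ₗ LinearMap.mulRight L l)).comap T.subtype
  set U' : Submodule L T := ((degPart I (d + 1)).map π).comap T.subtype
  have hfrU : Module.finrank L U + hilb I d = hilb J d := by
    have h1 := finrank_map_inf (π ∘ₗ LinearMap.mulRight L l) (degPart I d) (degPart J d) (by
      ext x
      constructor
      · rintro ⟨h1, h2⟩
        exact ⟨h1.1, hlreg x (mk_eq_zero.1 h2)⟩
      · rintro ⟨h1, h2⟩
        exact ⟨⟨h1, hJI h2⟩, mk_eq_zero.2 (J.mul_mem_right l h2)⟩)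
    have h2 : Module.finrank L U = Module.finrank L _ := (Submodule.comapSubtypeEquivOfLe
      (show (degPart I d).map (π ∘ₗ LinearMap.mulRight L l) ≤ T by
        rintro _ ⟨u, hu, rfl⟩; exact ⟨u * l, hu.1.mul hl, rfl⟩)).finrank_eq
    have h3 := finrank_degPart_add I d
    have h4 := finrank_degPart_add J d
    omega
  have hfrU' : Module.finrank L U' + hilb I (d + 1) = hilb J (d + 1) := by
    have h1 := finrank_map_inf π (degPart I (d + 1)) (degPart J (d + 1)) (by
      ext x
      constructor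
      · rintro ⟨h1, h2⟩
        exact ⟨h1.1, mk_eq_zero.1 h2⟩
      · rintro ⟨h1, h2⟩
        exact ⟨⟨h1, hJI h2⟩, mk_eq_zero.2 h2⟩)
    have h2 : Module.finrank L U' = Module.finrank L _ := (Submodule.comapSubtypeEquivOfLe
      (show (degPart I (d + 1)).map π ≤ T by
        rintro _ ⟨u, hu, rfl⟩; exact ⟨u, hu.1, rfl⟩)).finrank_eq
    have h3 := finrank_degPart_add I (d + 1)
    have h4 := finrank_degPart_add J (d + 1)
    omega
  by_contra hcon
  push Not at hcon
  obtain ⟨hI1, hId, hgrow⟩ := hcon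
  have hfrT : Module.finrank L T = hilb J (d + 1) := by rw [hT, finrank_piece]
  have hU0 : U ≠ ⊥ := fun h0 => by
    rw [h0, finrank_bot] at hfrU
    omega
  have hU' : U' ≠ ⊤ := fun h0 => by
    rw [h0, finrank_top] at hfrU'
    omega
  have hdim : Module.finrank L U' ≤ Module.finrank L U + 1 := by
    have e := hsplit d; rw [htop] at e; omega
  let h : T := ⟨π fl, fl, show fl.IsHomogeneous (d + 1) from hd ▸ hf _, rfl⟩
  refine operators_false Op hcomm hone hbig (h := h) ?_ hU0 hU' ?_ ⟨fl, ⟨hd ▸ hf _, hfI _⟩, rfl⟩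
    ?_ ?_ hdim
  · intro Z hZ hstab
    refine cyclic_top hl hlreg A hAdef hJ (hd ▸ hf _) ?_ (h := h) rfl hZ hstab
    rw [← hJs]
    exact hA
  · rintro ⟨_, _⟩ ⟨u, hu, rfl⟩
    exact ⟨u * l, ⟨hu.1.mul hl, I.mul_mem_right l hu.2⟩, rfl⟩
  · rintro _ ⟨x, rfl⟩ t ⟨u, hu, hut⟩
    have hxu : (x.1 * u).IsHomogeneous (d + 1) := by
      simpa [add_comm] using IsHomogeneous.mul x.2 hu.1
    rw [hAeq x t ⟨π (x.1 * u), x.1 * u, hxu, rfl⟩ ?_]
    · exact ⟨x.1 * u, ⟨hxu, I.mul_mem_left _ hu.2⟩, rfl⟩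
    · have e : π (u * l) = (t : MvPolynomial (Fin (n + 1)) L ⧸ J) := hut
      rw [← e]
      simp only [hπmul]
      ring
  · intro Z hZU hstab
    refine stable_eq_bot hl hlreg A hAdef hJ (fun e he w hw hx => ?_) (fun z hz => ?_) hstab
    · refine map_mem_map_cut P ?_
      rw [hmap]
      refine socle_forms n a' (fun i => ha1 _) _ hfbar (hP P) e _
        (isHomogeneous_map P.phi P.homog hw) (fun h => he (h.trans hsum)) fun k => ?_
      obtain ⟨x, hx1, hxX⟩ := P.sec 1 (X k) (isHomogeneous_X L k)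
      rw [← hxX, ← map_mul, ← hmap, mul_comm]
      exact map_cut_mem P (hx x hx1)
    · obtain ⟨u, hu, hut⟩ := hZU hz
      exact ⟨u, hu.1, hut⟩

end concrete

namespace Box

open Finset

/-- A part of the middle level whose shadow is only one bigger. -/
lemma exists_small_shadow {n d k : ℕ} {a : Fin (n + 1) → ℕ} (ha1 : ∀ i, 1 ≤ a i)
    (hd : a (Fin.last n) = d + 1) (hk : k + 1 ≤ (lvl a d).card) :
    ∃ A ⊆ lvl a (d + 1), A.card = k ∧ (sh a d A).card ≤ k + 1 := by
  classical
  set pre : (Fin (n + 1) → ℕ) → Fin n → ℕ := fun t i => t i.castSucc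
  have hinj : ∀ t ∈ lvl a d, ∀ t' ∈ lvl a d, pre t = pre t' → t = t' := by
    intro t ht t' ht' h
    have h1 := (mem_lvl.1 ht).1
    have h2 := (mem_lvl.1 ht').1
    rw [Fin.sum_univ_castSucc] at h1 h2
    have h3 : ∑ i : Fin n, t i.castSucc = ∑ i : Fin n, t' i.castSucc :=
      sum_congr rfl fun i _ => congrFun h i
    funext i
    cases i using Fin.lastCases with
    | last => omega
    | cast i => exact congrFun h i
  have hclosed : ∀ r, ∃ S ⊆ lvl a d, S.card = (lvl a d).card - r ∧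
      ∀ s ∈ S, ∀ t ∈ lvl a d, pre t ≤ pre s → t ∈ S := by
    intro r
    induction r with
    | zero => exact ⟨_, Subset.rfl, rfl, fun _ _ t ht _ => ht⟩
    | succ r ih =>
      obtain ⟨S, hS, hSc, hSd⟩ := ih
      by_cases h0 : S.Nonempty
      · obtain ⟨x, hx, hmax⟩ := S.exists_max_image (fun s => ∑ i, pre s i) h0
        refine ⟨S.erase x, (erase_subset _ _).trans hS, by rw [card_erase_of_mem hx, hSc]; omega,
          fun s hs t ht hts => mem_erase.2 ⟨?_, hSd s (mem_of_mem_erase hs) t ht hts⟩⟩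
        rintro rfl
        refine ne_of_mem_erase hs (hinj s (hS (mem_of_mem_erase hs)) t ht (funext fun i => ?_))
        exact ((sum_eq_sum_iff_of_le fun i _ => hts i).1
          (le_antisymm (sum_le_sum fun i _ => hts i) (hmax s (mem_of_mem_erase hs))) i
          (mem_univ i)).symm
      · rw [not_nonempty_iff_eq_empty] at h0
        exact ⟨S, hS, by rw [h0, card_empty] at hSc ⊢; omega, hSd⟩
  obtain ⟨S, hS, hSc, hSd⟩ := hclosed ((lvl a d).card - (k + 1))
  set t0 : Fin (n + 1) → ℕ := Pi.single (Fin.last n) d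
  have ht0 : t0 ∈ lvl a d := mem_lvl.2 ⟨by simp [t0], fun i => by
    cases i using Fin.lastCases with
    | last => simp [t0, hd]
    | cast i =>
      have := ha1 i.castSucc
      simp [t0, (Fin.castSucc_lt_last i).ne]
      omega⟩
  have hS0 : t0 ∈ S := by
    obtain ⟨s, hs⟩ := card_pos.1 (by omega : 0 < S.card)
    exact hSd s hs t0 ht0 fun i => by simp [pre, t0, (Fin.castSucc_lt_last i).ne]
  refine ⟨(S.erase t0).image fun t => up t (Fin.last n), ?_, ?_, ?_⟩
  · intro s hs
    obtain ⟨t, ht, rfl⟩ := mem_image.1 hs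
    obtain ⟨hne, htS⟩ := mem_erase.1 ht
    obtain ⟨h1, h2⟩ := mem_lvl.1 (hS htS)
    refine mem_lvl.2 ⟨by rw [sum_up, h1], fun i => ?_⟩
    cases i using Fin.lastCases with
    | cast i => rw [up_of_ne _ (Fin.castSucc_lt_last i).ne]; exact h2 _
    | last =>
      rw [up_self]
      by_contra hge
      refine hne (hinj t (hS htS) t0 ht0 (funext fun i => ?_))
      rw [Fin.sum_univ_castSucc] at h1
      have := single_le_sum (f := fun i : Fin n => t i.castSucc) (fun i _ => Nat.zero_le _)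
        (mem_univ i)
      simp only [pre, t0, Pi.single_eq_of_ne (Fin.castSucc_lt_last i).ne]
      omega
  · rw [card_image_of_injective _ fun s t h => _root_.funext fun i => ?_, card_erase_of_mem hS0, hSc]
    · omega
    · have := congrFun h i
      by_cases hi : i = Fin.last n
      · subst hi; rw [up_self, up_self] at this; omega
      · rwa [up_of_ne _ hi, up_of_ne _ hi] at this
  · refine (card_le_card fun t ht => ?_).trans (show S.card ≤ k + 1 by omega)
    obtain ⟨ht1, i, hti⟩ := mem_sh.1 ht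
    obtain ⟨s, hs, he⟩ := mem_image.1 hti
    refine hSd s (mem_of_mem_erase hs) t ht1 fun j => ?_
    have := congrFun he j.castSucc
    rw [up_of_ne _ (Fin.castSucc_lt_last j).ne] at this
    show t j.castSucc ≤ s j.castSucc
    rw [this]
    by_cases hj : j.castSucc = i
    · rw [hj, up_self]; omega
    · rw [up_of_ne _ hj]

end Box

end Vale.Agent.P200
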