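import Mathlib
import Vale.Agent.P200.BoxComplex
import Vale.Agent.P200.Linear
import Vale.Agent.P200.Segre
import Vale.Agent.P200.Linkage
import Vale.Agent.P200.Middle

/-!
The layer induction for a regular sequence with enough split forms.
-/

open MvPolynomial

namespace Vale.Agent.P200

variable {K : Type*} [Field K]

/-- `f` is a product of `a` linear forms. -/
def SplitForm {n : ℕ} (f : MvPolynomial (Fin n) K) (a : ℕ) : Prop :=
  ∃ M : Multiset (MvPolynomial (Fin n) K), Multiset.card M = a ∧
    (∀ l ∈ M, l.IsHomogeneous 1) ∧ M.prod = f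

/-- The degrees in `R` grow: each has at most one predecessor, or is at least the sum of the
predecessors lowered by one, or it and its predecessors are at most four twos. -/
def Grows {n : ℕ} (a : Fin n → ℕ) (R : Finset (Fin n)) : Prop :=
  ∀ i ∈ R, (R.filter fun j => j < i).card ≤ 1 ∨
    ∑ j ∈ R.filter (fun j => j < i), (a j - 1) ≤ a i ∨
    ((R.filter fun j => j ≤ i).card ≤ 4 ∧ ∀ j ∈ R, j ≤ i → a j = 2)

lemma Grows.pullback {m n : ℕ} {a : Fin n → ℕ} {R : Finset (Fin n)} (h : Grows a R)
    (g : Fin m → Fin n) (hg : StrictMono g) {a' : Fin m → ℕ} {R' : Finset (Fin m)}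
    (hR : ∀ i ∈ R', g i ∈ R ∧ a' i = a (g i)) : Grows a' R' := by
  classical
  intro i hi
  have hlt : (R'.filter fun j => j < i).image g ⊆ R.filter fun j => j < g i := fun x hx => by
    obtain ⟨j, hj, rfl⟩ := Finset.mem_image.1 hx
    obtain ⟨hj1, hj2⟩ := Finset.mem_filter.1 hj
    exact Finset.mem_filter.2 ⟨(hR j hj1).1, hg hj2⟩
  rcases h (g i) (hR i hi).1 with h1 | h1 | ⟨h1, h2⟩
  · left
    rw [← Finset.card_image_of_injective _ hg.injective]
    exact (Finset.card_le_card hlt).trans h1
  · right; left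
    rw [(hR i hi).2]
    refine le_trans ?_ h1
    calc ∑ j ∈ R'.filter (fun j => j < i), (a' j - 1)
        = ∑ j ∈ R'.filter (fun j => j < i), (a (g j) - 1) :=
          Finset.sum_congr rfl fun j hj => by rw [(hR j (Finset.mem_filter.1 hj).1).2]
      _ = ∑ x ∈ (R'.filter fun j => j < i).image g, (a x - 1) :=
          (Finset.sum_image hg.injective.injOn (f := fun x => a x - 1)).symm
      _ ≤ _ := Finset.sum_le_sum_of_subset hlt
  · right; right
    refine ⟨(Finset.card_le_card_of_injOn g (fun j hj => ?_) hg.injective.injOn).trans h1,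
      fun j hj hji => by rw [(hR j hj).2]; exact h2 _ (hR j hj).1 (hg.monotone hji)⟩
    obtain ⟨hj1, hj2⟩ := Finset.mem_filter.1 hj
    exact Finset.mem_filter.2 ⟨(hR j hj1).1, hg.monotone hj2⟩

/-- `I` contains forms of degrees `a` without a common zero; the degrees of those which are not
split grow. -/
def Good {n : ℕ} (a : Fin n → ℕ) (I : Ideal (MvPolynomial (Fin n) K)) : Prop :=
  ∃ f : Fin n → MvPolynomial (Fin n) K, (∀ i, (f i).IsHomogeneous (a i) ∧ f i ∈ I) ∧
    Artin (Ideal.span (Set.range f)) ∧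
    ∃ R : Finset (Fin n), (∀ i ∉ R, SplitForm (f i) (a i)) ∧ Grows a R

/-- A chosen substitution for a linear form. -/
noncomputable def theCut {n : ℕ} (l : MvPolynomial (Fin (n + 1)) K)
    (h : l.IsHomogeneous 1 ∧ l ≠ 0) : Cut l :=
  (exists_cut h.1 h.2).some

open scoped Classical in
/-- The Hilbert function of the image under the chosen substitution. -/
noncomputable def cutHilb {n : ℕ} (l : MvPolynomial (Fin (n + 1)) K)
    (I : Ideal (MvPolynomial (Fin (n + 1)) K)) (d : ℕ) : ℕ :=
  if h : l.IsHomogeneous 1 ∧ l ≠ 0 then hilb (I.map (theCut l h).phi) d else 0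

lemma cutHilb_eq {n : ℕ} {l : MvPolynomial (Fin (n + 1)) K} (h : l.IsHomogeneous 1 ∧ l ≠ 0)
    (I : Ideal (MvPolynomial (Fin (n + 1)) K)) (d : ℕ) :
    cutHilb l I d = hilb (I.map (theCut l h).phi) d := dif_pos h

lemma cutHilb_anti {n : ℕ} (l : MvPolynomial (Fin (n + 1)) K)
    {I J : Ideal (MvPolynomial (Fin (n + 1)) K)} (hIJ : I ≤ J) (d : ℕ) :
    cutHilb l J d ≤ cutHilb l I d := by
  by_cases h : l.IsHomogeneous 1 ∧ l ≠ 0
  · rw [cutHilb_eq h, cutHilb_eq h]
    exact hilb_anti (Ideal.map_mono hIJ) d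
  · simp [cutHilb, h]

open scoped Classical in
/-- The layers of `I` along the factors of a split element, greedily ordered. -/
lemma exists_stack {n : ℕ} (a : Fin n → ℕ) (ha : Monotone a) :
    ∀ (r : ℕ) (M : Multiset (MvPolynomial (Fin (n + 1)) K)), Multiset.card M = r →
      (∀ l ∈ M, l.IsHomogeneous 1 ∧ l ≠ 0) →
      ∀ (I : Ideal (MvPolynomial (Fin (n + 1)) K)), IsHom I → M.prod ∈ I →
      (∀ J, I ≤ J → IsHom J → ∀ l ∈ M, Box.Adm a (cutHilb l J)) →
      ∀ D, ∃ L : ℕ → Finset (Fin n → ℕ), (∀ v, Box.Seg a (D - v) (L v)) ∧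
        (∀ v, r ≤ v ∨ D < v → L v = ∅) ∧
        ∑ v ∈ Finset.range (D + 1), (L v).card = hilb I D ∧
        (∀ d, D = d + 1 → ∑ v ∈ Finset.range (d + 1),
          (Box.sh a (d - v) (L v) ∪ L (v + 1)).card ≤ hilb I d) ∧
        (M ≠ 0 → ∃ l ∈ M, (L 0).card ≤ cutHilb l I D) := by
  intro r
  induction r with
  | zero =>
    intro M hM _ I _ hprod _ D
    rw [Multiset.card_eq_zero] at hM
    subst hM
    have hI : I = ⊤ := by rw [Ideal.eq_top_iff_one]; simpa using hprod
    refine ⟨fun _ => ∅, fun v => ⟨Finset.empty_subset _, by simp⟩, fun _ _ => rfl, ?_,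
      fun d _ => by simp [Box.sh], fun h => absurd rfl h⟩
    rw [hI, hilb_top]
    simp
  | succ r ih =>
    intro M hM hlin I hI hprod hA D
    obtain ⟨l₀, hl₀⟩ := Multiset.card_pos_iff_exists_mem.1 (by omega : 0 < Multiset.card M)
    cases D with
    | zero =>
      obtain ⟨S, hS, hSc⟩ := Box.exists_seg a 0 (cutHilb l₀ I 0)
        ((hA I le_rfl hI l₀ hl₀).le_card 0)
      refine ⟨fun v => if v = 0 then S else ∅, fun v => ?_, fun v hv => ?_, ?_,
        fun d hd => by omega, fun _ => ⟨l₀, hl₀, ?_⟩⟩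
      · dsimp only
        split
        · rename_i h; subst h; exact hS
        · exact ⟨Finset.empty_subset _, by simp⟩
      · dsimp only
        rw [if_neg (by omega)]
      · simp only [zero_add, Finset.sum_range_one, if_pos]
        rw [hSc, cutHilb_eq (hlin l₀ hl₀), hilb_map_zero _ hI]
      · simp [hSc]
    | succ d =>
      obtain ⟨l, hlF, hmax⟩ := M.toFinset.exists_max_image (fun l => cutHilb l I d)
        ⟨l₀, Multiset.mem_toFinset.2 hl₀⟩
      rw [Multiset.mem_toFinset] at hlF
      have hl := hlin l hlF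
      obtain ⟨S, hS, hSc, hSs⟩ := (hA I le_rfl hI l hlF).seg ha d
      have hsub : ∀ x ∈ M.erase l, x ∈ M := fun x hx => Multiset.mem_of_mem_erase hx
      have hcol : (M.erase l).prod ∈ colonBy I l := by
        rw [mem_colonBy, mul_comm, Multiset.prod_erase hlF]
        exact hprod
      obtain ⟨L, hL, hL0, hLc, hLs, hLb⟩ := ih (M.erase l)
        (by rw [Multiset.card_erase_of_mem hlF, Nat.pred_eq_sub_one]; omega) (fun x hx => hlin x (hsub x hx))
        (colonBy I l) (isHom_colonBy hI hl.1) hcol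
        (fun J hJ hJh x hx => hA J ((le_colonBy I l).trans hJ) hJh x (hsub x hx)) d
      have hsplit : ∀ e, hilb I (e + 1) = cutHilb l I (e + 1) + hilb (colonBy I l) e := fun e => by
        rw [cutHilb_eq hl]; exact hilb_split _ hl.1 hl.2 hI e
      have hhead : (L 0).card ≤ cutHilb l I d := by
        by_cases h0 : M.erase l = 0
        · have : r = 0 := by
            have := congrArg Multiset.card h0
            rw [Multiset.card_erase_of_mem hlF, Multiset.card_zero, Nat.pred_eq_sub_one] at this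
            omega
          rw [hL0 0 (Or.inl (by omega))]
          simp
        · obtain ⟨x, hx, hxc⟩ := hLb h0
          exact hxc.trans ((cutHilb_anti x (le_colonBy I l) d).trans
            (hmax x (Multiset.mem_toFinset.2 (hsub x hx))))
      refine ⟨fun v => match v with | 0 => S | v + 1 => L v, fun v => ?_, fun v hv => ?_, ?_,
        fun e he => ?_, fun _ => ⟨l, hlF, hSc.le⟩⟩
      · cases v with
        | zero => exact hS
        | succ v => rw [Nat.add_sub_add_right]; exact hL v
      · cases v with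
        | zero => omega
        | succ v => exact hL0 v (by omega)
      · rw [Finset.sum_range_succ', hsplit, hLc, hSc, add_comm]
      · obtain rfl : e = d := by omega
        rw [Finset.sum_range_succ']
        have h0 : (Box.sh a e S ∪ L 0).card ≤ cutHilb l I e := by
          have h1 : Box.Seg a e (L 0) := by simpa using hL 0
          rcases hS.shadow.total h1 with h | h
          · rw [Finset.union_eq_right.2 h]; exact hhead
          · rw [Finset.union_eq_left.2 h]; exact hSs
        cases e with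
        | zero =>
          simp only [Finset.range_zero, Finset.sum_empty, zero_add, Nat.sub_zero]
          refine h0.trans_eq ?_
          rw [cutHilb_eq hl, hilb_map_zero _ hI]
        | succ e =>
          simp only [Nat.sub_zero, Nat.add_sub_add_right]
          rw [hsplit e, add_comm (cutHilb l I (e + 1))]
          exact Nat.add_le_add (hLs e rfl) h0

lemma good_mono {n : ℕ} {a : Fin n → ℕ} {I J : Ideal (MvPolynomial (Fin n) K)} (h : I ≤ J)
    (hI : Good a I) : Good a J := by
  obtain ⟨f, hf, rest⟩ := hI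
  exact ⟨f, fun i => ⟨(hf i).1, h (hf i).2⟩, rest⟩

lemma good_cut {n : ℕ} {a : Fin (n + 1) → ℕ} {I : Ideal (MvPolynomial (Fin (n + 1)) K)}
    {f : Fin (n + 1) → MvPolynomial (Fin (n + 1)) K}
    (hf : ∀ i, (f i).IsHomogeneous (a i) ∧ f i ∈ I) (hA : Artin (Ideal.span (Set.range f)))
    {R : Finset (Fin (n + 1))} (hR : ∀ i ∉ R, SplitForm (f i) (a i))
    (hRc : Grows a R)
    (p : Fin (n + 1)) {l : MvPolynomial (Fin (n + 1)) K} (P : Cut l) (hlp : l ∣ f p) :
    Good (a ∘ p.succAbove) (I.map P.phi) := by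
  classical
  obtain ⟨N, hN⟩ := hA
  refine ⟨fun i => P.phi (f (p.succAbove i)), fun i => ⟨isHomogeneous_map _ P.homog (hf _).1,
    Ideal.mem_map_of_mem _ (hf _).2⟩, ⟨N, fun y hy => ?_⟩, Finset.univ.filter fun i =>
      p.succAbove i ∈ R, fun i hi => ?_, ?_⟩
  · obtain ⟨g, hg, rfl⟩ := P.sec N y hy
    have h1 := Ideal.mem_map_of_mem P.phi (hN g hg)
    rw [Ideal.map_span] at h1
    refine Ideal.span_le.2 ?_ h1
    rintro _ ⟨_, ⟨i, rfl⟩, rfl⟩
    rcases Fin.eq_self_or_eq_succAbove p i with rfl | ⟨i, rfl⟩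
    · rw [(P.ker _).2 hlp]; exact Submodule.zero_mem _
    · exact Ideal.subset_span ⟨i, rfl⟩
  · obtain ⟨M, hMc, hMl, hMp⟩ := hR (p.succAbove i) (by simpa using hi)
    refine ⟨M.map P.phi, by simpa using hMc, fun x hx => ?_, ?_⟩
    · obtain ⟨y, hy, rfl⟩ := Multiset.mem_map.1 hx
      exact isHomogeneous_map _ P.homog (hMl y hy)
    · show _ = P.phi (f (p.succAbove i))
      rw [← hMp, map_multiset_prod]
  · exact hRc.pullback _ (Fin.strictMono_succAbove p) fun i hi => ⟨(Finset.mem_filter.1 hi).2, rfl⟩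

lemma ne_zero_of_artin {n : ℕ} {a : Fin (n + 1) → ℕ} (ha1 : ∀ i, 1 ≤ a i)
    {f : Fin (n + 1) → MvPolynomial (Fin (n + 1)) K} (hf : ∀ i, (f i).IsHomogeneous (a i))
    (hA : Artin (Ideal.span (Set.range f))) (p : Fin (n + 1)) : f p ≠ 0 := by
  classical
  intro h0
  obtain ⟨N, hN⟩ := hA
  have h := le_card_of_artin ((Finset.univ.erase p).image f)
    (fun x hx => by
      obtain ⟨i, _, rfl⟩ := Finset.mem_image.1 hx
      exact ⟨a i, ha1 i, hf i⟩)
    ⟨N, fun g hg => Ideal.span_le.2 (by
      rintro _ ⟨i, rfl⟩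
      by_cases hi : i = p
      · rw [hi, h0]; exact Submodule.zero_mem _
      · exact Ideal.subset_span (by simp only [Finset.coe_image, Set.mem_image]; exact ⟨i, by simp [hi], rfl⟩)) (hN g hg)⟩
  have := h.trans Finset.card_image_le
  simp at this

lemma splitForm_of_binary [IsAlgClosed K] {N : ℕ} (hN : N ≤ 1) :
    ∀ (a : ℕ) (f : MvPolynomial (Fin (N + 1)) K), 1 ≤ a → f.IsHomogeneous a → SplitForm f a := by
  intro a
  induction a with
  | zero => intro f h; omega
  | succ b ih =>
    intro f _ hf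
    obtain ⟨l, hl, _, e, he⟩ := exists_linear_factor hN (by omega) hf
    rcases Nat.eq_zero_or_pos b with rfl | hb
    · exact ⟨{f}, by simp, by simpa using hf, by simp⟩
    have he' : f = homogeneousComponent b e * l := by
      rw [← comp_mul hl, mul_comm e l, ← he, homogeneousComponent_eq_self hf]
    obtain ⟨M, hMc, hMl, hMp⟩ := ih _ hb (homogeneousComponent_isHomogeneous b e)
    refine ⟨l ::ₘ M, by simp [hMc], fun x hx => ?_, ?_⟩
    · rcases Multiset.mem_cons.1 hx with rfl | hx
      · exact hl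
      · exact hMl x hx
    · rw [Multiset.prod_cons, hMp, mul_comm, ← he']

/-- The statement of the induction in `n` variables. -/
def AdmHolds (K : Type*) [Field K] (n : ℕ) : Prop :=
  ∀ a : Fin n → ℕ, Monotone a → (∀ i, 1 ≤ a i) →
    ∀ I : Ideal (MvPolynomial (Fin n) K), IsHom I → Good a I → Box.Adm a (hilb I)

/-- The growth condition from one split form and the induction hypothesis. -/
lemma adm_of_pivot [IsAlgClosed K] {n : ℕ} (ih : AdmHolds K n) {a : Fin (n + 1) → ℕ}
    (ha : Monotone a) (ha1 : ∀ i, 1 ≤ a i) {I : Ideal (MvPolynomial (Fin (n + 1)) K)}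
    (hI : IsHom I) {f : Fin (n + 1) → MvPolynomial (Fin (n + 1)) K}
    (hf : ∀ i, (f i).IsHomogeneous (a i) ∧ f i ∈ I) (hA : Artin (Ideal.span (Set.range f)))
    {R : Finset (Fin (n + 1))} (hR : ∀ i ∉ R, SplitForm (f i) (a i)) (hRc : Grows a R)
    (p : Fin (n + 1)) (hp : SplitForm (f p) (a p)) : Box.Adm a (hilb I) := by
  obtain ⟨M, hMc, hMl', hMp⟩ := hp
  have hMl : ∀ l ∈ M, l.IsHomogeneous 1 ∧ l ≠ 0 := fun l hl => ⟨hMl' l hl, fun h0 => by
    refine ne_zero_of_artin ha1 (fun i => (hf i).1) hA p ?_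
    rw [← hMp, Multiset.prod_eq_zero (h0 ▸ hl)]⟩
  have hma : Monotone (a ∘ p.succAbove) := ha.comp (Fin.strictMono_succAbove p).monotone
  have hadm : ∀ J, I ≤ J → IsHom J → ∀ l ∈ M,
      Box.Adm (a ∘ p.succAbove) (cutHilb l J) := by
    intro J hJ hJh l hl
    rw [show cutHilb l J = hilb (J.map (theCut l (hMl l hl)).phi) from
      funext (cutHilb_eq (hMl l hl) J)]
    refine ih _ hma (fun i => ha1 _) _ (isHom_map _ (theCut l _).homog (theCut l _).surj hJh) ?_
    exact good_mono (Ideal.map_mono hJ)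
      (good_cut hf hA hR hRc p _ (hMp ▸ Multiset.dvd_prod hl))
  refine ⟨?_, fun d => ?_⟩
  · refine ((Nat.sub_le _ _).trans (finrank_Vd_zero K (n + 1)).le).trans ?_
    refine Finset.card_pos.2 ⟨fun _ => 0, Box.mem_lvl.2 ⟨by simp, fun i => ha1 i⟩⟩
  · obtain ⟨L, hL, hL0, hLc, hLs, _⟩ := exists_stack (a ∘ p.succAbove) hma (a p) M hMc hMl I hI
      (hMp ▸ (hf p).2) hadm (d + 1)
    exact Box.glue a p L (fun v => (hL v).1) hL0 hLc (hLs d rfl)

/-- Forms of degree `N` do not change the Hilbert function below `N`. -/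
lemma hilb_sup_high {n N : ℕ} {I : Ideal (MvPolynomial (Fin n) K)} (hI : IsHom I)
    {T : Set (MvPolynomial (Fin n) K)} (hT : ∀ x ∈ T, x.IsHomogeneous N) {d : ℕ} (hd : d < N) :
    hilb (I ⊔ Ideal.span T) d = hilb I d := by
  have : degPart (I ⊔ Ideal.span T) d = degPart I d := by
    refine le_antisymm (fun x hx => ?_) (inf_le_inf_left _ fun x hx => Ideal.mem_sup_left hx)
    obtain ⟨hx1, hx2⟩ := mem_degPart.1 hx
    obtain ⟨y, hy, z, hz, rfl⟩ := Submodule.mem_sup.1 hx2
    refine ⟨hx1, ?_⟩
    show y + z ∈ I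
    obtain ⟨k, w, v, rfl⟩ := Submodule.mem_span_set'.1 hz
    rw [← homogeneousComponent_eq_self hx1, map_add, map_sum,
      Finset.sum_eq_zero fun i _ => by rw [smul_eq_mul]; exact comp_mul_of_lt (hT _ (v i).2) _ hd,
      add_zero]
    exact hI y hy d
  unfold hilb
  rw [this]

lemma isHom_sup_span {n N : ℕ} {I : Ideal (MvPolynomial (Fin n) K)} (hI : IsHom I)
    {T : Set (MvPolynomial (Fin n) K)} (hT : ∀ x ∈ T, x.IsHomogeneous N) :
    IsHom (I ⊔ Ideal.span T) := by
  intro x hx d
  obtain ⟨y, hy, z, hz, rfl⟩ := Submodule.mem_sup.1 hx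
  rw [map_add]
  exact Submodule.add_mem_sup (hI y hy d) (isHom_span (fun x hx => ⟨N, hT x hx⟩) z hz d)

/-- Below the last degree the last form may be replaced by a power of a linear form. -/
lemma step_low [IsAlgClosed K] {n : ℕ} (ih : AdmHolds K n) {a : Fin (n + 1) → ℕ}
    (ha : Monotone a) (ha1 : ∀ i, 1 ≤ a i) {I : Ideal (MvPolynomial (Fin (n + 1)) K)}
    (hI : IsHom I) {f : Fin (n + 1) → MvPolynomial (Fin (n + 1)) K}
    (hf : ∀ i, (f i).IsHomogeneous (a i) ∧ f i ∈ I) (hA : Artin (Ideal.span (Set.range f)))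
    {R : Finset (Fin (n + 1))} (hR : ∀ i ∉ R, SplitForm (f i) (a i)) (hRc : Grows a R)
    {d : ℕ} (hd : d + 1 < a (Fin.last n)) :
    ∃ A ⊆ Box.lvl a (d + 1), A.card = hilb I (d + 1) ∧ (Box.sh a d A).card ≤ hilb I d := by
  classical
  obtain ⟨l, hl, hl0, hlA, -⟩ := exists_reduction ha1 (fun i => (hf i).1) hA
  set p := Fin.last n
  set N := a p + d + 2
  set a' := Function.update a p N with ha'
  have hlN : (l ^ N).IsHomogeneous N := by simpa using hl.pow N
  set I' := I ⊔ Ideal.span {l ^ N}
  have hI' : IsHom I' := isHom_sup_span hI fun x hx => by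
    rw [Set.mem_singleton_iff.1 hx]; exact hlN
  have hf' : ∀ i, (Function.update f p (l ^ N) i).IsHomogeneous (a' i) ∧
      Function.update f p (l ^ N) i ∈ I' := by
    intro i
    by_cases hi : i = p
    · subst hi
      rw [ha', Function.update_self, Function.update_self]
      exact ⟨hlN, Ideal.mem_sup_right (Ideal.mem_span_singleton_self _)⟩
    · rw [ha', Function.update_of_ne hi, Function.update_of_ne hi]
      exact ⟨(hf i).1, Ideal.mem_sup_left (hf i).2⟩
  have hA' : Artin (Ideal.span (Set.range (Function.update f p (l ^ N)))) := by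
    refine artin_of_zeros fun z hz => funext fun v => ?_
    have hle : Ideal.span (Set.range (f ∘ Fin.castSucc)) ⊔ Ideal.span {l} ≤
        RingHom.ker (eval z) := by
      refine sup_le (Ideal.span_le.2 ?_) (Ideal.span_le.2 ?_)
      · rintro _ ⟨i, rfl⟩
        exact hz _ (Ideal.subset_span
          ⟨i.castSucc, Function.update_of_ne (Fin.castSucc_lt_last i).ne _ _⟩)
      · rintro _ rfl
        have h1 := hz _ (Ideal.subset_span ⟨p, Function.update_self _ _ _⟩)
        rw [map_pow] at h1
        exact eq_zero_of_pow_eq_zero h1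
    obtain ⟨T, hT⟩ := hlA
    have h1 : eval z (X v ^ T) = 0 := hle (hT _ (by simpa using (isHomogeneous_X K v).pow T))
    rw [map_pow, eval_X] at h1
    exact eq_zero_of_pow_eq_zero h1
  have hR' : ∀ i ∉ R.erase p, SplitForm (Function.update f p (l ^ N) i) (a' i) := by
    intro i hi
    by_cases hip : i = p
    · subst hip
      rw [ha', Function.update_self, Function.update_self]
      exact ⟨Multiset.replicate N l, by simp,
        fun x hx => (Multiset.eq_of_mem_replicate hx) ▸ hl, by simp⟩
    · rw [ha', Function.update_of_ne hip, Function.update_of_ne hip]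
      exact hR i fun h => hi (Finset.mem_erase.2 ⟨hip, h⟩)
  have hRc' : Grows a' (R.erase p) := hRc.pullback id strictMono_id fun i hi =>
    ⟨(Finset.mem_erase.1 hi).2, by rw [ha', Function.update_of_ne (Finset.mem_erase.1 hi).1, id]⟩
  have hma : Monotone a' := by
    intro i j hij
    simp only [ha', Function.update_apply]
    split <;> split
    · exact le_rfl
    · rename_i h h'; exact absurd (le_antisymm (Fin.le_last j) (by rw [h] at hij; exact hij)) h'
    · exact (ha (Fin.le_last i)).trans (show a p ≤ a p + d + 2 by omega)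
    · exact ha hij
  have ha1' : ∀ i, 1 ≤ a' i := fun i => by
    simp only [ha', Function.update_apply]
    split
    · omega
    · exact ha1 i
  have hadm := adm_of_pivot ih hma ha1' hI' hf' hA' hR' hRc' p (hR' p (by simp))
  obtain ⟨A, hA1, hA2, hA3⟩ := hadm.2 d
  have hlvl : ∀ e, e < a p → Box.lvl a' e = Box.lvl a e := fun e he => by
    ext x
    simp only [Box.mem_lvl, and_congr_right_iff]
    intro hx
    have hxp : x p ≤ e := hx ▸ Finset.single_le_sum (fun i _ => Nat.zero_le (x i))
      (Finset.mem_univ p)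
    refine forall_congr' fun i => ?_
    by_cases hi : i = p
    · subst hi
      rw [ha', Function.update_self]
      constructor <;> intro <;> omega
    · rw [ha', Function.update_of_ne hi]
  have hsh : Box.sh a d A = Box.sh a' d A := by
    unfold Box.sh
    rw [hlvl d (by omega)]
  have hh : ∀ e, e < N → hilb I' e = hilb I e := fun e he =>
    hilb_sup_high hI (fun x hx => by rw [Set.mem_singleton_iff.1 hx]; exact hlN) he
  refine ⟨A, by rwa [← hlvl (d + 1) hd], by rw [hA2, hh _ (by omega)], ?_⟩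
  rw [hsh, ← hh d (by omega)]
  exact hA3

/-- The growth condition when the last degree is at least the socle degree of the others: below it
the last form is invisible, above it linkage reflects the degrees, in between operators decide. -/
lemma adm_of_big_last [IsAlgClosed K] {n : ℕ} (ih : AdmHolds K n) {a : Fin (n + 1) → ℕ}
    (ha : Monotone a) (ha1 : ∀ i, 1 ≤ a i) {I : Ideal (MvPolynomial (Fin (n + 1)) K)}
    (hI : IsHom I) {f : Fin (n + 1) → MvPolynomial (Fin (n + 1)) K}
    (hf : ∀ i, (f i).IsHomogeneous (a i) ∧ f i ∈ I) (hA : Artin (Ideal.span (Set.range f)))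
    {R : Finset (Fin (n + 1))} (hR : ∀ i ∉ R, SplitForm (f i) (a i)) (hRc : Grows a R)
    (hbig : ∑ i : Fin n, (a i.castSucc - 1) ≤ a (Fin.last n)) : Box.Adm a (hilb I) := by
  classical
  refine ⟨?_, fun d => ?_⟩
  · refine ((Nat.sub_le _ _).trans (finrank_Vd_zero K (n + 1)).le).trans ?_
    exact Finset.card_pos.2 ⟨fun _ => 0, Box.mem_lvl.2 ⟨by simp, fun i => ha1 i⟩⟩
  by_cases hd : d + 1 < a (Fin.last n)
  · exact step_low ih ha ha1 hI hf hA hR hRc hd
  by_cases hmid : a (Fin.last n) = d + 1 ∧ ∑ i : Fin n, (a i.castSucc - 1) = d + 1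
  · have hle : ∀ e, hilb I e ≤ (Box.lvl a e).card := fun e =>
      (hilb_anti (Ideal.span_le.2 (by rintro _ ⟨i, rfl⟩; exact (hf i).2)) e).trans_eq
        (hilb_forms (n + 1) a ha1 f (fun i => (hf i).1) hA e)
    rcases middle_growth ha ha1 (fun i => (hf i).1) hA (fun i => (hf i).2) hmid.1 hmid.2
      with h | h | h
    · exact ⟨∅, Finset.empty_subset _, by simp [h], by simp [Box.sh]⟩
    · obtain ⟨A, hA1, hA2⟩ := Finset.exists_subset_card_eq (hle (d + 1))
      exact ⟨A, hA1, hA2, (Finset.card_le_card (Finset.filter_subset _ _)).trans_eq h.symm⟩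
    · obtain ⟨A, hA1, hA2, hA3⟩ :=
        Box.exists_small_shadow ha1 hmid.1 (k := hilb I (d + 1)) (h.trans (hle d))
      exact ⟨A, hA1, hA2, hA3.trans h⟩
  set F := Ideal.span (Set.range f)
  have hf1 : ∀ i, (f i).IsHomogeneous (a i) := fun i => (hf i).1
  have hFI : F ≤ I := Ideal.span_le.2 (by rintro _ ⟨i, rfl⟩; exact (hf i).2)
  by_cases hs : ∑ i, (a i - 1) < d + 1
  · refine ⟨∅, Finset.empty_subset _, ?_, by simp [Box.sh]⟩
    have h0 : hilb F (d + 1) = 0 := by
      rw [hilb_forms (n + 1) a ha1 f hf1 hA, Finset.card_eq_zero,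
        Finset.eq_empty_iff_forall_notMem]
      intro e he
      obtain ⟨h1, h2⟩ := Box.mem_lvl.1 he
      have : ∑ i, e i ≤ ∑ i, (a i - 1) := Finset.sum_le_sum fun i _ => by have := h2 i; omega
      omega
    have := hilb_anti hFI (d + 1)
    simp only [Finset.card_empty]
    omega
  obtain ⟨k, hk⟩ : ∃ k, d + 1 + k = ∑ i, (a i - 1) := ⟨_, Nat.add_sub_cancel' (not_lt.1 hs)⟩
  have hFhom : IsHom F := isHom_span fun g ⟨i, hi⟩ => ⟨a i, hi ▸ hf1 i⟩
  have hk' : k + 1 < a (Fin.last n) := by
    rw [Fin.sum_univ_castSucc] at hk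
    omega
  obtain ⟨A, hA1, hA2, hA3⟩ := step_low ih ha ha1 (isHom_linkBy hFhom hI)
    (fun i => ⟨hf1 i, mem_linkBy.2 fun y _ =>
      F.mul_mem_right y (Ideal.subset_span ⟨i, rfl⟩)⟩) hA hR hRc hk'
  have e1 : hilb (linkBy F I) (k + 1) + hilb I d = (Box.lvl a d).card :=
    hilb_linkBy ha1 hf1 hA hI hFI (d := k + 1) (e := d) (by omega)
  have e2 : hilb (linkBy F I) k + hilb I (d + 1) = (Box.lvl a (d + 1)).card :=
    hilb_linkBy ha1 hf1 hA hI hFI (d := k) (e := d + 1) (by omega)
  exact Box.step_flip ha1 hk hA1 (by rw [hA2]; exact e1) (by omega)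

/-- The growth condition over an algebraically closed field. -/
theorem adm_of_good [IsAlgClosed K] : ∀ n : ℕ, AdmHolds K n := by
  classical
  intro n
  induction n with
  | zero =>
    intro a _ _ I _ _
    refine ⟨?_, fun d => ⟨∅, Finset.empty_subset _, ?_, by simp [Box.sh]⟩⟩
    · refine ((Nat.sub_le _ _).trans (finrank_Vd_zero K 0).le).trans ?_
      exact Finset.card_pos.2 ⟨fun i => i.elim0, Box.mem_lvl.2 ⟨by simp, fun i => i.elim0⟩⟩
    · have : hilb I (d + 1) = 0 :=
        Nat.eq_zero_of_le_zero ((Nat.sub_le _ _).trans (finrank_Vd_zero_succ K d).le)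
      simp [this]
  | succ n ih =>
    intro a ha ha1 I hI hG
    obtain ⟨f, hf, hA, R, hR, hRc⟩ := hG
    by_cases hex : ∃ i, i ∉ R
    · obtain ⟨p, hp⟩ := hex
      exact adm_of_pivot ih ha ha1 hI hf hA hR hRc p (hR p hp)
    push Not at hex
    have hlt : R.filter (fun j => j < Fin.last n) = Finset.univ.image Fin.castSucc := by
      ext j
      simp only [Finset.mem_filter, hex, true_and, Finset.mem_image, Finset.mem_univ]
      exact ⟨fun h => ⟨⟨j.val, h⟩, rfl⟩, fun ⟨i, hi⟩ => hi ▸ Fin.castSucc_lt_last i⟩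
    rcases hRc (Fin.last n) (hex _) with h | h | ⟨h4, hq⟩
    · rw [hlt, Finset.card_image_of_injective _ (Fin.castSucc_injective n), Finset.card_univ,
        Fintype.card_fin] at h
      exact adm_of_pivot ih ha ha1 hI hf hA hR hRc 0
        (splitForm_of_binary h _ _ (ha1 0) (hf 0).1)
    · rw [hlt, Finset.sum_image (Fin.castSucc_injective n).injOn] at h
      exact adm_of_big_last ih ha ha1 hI hf hA hR hRc h
    have huniv : R = Finset.univ := Finset.eq_univ_iff_forall.2 hex
    have hq' : ∀ i, a i = 2 := fun i => hq i (hex i) (Fin.le_last i)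
    rw [huniv, Finset.filter_true_of_mem fun j _ => Fin.le_last j, Finset.card_univ,
      Fintype.card_fin] at h4
    obtain ⟨l, m, hl, hm, hl0, hm0, hlm⟩ := exists_split (Finset.univ.image f)
      (Finset.card_image_le.trans (by simpa using h4))
      (fun x hx => by
        obtain ⟨i, _, rfl⟩ := Finset.mem_image.1 hx
        exact hq' i ▸ (hf i).1)
      (by simpa [Finset.coe_image] using hA)
    rw [Finset.coe_image, Finset.coe_univ, Set.image_univ] at hlm
    obtain ⟨c, hc⟩ := (Submodule.mem_span_range_iff_exists_fun K).1 hlm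
    obtain ⟨p, hp⟩ : ∃ p, c p ≠ 0 := by
      by_contra hcon
      push Not at hcon
      exact mul_ne_zero hl0 hm0 (by rw [← hc]; simp [hcon])
    have hgI : l * m ∈ I := by
      rw [← hc]
      exact sum_mem fun i _ => Submodule.smul_of_tower_mem _ _ (hf i).2
    have hf' : ∀ i, (Function.update f p (l * m) i).IsHomogeneous (a i) ∧
        Function.update f p (l * m) i ∈ I := fun i => by
      by_cases hi : i = p
      · subst hi
        rw [Function.update_self, hq' i]
        exact ⟨hl.mul hm, hgI⟩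
      · rw [Function.update_of_ne hi]; exact hf i
    have hA' : Artin (Ideal.span (Set.range (Function.update f p (l * m)))) := by
      obtain ⟨N, hN⟩ := hA
      refine ⟨N, fun g hg => Ideal.span_le.2 ?_ (hN g hg)⟩
      rintro _ ⟨i, rfl⟩
      by_cases hi : i = p
      · subst hi
        have hother : ∀ j ∈ Finset.univ.erase i, c j • f j ∈
            Ideal.span (Set.range (Function.update f i (l * m))) := fun j hj =>
          Submodule.smul_of_tower_mem _ _ (Ideal.subset_span
            ⟨j, Function.update_of_ne (Finset.ne_of_mem_erase hj) _ _⟩)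
        have h1 : c i • f i ∈ Ideal.span (Set.range (Function.update f i (l * m))) := by
          rw [eq_sub_of_add_eq ((Finset.add_sum_erase _ (fun j => c j • f j)
            (Finset.mem_univ i)).trans hc)]
          exact sub_mem (Ideal.subset_span ⟨i, Function.update_self _ _ _⟩) (sum_mem hother)
        have h2 := Submodule.smul_of_tower_mem _ (c i)⁻¹ h1
        rwa [smul_smul, inv_mul_cancel₀ hp, one_smul] at h2
      · exact Ideal.subset_span ⟨i, Function.update_of_ne hi _ _⟩
    refine adm_of_pivot ih ha ha1 hI hf' hA' (fun i hi => absurd (hex i) hi) hRc p ?_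
    rw [Function.update_self]
    refine ⟨{l, m}, by simp [hq' p], fun x hx => ?_, by simp⟩
    rcases Multiset.mem_cons.1 hx with rfl | hx
    · exact hl
    · rw [Multiset.mem_singleton.1 hx]; exact hm

end Vale.Agent.P200
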