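import Mathlib
import Vale.Agent.P200.Layers

/-!
Invariance of the Hilbert function under field extension.
-/

open MvPolynomial

namespace Vale.Agent.P200

variable {K L : Type*} [Field K] [Field L] [Algebra K L] {n : ℕ}

/-- Extension of coefficients. -/
noncomputable abbrev ext (K L : Type*) [Field K] [Field L] [Algebra K L] (n : ℕ) :
    MvPolynomial (Fin n) K →+* MvPolynomial (Fin n) L :=
  MvPolynomial.map (algebraMap K L)

lemma finrank_Vd_eq (K L : Type*) [Field K] [Field L] : ∀ (n d : ℕ),
    Module.finrank K (Vd K n d) = Module.finrank L (Vd L n d)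
  | 0, 0 => by rw [finrank_Vd_zero, finrank_Vd_zero]
  | 0, d + 1 => by rw [finrank_Vd_zero_succ, finrank_Vd_zero_succ]
  | n + 1, 0 => by rw [finrank_Vd_zero, finrank_Vd_zero]
  | n + 1, d + 1 => by
    rw [finrank_Vd_succ', finrank_Vd_succ', finrank_Vd_eq K L n (d + 1),
      finrank_Vd_eq K L (n + 1) d]

lemma isHomogeneous_ext {f : MvPolynomial (Fin n) K} {d : ℕ} (hf : f.IsHomogeneous d) :
    (ext K L n f).IsHomogeneous d := by
  intro s hs
  exact hf (fun h => hs (by rw [coeff_map, h, map_zero]))

lemma comp_ext (f : MvPolynomial (Fin n) K) (d : ℕ) :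
    homogeneousComponent d (ext K L n f) = ext K L n (homogeneousComponent d f) := by
  classical
  ext s
  simp [coeff_homogeneousComponent, coeff_map, apply_ite (algebraMap K L)]

/-- The `L`-span of the image of a space of forms. -/
noncomputable def extSpan (L : Type*) [Field L] [Algebra K L]
    (W : Submodule K (MvPolynomial (Fin n) K)) : Submodule L (MvPolynomial (Fin n) L) :=
  Submodule.span L (ext K L n '' (W : Set (MvPolynomial (Fin n) K)))

lemma ext_smul (c : K) (f : MvPolynomial (Fin n) K) :
    ext K L n (c • f) = algebraMap K L c • ext K L n f := by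
  rw [smul_eq_C_mul, smul_eq_C_mul, map_mul, map_C]

lemma finrank_extSpan_le (W : Submodule K (MvPolynomial (Fin n) K)) [Module.Finite K W] :
    Module.finrank L (extSpan L W) ≤ Module.finrank K W := by
  classical
  let b := Module.finBasis K W
  let s : Finset (MvPolynomial (Fin n) L) :=
    Finset.univ.image fun i => ext K L n (b i : MvPolynomial (Fin n) K)
  have hle : extSpan L W ≤ Submodule.span L (s : Set (MvPolynomial (Fin n) L)) := by
    rw [extSpan, Submodule.span_le]
    rintro _ ⟨x, hx, rfl⟩
    have hxe := congrArg (fun w : W => (w : MvPolynomial (Fin n) K)) (b.sum_repr ⟨x, hx⟩)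
    simp only [AddSubmonoidClass.coe_finsetSum, SetLike.val_smul] at hxe
    rw [SetLike.mem_coe, ← hxe, map_sum]
    refine sum_mem fun i _ => ?_
    rw [ext_smul]
    exact Submodule.smul_mem _ _ (Submodule.subset_span (by simp [s]))
  refine (Submodule.finrank_mono hle).trans ((finrank_span_finset_le_card s).trans ?_)
  exact Finset.card_image_le.trans (by simp)

lemma finrank_extSpan (W : Submodule K (MvPolynomial (Fin n) K)) {d : ℕ} (hW : W ≤ Vd K n d) :
    Module.finrank L (extSpan L W) = Module.finrank K W := by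
  classical
  have : Module.Finite K W := Submodule.finiteDimensional_of_le hW
  obtain ⟨Q₀, hQ₀⟩ := exists_isCompl (W.comap (Vd K n d).subtype)
  set Q : Submodule K (MvPolynomial (Fin n) K) := Q₀.map (Vd K n d).subtype with hQ
  have hQle : Q ≤ Vd K n d := Submodule.map_subtype_le _ _
  have : Module.Finite K Q := Submodule.finiteDimensional_of_le hQle
  have hsum : Module.finrank K W + Module.finrank K Q = Module.finrank K (Vd K n d) := by
    rw [← (Submodule.comapSubtypeEquivOfLe hW).finrank_eq, hQ,
      Submodule.finrank_map_subtype_eq]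
    exact Submodule.finrank_add_eq_of_isCompl hQ₀
  have hall : Vd L n d ≤ extSpan L W ⊔ extSpan L Q := by
    intro f hf
    rw [f.as_sum]
    refine sum_mem fun s hs => ?_
    have hsd : Finsupp.degree s = d := by
      by_contra h
      exact (mem_support_iff.1 hs) (hf.coeff_eq_zero h)
    have hm : monomial s (coeff s f) = coeff s f • ext K L n (monomial s 1) := by
      rw [map_monomial, map_one, smul_monomial]; simp
    rw [hm]
    refine Submodule.smul_mem _ _ ?_
    have hmem : (⟨monomial s 1, isHomogeneous_monomial 1 hsd⟩ : Vd K n d) ∈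
        W.comap (Vd K n d).subtype ⊔ Q₀ := by
      rw [hQ₀.sup_eq_top]; exact Submodule.mem_top
    obtain ⟨w, hw, q, hq, hwq⟩ := Submodule.mem_sup.1 hmem
    have := congrArg (fun v : Vd K n d => (v : MvPolynomial (Fin n) K)) hwq
    simp only [Submodule.coe_add] at this
    rw [← this, map_add]
    exact Submodule.add_mem_sup (Submodule.subset_span ⟨_, hw, rfl⟩)
      (Submodule.subset_span ⟨_, ⟨q, hq, rfl⟩, rfl⟩)
  have hfin : ∀ X : Submodule K (MvPolynomial (Fin n) K), X ≤ Vd K n d →
      Module.Finite L (extSpan L X) := fun X hX => by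
    refine Submodule.finiteDimensional_of_le (S₂ := Vd L n d) (Submodule.span_le.2 ?_)
    rintro _ ⟨x, hx, rfl⟩
    exact isHomogeneous_ext (hX hx)
  have := hfin W hW
  have := hfin Q hQle
  have h1 : Module.finrank L (Vd L n d) ≤
      Module.finrank L (extSpan L W) + Module.finrank L (extSpan L Q) :=
    (Submodule.finrank_mono hall).trans
      ((Nat.le_add_right _ _).trans_eq (Submodule.finrank_sup_add_finrank_inf_eq _ _))
  have := finrank_extSpan_le (L := L) W
  have := finrank_extSpan_le (L := L) Q
  have := finrank_Vd_eq K L n d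
  omega

lemma comp_mem_extSpan {I : Ideal (MvPolynomial (Fin n) K)} (hI : IsHom I)
    {f : MvPolynomial (Fin n) L} (hf : f ∈ I.map (ext K L n)) :
    ∀ d, homogeneousComponent d f ∈ extSpan L (degPart I d) := by
  rw [Ideal.map] at hf
  induction hf using Submodule.span_induction with
  | mem x hx =>
    obtain ⟨g, hg, rfl⟩ := hx
    intro d
    rw [comp_ext]
    exact Submodule.subset_span
      ⟨_, ⟨homogeneousComponent_isHomogeneous d g, hI g hg d⟩, rfl⟩
  | zero => intro d; simp
  | add x y _ _ hx hy => intro d; rw [map_add]; exact add_mem (hx d) (hy d)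
  | smul r x _ hx =>
    intro d
    rw [smul_eq_mul, r.as_sum, Finset.sum_mul, map_sum]
    refine sum_mem fun s _ => ?_
    have hmul : monomial s (coeff s r) * x =
        coeff s r • (x * ext K L n (monomial s 1)) := by
      have h1 : (monomial s (coeff s r) : MvPolynomial (Fin n) L) =
          C (coeff s r) * monomial s 1 := by simp [C_mul_monomial]
      rw [smul_eq_C_mul, map_monomial, map_one, h1]
      ring
    rw [hmul, map_smul]
    refine Submodule.smul_mem _ _ ?_
    have hh : (ext K L n (monomial s 1)).IsHomogeneous (Finsupp.degree s) :=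
      isHomogeneous_ext (isHomogeneous_monomial 1 rfl)
    rcases Nat.lt_or_ge d (Finsupp.degree s) with h | h
    · rw [comp_mul_of_lt hh x h]; exact zero_mem _
    · obtain ⟨e, rfl⟩ := Nat.exists_eq_add_of_le' h
      rw [comp_mul hh]
      have key : extSpan L (degPart I e) ≤
          (extSpan L (degPart I (e + Finsupp.degree s))).comap
            (LinearMap.mulRight L (ext K L n (monomial s 1))) := by
        rw [extSpan, Submodule.span_le]
        rintro _ ⟨g, hg, rfl⟩
        refine Submodule.subset_span ⟨g * monomial s 1, ⟨?_, ?_⟩, by simp⟩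
        · exact hg.1.mul (isHomogeneous_monomial 1 rfl)
        · exact I.mul_mem_right _ hg.2
      exact key (hx e)

lemma extSpan_le_map (I : Ideal (MvPolynomial (Fin n) K)) (d : ℕ) :
    extSpan L (degPart I d) ≤ degPart (I.map (ext K L n)) d := by
  rw [extSpan, Submodule.span_le]
  rintro _ ⟨g, hg, rfl⟩
  exact ⟨isHomogeneous_ext hg.1, Ideal.mem_map_of_mem _ hg.2⟩

lemma isHom_ext {I : Ideal (MvPolynomial (Fin n) K)} (hI : IsHom I) :
    IsHom (I.map (ext K L n)) := fun _ hf d =>
  (extSpan_le_map I d (comp_mem_extSpan hI hf d)).2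

lemma hilb_ext {I : Ideal (MvPolynomial (Fin n) K)} (hI : IsHom I) (d : ℕ) :
    hilb (I.map (ext K L n)) d = hilb I d := by
  have h : degPart (I.map (ext K L n)) d = extSpan L (degPart I d) := by
    refine le_antisymm (fun f hf => ?_) (extSpan_le_map I d)
    rw [← homogeneousComponent_eq_self hf.1]
    exact comp_mem_extSpan hI hf.2 d
  unfold hilb
  rw [h, finrank_extSpan _ (degPart_le I d), ← finrank_Vd_eq K L n d]

lemma good_ext {a : Fin n → ℕ} {I : Ideal (MvPolynomial (Fin n) K)} (h : Good a I) :
    Good a (I.map (ext K L n)) := by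
  obtain ⟨f, hf, ⟨N, hN⟩, R, hR, hRc⟩ := h
  refine ⟨fun i => ext K L n (f i), fun i => ⟨isHomogeneous_ext (hf i).1,
    Ideal.mem_map_of_mem _ (hf i).2⟩, ⟨N, fun y hy => ?_⟩, R, fun i hi => ?_, hRc⟩
  · rw [y.as_sum]
    refine sum_mem fun s hs => ?_
    have hsd : Finsupp.degree s = N := by
      by_contra h
      exact (mem_support_iff.1 hs) (hy.coeff_eq_zero h)
    have hm : monomial s (coeff s y) = C (coeff s y) * ext K L n (monomial s 1) := by
      rw [map_monomial, map_one, C_mul_monomial, mul_one]
    rw [hm]
    refine Ideal.mul_mem_left _ _ ?_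
    have h1 := Ideal.mem_map_of_mem (ext K L n) (hN _ (isHomogeneous_monomial 1 hsd))
    rw [Ideal.map_span, ← Set.range_comp] at h1
    exact h1
  · obtain ⟨M, hMc, hMl, hMp⟩ := hR i hi
    refine ⟨M.map (ext K L n), by simpa using hMc, fun x hx => ?_, ?_⟩
    · obtain ⟨y, hy, rfl⟩ := Multiset.mem_map.1 hx
      exact isHomogeneous_ext (hMl y hy)
    · show _ = ext K L n (f i)
      rw [← hMp, map_multiset_prod]

/-- The growth condition over every field. -/
theorem adm_hilb {K : Type*} [Field K] {n : ℕ} {a : Fin n → ℕ} (ha : Monotone a)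
    (ha1 : ∀ i, 1 ≤ a i) {I : Ideal (MvPolynomial (Fin n) K)}
    (hI : IsHom I) (hG : Good a I) : Box.Adm a (hilb I) := by
  have h := adm_of_good n a ha ha1 _ (isHom_ext (L := AlgebraicClosure K) hI)
    (good_ext (L := AlgebraicClosure K) hG)
  rwa [show hilb (I.map (ext K (AlgebraicClosure K) n)) = hilb I from
    funext (hilb_ext hI)] at h

end Vale.Agent.P200
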