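import Mathlib
import Vale.Agent.P200.Regular
import Vale.Agent.P200.Extend

/-!
A regular sequence stays regular after extending the field.
-/

open MvPolynomial

namespace Vale.Agent.P200

section baseChange

variable {K L : Type*} [Field K] [Field L] [Algebra K L] {n : ℕ}

/-- Apply a functional to every coefficient. -/
noncomputable def coeffMap (φ : L →ₗ[K] K) (g : MvPolynomial (Fin n) L) :
    MvPolynomial (Fin n) K :=
  ∑ s ∈ g.support, monomial s (φ (coeff s g))

lemma coeff_coeffMap (φ : L →ₗ[K] K) (g : MvPolynomial (Fin n) L) (s : Fin n →₀ ℕ) :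
    coeff s (coeffMap φ g) = φ (coeff s g) := by
  classical
  simp only [coeffMap, coeff_sum, coeff_monomial, Finset.sum_ite_eq']
  split
  · rfl
  · rename_i h; rw [notMem_support_iff.1 h, map_zero]

lemma coeffMap_ext_mul (φ : L →ₗ[K] K) (x : MvPolynomial (Fin n) K) (y : MvPolynomial (Fin n) L) :
    coeffMap φ (ext K L n x * y) = x * coeffMap φ y := by
  classical
  ext s
  rw [coeff_coeffMap, coeff_mul, coeff_mul, map_sum]
  refine Finset.sum_congr rfl fun e _ => ?_
  rw [coeff_map, coeff_coeffMap, ← Algebra.smul_def, map_smul, smul_eq_mul]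

lemma coeffMap_mem {J : Ideal (MvPolynomial (Fin n) K)} {g : MvPolynomial (Fin n) L}
    (hg : g ∈ J.map (ext K L n)) (φ : L →ₗ[K] K) : coeffMap φ g ∈ J := by
  obtain ⟨k, c, v, rfl⟩ := Submodule.mem_span_set'.1 hg
  have h : coeffMap φ (∑ i, c i • (v i : MvPolynomial (Fin n) L)) =
      ∑ i, coeffMap φ (c i • (v i : MvPolynomial (Fin n) L)) := by
    ext s; simp [coeff_coeffMap, coeff_sum, map_sum]
  rw [h]
  refine sum_mem fun i _ => ?_
  obtain ⟨x, hx, hxv⟩ := (v i).2
  rw [smul_eq_mul, ← hxv, mul_comm, coeffMap_ext_mul]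
  exact J.mul_mem_right _ hx

lemma mem_map_of_coeffMap {J : Ideal (MvPolynomial (Fin n) K)} {g : MvPolynomial (Fin n) L}
    (hg : ∀ φ : L →ₗ[K] K, coeffMap φ g ∈ J) : g ∈ J.map (ext K L n) := by
  classical
  let b := Module.Free.chooseBasis K L
  let T := g.support.biUnion fun s => (b.repr (coeff s g)).support
  have h : g = ∑ j ∈ T, C (b j) * ext K L n (coeffMap (b.coord j) g) := by
    ext s
    simp only [coeff_sum, coeff_C_mul, coeff_map, coeff_coeffMap, Module.Basis.coord_apply]
    by_cases hs : s ∈ g.support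
    · have hsub : (b.repr (coeff s g)).support ⊆ T :=
        Finset.subset_biUnion_of_mem (fun s => (b.repr (coeff s g)).support) hs
      conv_lhs => rw [← b.linearCombination_repr (coeff s g), Finsupp.linearCombination_apply,
        Finsupp.sum_of_support_subset _ hsub _ (by simp)]
      exact Finset.sum_congr rfl fun j _ => by rw [Algebra.smul_def, mul_comm]
    · simp [notMem_support_iff.1 hs]
  rw [h]
  exact sum_mem fun j _ => Ideal.mul_mem_left _ _ (Ideal.mem_map_of_mem _ (hg _))

/-- A regular sequence stays regular after extending the field. -/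
lemma isRegSeq_ext {c : ℕ} {a : Fin c → ℕ} {f : Fin c → MvPolynomial (Fin n) K}
    (hf : IsRegSeq a f) : IsRegSeq a (fun i => ext K L n (f i)) := by
  refine ⟨fun i => isHomogeneous_ext (hf.1 i), fun i g hg => ?_⟩
  have he : Ideal.span ((fun j => ext K L n (f j)) '' {j | j < i}) =
      (Ideal.span (f '' {j | j < i})).map (ext K L n) := by
    rw [Ideal.map_span, Set.image_image]
  rw [he] at hg ⊢
  refine mem_map_of_coeffMap fun φ => hf.2 i _ ?_
  have := coeffMap_mem hg φ
  rwa [mul_comm g, coeffMap_ext_mul, mul_comm] at this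

end baseChange

end Vale.Agent.P200
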