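import Mathlib
import Vale.Agent.P200.Regular

/-!
The ideal of leading forms for a weight on the variables has the same Hilbert function.
-/

open MvPolynomial

namespace Vale.Agent.P200

variable {K : Type*} [Field K] {n : ℕ}

/-- Polynomials with all weights below `k`. -/
noncomputable def below (K : Type*) [Field K] (w : Fin n → ℕ) (k : ℕ) :
    Submodule K (MvPolynomial (Fin n) K) :=
  restrictSupport K {e : Fin n →₀ ℕ | Finsupp.weight w e < k}

/-- The leading parts of weight `k` of a space of polynomials. -/
noncomputable def leadPart (w : Fin n → ℕ) (U : Submodule K (MvPolynomial (Fin n) K)) (k : ℕ) :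
    Submodule K (MvPolynomial (Fin n) K) :=
  (U ⊓ below K w (k + 1)).map (weightedHomogeneousComponent w k)

lemma mem_below {w : Fin n → ℕ} {k : ℕ} {x : MvPolynomial (Fin n) K} :
    x ∈ below K w k ↔ ∀ e, coeff e x ≠ 0 → Finsupp.weight w e < k := by
  rw [below, mem_restrictSupport_iff]
  exact ⟨fun h e he => h (mem_support_iff.2 he), fun h e he => h e (mem_support_iff.1 he)⟩

lemma leadPart_le_Vd {w : Fin n → ℕ} {U : Submodule K (MvPolynomial (Fin n) K)} {d : ℕ}
    (hU : U ≤ Vd K n d) (k : ℕ) : leadPart w U k ≤ Vd K n d := by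
  classical
  rintro _ ⟨x, hx, rfl⟩ e he
  rw [coeff_weightedHomogeneousComponent] at he
  split at he
  · exact hU hx.1 he
  · exact absurd rfl he

lemma finrank_below_sum {w : Fin n → ℕ} {U : Submodule K (MvPolynomial (Fin n) K)}
    [Module.Finite K U] : ∀ k, Module.finrank K (U ⊓ below K w k : Submodule K _) =
      ∑ j ∈ Finset.range k, Module.finrank K (leadPart w U j) := by
  classical
  intro k
  induction k with
  | zero =>
    have : U ⊓ below K w 0 = ⊥ := by
      rw [eq_bot_iff]
      intro x hx
      rw [Submodule.mem_bot]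
      ext e
      rw [coeff_zero]
      by_contra he
      exact Nat.not_lt_zero _ (mem_below.1 hx.2 e he)
    rw [this, finrank_bot, Finset.range_zero, Finset.sum_empty]
  | succ k ih =>
    set W := U ⊓ below K w (k + 1)
    let φ : W →ₗ[K] MvPolynomial (Fin n) K :=
      (weightedHomogeneousComponent w k).domRestrict W
    have : Module.Finite K W := Submodule.finiteDimensional_of_le (inf_le_left : W ≤ U)
    have h1 := φ.finrank_range_add_finrank_ker
    have h2 : LinearMap.range φ = leadPart w U k := LinearMap.range_domRestrict _ _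
    have h3 : LinearMap.ker φ = (U ⊓ below K w k).comap W.subtype := by
      ext x
      rw [LinearMap.mem_ker, Submodule.mem_comap, Submodule.subtype_apply,
        LinearMap.domRestrict_apply]
      constructor
      · intro h
        refine ⟨x.2.1, mem_below.2 fun e he => ?_⟩
        refine lt_of_le_of_ne (Nat.lt_succ_iff.1 (mem_below.1 x.2.2 e he)) fun hk => he ?_
        have := congrArg (coeff e) h
        rwa [coeff_weightedHomogeneousComponent, if_pos hk, coeff_zero] at this
      · intro h
        ext e
        rw [coeff_weightedHomogeneousComponent, coeff_zero]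
        split
        · rename_i hk
          by_contra he
          exact (mem_below.1 h.2 e he).ne hk
        · rfl
    have hle : U ⊓ below K w k ≤ W :=
      inf_le_inf_left _ fun x hx => mem_below.2 fun e he =>
        (mem_below.1 hx e he).trans (Nat.lt_succ_self k)
    rw [h2, h3, (Submodule.comapSubtypeEquivOfLe hle).finrank_eq, ih] at h1
    rw [Finset.sum_range_succ, add_comm (∑ j ∈ _, _)]
    omega

lemma inf_below_eq {w : Fin n → ℕ} {U : Submodule K (MvPolynomial (Fin n) K)} {d : ℕ}
    (hU : U ≤ Vd K n d) : U ⊓ below K w ((∑ i, w i) * d + 1) = U := by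
  refine inf_eq_left.2 fun x hx => mem_below.2 fun e he => Nat.lt_succ_of_le ?_
  have hd : ∑ i, e i = d := by
    rw [← Finsupp.degree_eq_sum]
    by_contra h
    exact he ((hU hx).coeff_eq_zero h)
  rw [Finsupp.weight_apply, Finsupp.sum_fintype _ _ (fun i => by simp), Finset.sum_mul]
  refine Finset.sum_le_sum fun i _ => ?_
  rw [smul_eq_mul, mul_comm]
  exact Nat.mul_le_mul_left _ (hd ▸ Finset.single_le_sum (fun j _ => Nat.zero_le (e j))
    (Finset.mem_univ i))

/-- The span of all leading parts. -/
noncomputable def leadSpan (w : Fin n → ℕ) (U : Submodule K (MvPolynomial (Fin n) K)) :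
    Submodule K (MvPolynomial (Fin n) K) :=
  ⨆ k, leadPart w U k

lemma leadPart_leadSpan (w : Fin n → ℕ) (U : Submodule K (MvPolynomial (Fin n) K)) (k : ℕ) :
    leadPart w (leadSpan w U) k = leadPart w U k := by
  classical
  refine le_antisymm ?_ ?_
  · have h : leadSpan w U ≤ (leadPart w U k).comap (weightedHomogeneousComponent w k) := by
      refine iSup_le fun j => ?_
      rintro _ ⟨x, hx, rfl⟩
      rw [Submodule.mem_comap,
        weightedHomogeneousComponent_of_mem (weightedHomogeneousComponent_mem w x j)]
      split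
      · rename_i h; subst h; exact ⟨x, hx, rfl⟩
      · exact zero_mem _
    rintro _ ⟨x, hx, rfl⟩
    exact h hx.1
  · rintro _ ⟨x, hx, rfl⟩
    have hm := weightedHomogeneousComponent_mem w x k
    refine ⟨weightedHomogeneousComponent w k x, ⟨Submodule.mem_iSup_of_mem k ⟨x, hx, rfl⟩,
      mem_below.2 fun e he => ?_⟩, ?_⟩
    · rw [coeff_weightedHomogeneousComponent] at he
      split at he
      · omega
      · exact absurd rfl he
    · rw [weightedHomogeneousComponent_of_mem hm, if_pos rfl]

lemma finrank_leadSpan {w : Fin n → ℕ} {U : Submodule K (MvPolynomial (Fin n) K)} {d : ℕ}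
    (hU : U ≤ Vd K n d) : Module.finrank K (leadSpan w U) = Module.finrank K U := by
  have hL : leadSpan w U ≤ Vd K n d := iSup_le fun k => leadPart_le_Vd hU k
  have : Module.Finite K U := Submodule.finiteDimensional_of_le hU
  have : Module.Finite K (leadSpan w U) := Submodule.finiteDimensional_of_le hL
  rw [← inf_below_eq (w := w) hL, finrank_below_sum]
  conv_rhs => rw [← inf_below_eq (w := w) hU, finrank_below_sum]
  exact Finset.sum_congr rfl fun j _ => by rw [leadPart_leadSpan]

/-- The ideal of leading forms of a homogeneous ideal. -/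
noncomputable def leadIdeal (w : Fin n → ℕ) (I : Ideal (MvPolynomial (Fin n) K)) :
    Ideal (MvPolynomial (Fin n) K) :=
  Ideal.span {y | ∃ d k, y ∈ leadPart w (degPart I d) k}

lemma monomial_mul_leadPart {w : Fin n → ℕ} {I : Ideal (MvPolynomial (Fin n) K)} {d k : ℕ}
    {y : MvPolynomial (Fin n) K} (hy : y ∈ leadPart w (degPart I d) k) (s : Fin n →₀ ℕ) (c : K) :
    monomial s c * y ∈ leadPart w (degPart I (Finsupp.degree s + d)) (Finsupp.weight w s + k) := by
  classical
  obtain ⟨x, ⟨hx1, hx2⟩, rfl⟩ := hy
  refine ⟨monomial s c * x, ⟨⟨(isHomogeneous_monomial c rfl).mul hx1.1,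
    I.mul_mem_left _ hx1.2⟩, mem_below.2 fun e he => ?_⟩, ?_⟩
  · rw [coeff_monomial_mul'] at he
    split at he
    · rename_i hse
      obtain ⟨t, rfl⟩ := exists_add_of_le hse
      rw [add_tsub_cancel_left] at he
      have := mem_below.1 hx2 t (fun h => he (by rw [h, mul_zero]))
      rw [map_add]
      omega
    · exact absurd rfl he
  · ext e
    rw [coeff_weightedHomogeneousComponent, coeff_monomial_mul', coeff_monomial_mul',
      coeff_weightedHomogeneousComponent]
    by_cases hse : s ≤ e
    · obtain ⟨t, rfl⟩ := exists_add_of_le hse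
      simp only [if_pos hse, add_tsub_cancel_left, map_add, add_right_inj]
      split <;> simp
    · simp only [if_neg hse, ite_self]

lemma leadIdeal_spec (w : Fin n → ℕ) (I : Ideal (MvPolynomial (Fin n) K)) :
    IsHom (leadIdeal w I) ∧ ∀ d, hilb (leadIdeal w I) d = hilb I d := by
  classical
  have hhom : IsHom (leadIdeal w I) := isHom_span fun y ⟨d, k, hy⟩ =>
    ⟨d, leadPart_le_Vd (degPart_le I d) k hy⟩
  refine ⟨hhom, fun d => ?_⟩
  let T : Submodule K (MvPolynomial (Fin n) K) := ⨆ e, leadSpan w (degPart I e)
  have hmon : ∀ s : Fin n →₀ ℕ, ∀ c : K, T ≤ T.comap (LinearMap.mulLeft K (monomial s c)) := by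
    intro s c
    refine iSup_le fun e => iSup_le fun k => fun y hy => ?_
    exact Submodule.mem_iSup_of_mem _ (Submodule.mem_iSup_of_mem _ (monomial_mul_leadPart hy s c))
  have hT : ∀ x ∈ leadIdeal w I, x ∈ T := by
    intro x hx
    induction hx using Submodule.span_induction with
    | mem y hy =>
      obtain ⟨e, k, hy⟩ := hy
      exact Submodule.mem_iSup_of_mem e (Submodule.mem_iSup_of_mem k hy)
    | zero => exact zero_mem _
    | add x y _ _ hx hy => exact add_mem hx hy
    | smul r x _ hx =>
      rw [smul_eq_mul, r.as_sum, Finset.sum_mul]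
      exact sum_mem fun s _ => hmon _ _ hx
  have hcomp : T ≤ (leadSpan w (degPart I d)).comap (homogeneousComponent d) := by
    refine iSup_le fun e => iSup_le fun k => fun y hy => ?_
    have he := leadPart_le_Vd (degPart_le I e) k hy
    rw [Submodule.mem_comap, homogeneousComponent_of_mem he]
    split
    · rename_i h; subst h; exact Submodule.mem_iSup_of_mem k hy
    · exact zero_mem _
  have heq : degPart (leadIdeal w I) d = leadSpan w (degPart I d) := by
    refine le_antisymm (fun x hx => ?_) (iSup_le fun k y hy => ?_)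
    · rw [← homogeneousComponent_eq_self hx.1]
      exact hcomp (hT x hx.2)
    · exact ⟨leadPart_le_Vd (degPart_le I d) k hy, Ideal.subset_span ⟨d, k, hy⟩⟩
  rw [hilb, hilb, heq, finrank_leadSpan (degPart_le I d)]

lemma mem_leadIdeal {w : Fin n → ℕ} {I : Ideal (MvPolynomial (Fin n) K)}
    {f : MvPolynomial (Fin n) K} {d k : ℕ} (hf : f.IsHomogeneous d) (hfI : f ∈ I)
    (hk : weightedTotalDegree w f ≤ k) :
    weightedHomogeneousComponent w k f ∈ leadIdeal w I :=
  Ideal.subset_span ⟨d, k, f, ⟨⟨hf, hfI⟩, mem_below.2 fun _ he =>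
    Nat.lt_succ_of_le ((le_weightedTotalDegree w (mem_support_iff.2 he)).trans hk)⟩, rfl⟩

end Vale.Agent.P200
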