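import Mathlib
import Vale.Agent.P200.Extend
import Vale.Agent.P200.Regular
import Vale.Agent.P200.Complete
import Vale.Agent.P200.BaseChange
import Vale.Agent.P200.Weight

/-!
The lex-plus-powers ideal for a regular sequence of `c ≤ n` forms in `n` variables.
-/

open MvPolynomial

namespace Vale.Agent.P200

variable {K : Type*} [Field K] {n c : ℕ}

/-- The span of the monomials with exponent at least `a i` at some of the first `c` variables, and
of those outside `D`. -/
noncomputable def powersPlus (K : Type*) [Field K] (hc : c ≤ n) (a : Fin c → ℕ)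
    (D : Set (Fin n → ℕ)) : Ideal (MvPolynomial (Fin n) K) :=
  Ideal.span ((fun e => monomial e (1 : K)) ''
    {e : Fin n →₀ ℕ | (∃ i, a i ≤ e (Fin.castLE hc i)) ∨ ⇑e ∉ D})

lemma mem_powersPlus {hc : c ≤ n} {a : Fin c → ℕ} {D : Set (Fin n → ℕ)}
    (hD : ∀ e ∈ D, ∀ t : Fin n → ℕ, t ≤ e → t ∈ D) {x : MvPolynomial (Fin n) K} :
    x ∈ powersPlus K hc a D ↔
      ∀ e ∈ x.support, (∃ i, a i ≤ e (Fin.castLE hc i)) ∨ ⇑e ∉ D := by
  rw [powersPlus, mem_ideal_span_monomial_image]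
  refine ⟨fun h e he => ?_, fun h e he => ⟨e, h e he, le_rfl⟩⟩
  obtain ⟨s, hs, hse⟩ := h e he
  rcases hs with ⟨i, hi⟩ | hs
  · exact Or.inl ⟨i, hi.trans (hse _)⟩
  · exact Or.inr fun hc => hs (hD _ hc _ fun i => hse i)

lemma isHom_powersPlus (hc : c ≤ n) (a : Fin c → ℕ) (D : Set (Fin n → ℕ)) :
    IsHom (powersPlus K hc a D) :=
  isHom_span fun _ ⟨e, _, he⟩ => ⟨Finsupp.degree e, he ▸ isHomogeneous_monomial 1 rfl⟩

lemma finrank_restrictSupport (s : Finset (Fin n →₀ ℕ)) :
    Module.finrank K (restrictSupport K (s : Set (Fin n →₀ ℕ))) = s.card := by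
  rw [Module.finrank_eq_card_basis (basisRestrictSupport K (s : Set (Fin n →₀ ℕ)))]
  simp

lemma hilb_powersPlus {hc : c ≤ n} {a : Fin c → ℕ} {D : Set (Fin n → ℕ)}
    (hbox : ∀ e ∈ D, ∀ i, e (Fin.castLE hc i) < a i)
    (hD : ∀ e ∈ D, ∀ t : Fin n → ℕ, t ≤ e → t ∈ D) (d : ℕ) (F : Finset (Fin n → ℕ))
    (hF : ∀ e, e ∈ F ↔ ∑ i, e i = d ∧ e ∈ D) :
    hilb (powersPlus K hc a D) d = F.card := by
  classical
  set E : Finset (Fin n →₀ ℕ) := Finset.finsuppAntidiag Finset.univ d with hE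
  have hmem : ∀ e : Fin n →₀ ℕ, e ∈ E ↔ Finsupp.degree e = d := by
    intro e
    simp [hE, Finset.mem_finsuppAntidiag, Finsupp.degree_eq_sum]
  have h1 : Vd K n d = restrictSupport K (E : Set (Fin n →₀ ℕ)) := by
    rw [Vd, homogeneousSubmodule_eq_finsupp_supported]
    congr 1
    ext e
    simp [hmem]
  set B := E.filter fun e : Fin n →₀ ℕ => (∃ i, a i ≤ e (Fin.castLE hc i)) ∨ ⇑e ∉ D with hB
  have h2 : degPart (powersPlus K hc a D) d = restrictSupport K (B : Set (Fin n →₀ ℕ)) := by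
    ext x
    rw [mem_restrictSupport_iff]
    constructor
    · rintro ⟨hx1, hx2⟩ e he
      have hx1' : x ∈ Vd K n d := hx1
      rw [h1, mem_restrictSupport_iff] at hx1'
      exact Finset.mem_filter.2 ⟨hx1' he, (mem_powersPlus hD).1 hx2 e he⟩
    · intro h
      refine ⟨?_, (mem_powersPlus hD).2 fun e he => (Finset.mem_filter.1 (h he)).2⟩
      rw [h1, SetLike.mem_coe, mem_restrictSupport_iff]
      exact fun e he => (Finset.mem_filter.1 (h he)).1
  rw [hilb, h1, h2, finrank_restrictSupport, finrank_restrictSupport]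
  have h3 : (E.filter fun e : Fin n →₀ ℕ =>
      ¬ ((∃ i, a i ≤ e (Fin.castLE hc i)) ∨ ⇑e ∉ D)).card = F.card := by
    refine Finset.card_bij (fun e _ => ⇑e) ?_ ?_ ?_
    · intro e he
      simp only [Finset.mem_filter, not_or, not_not] at he
      rw [hF]
      refine ⟨?_, he.2.2⟩
      rw [← Finsupp.degree_eq_sum]
      exact (hmem e).1 he.1
    · exact fun _ _ _ _ h => DFunLike.coe_injective h
    · intro e he
      rw [hF] at he
      refine ⟨Finsupp.equivFunOnFinite.symm e, ?_, by simp⟩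
      simp only [Finset.mem_filter, not_or, not_not, not_exists, not_le]
      refine ⟨(hmem _).2 ?_, fun i => ?_, ?_⟩
      · rw [Finsupp.degree_eq_sum]; simpa using he.1
      · simpa using hbox e he.2 i
      · simpa using he.2
  have h4 := Finset.card_filter_add_card_filter_not
    (s := E) (fun e : Fin n →₀ ℕ => (∃ i, a i ≤ e (Fin.castLE hc i)) ∨ ⇑e ∉ D)
  rw [← hB, h3] at h4
  omega

/-- The bounds `a`, completed by the bound `N` for the remaining variables. -/
def cap (a : Fin c → ℕ) (N : ℕ) (j : Fin n) : ℕ :=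
  if h : j.val < c then a ⟨j, h⟩ else N

lemma cap_castLE (hc : c ≤ n) (a : Fin c → ℕ) (N : ℕ) (i : Fin c) :
    cap (n := n) a N (Fin.castLE hc i) = a i := by
  simp [cap]

lemma monotone_cap {a : Fin c → ℕ} (ha : Monotone a) {N : ℕ} (hN : ∀ i, a i ≤ N) :
    Monotone (cap (n := n) a N) := by
  intro i j hij
  unfold cap
  split <;> split
  · exact ha hij
  · exact hN _
  · rename_i h h'
    exact absurd (lt_of_le_of_lt (Fin.le_def.1 hij) h') h
  · exact le_rfl

lemma lt_cap_iff (hc : c ≤ n) {a : Fin c → ℕ} {N : ℕ} {t : Fin n → ℕ} (ht : ∑ i, t i < N) :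
    (∀ j, t j < cap a N j) ↔ ∀ i : Fin c, t (Fin.castLE hc i) < a i := by
  refine ⟨fun h i => by simpa [cap_castLE] using h (Fin.castLE hc i), fun h j => ?_⟩
  unfold cap
  split
  · rename_i hj; exact h ⟨j, hj⟩
  · exact (Finset.single_le_sum (fun i _ => Nat.zero_le (t i)) (Finset.mem_univ j)).trans_lt ht

/-- A regular sequence in `I` in which the degrees of the forms that are not split grow. -/
def SplitGrowingSeq (a : Fin c → ℕ) (I : Ideal (MvPolynomial (Fin n) K)) : Prop :=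
  ∃ (f : Fin c → MvPolynomial (Fin n) K) (R : Finset (Fin c)),
    IsRegSeq a f ∧ (∀ i, f i ∈ I) ∧ (∀ i ∉ R, SplitForm (f i) (a i)) ∧ Grows a R

lemma splitGrowingSeq_ext {L : Type*} [Field L] [Algebra K L] {a : Fin c → ℕ}
    {I : Ideal (MvPolynomial (Fin n) K)} (h : SplitGrowingSeq a I) :
    SplitGrowingSeq a (I.map (ext K L n)) := by
  obtain ⟨f, R, hf, hfI, hR, hRc⟩ := h
  refine ⟨fun i => ext K L n (f i), R, isRegSeq_ext hf, fun i => Ideal.mem_map_of_mem _ (hfI i),
    fun i hi => ?_, hRc⟩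
  obtain ⟨M, hMc, hMl, hMp⟩ := hR i hi
  refine ⟨M.map (ext K L n), by simpa using hMc, fun x hx => ?_, ?_⟩
  · obtain ⟨y, hy, rfl⟩ := Multiset.mem_map.1 hx
    exact isHomogeneous_ext (hMl y hy)
  · show _ = ext K L n (f i)
    rw [← hMp, map_multiset_prod]

/-- Up to degree `N` the Hilbert function satisfies the growth condition of a finite box. -/
lemma exists_adm_closed [IsAlgClosed K] (hc : c ≤ n) {a : Fin c → ℕ} (ha : Monotone a)
    (ha1 : ∀ i, 1 ≤ a i) {I : Ideal (MvPolynomial (Fin n) K)} (hI : IsHom I)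
    (h : SplitGrowingSeq a I) {N : ℕ} (hN : ∀ i, a i ≤ N) (hN1 : 1 ≤ N) :
    ∃ h', Box.Adm (cap (n := n) a N) h' ∧ ∀ d < N, h' d = hilb I d := by
  classical
  obtain ⟨f, R, hf, hfI, hR, hRc⟩ := h
  obtain ⟨l, hl, hlz⟩ := exists_complete (n - c) (Ideal.span (Set.range f))
    (isHom_span fun g ⟨i, hi⟩ => ⟨a i, hi ▸ hf.1 i⟩) (dimLE_of_isRegSeq hc hf)
  let g : Fin n → MvPolynomial (Fin n) K := fun j =>
    if hj : j.val < c then f ⟨j, hj⟩ else l ⟨j.val - c, by omega⟩ ^ N
  let T : Set (MvPolynomial (Fin n) K) := Set.range fun j => l j ^ N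
  have hT : ∀ x ∈ T, x.IsHomogeneous N := by
    rintro _ ⟨j, rfl⟩
    simpa using (hl j).pow N
  let I' := I ⊔ Ideal.span T
  have hI' : IsHom I' := by
    intro x hx d
    obtain ⟨y, hy, z, hz, rfl⟩ := Submodule.mem_sup.1 hx
    rw [map_add]
    exact Submodule.add_mem_sup (hI y hy d) (isHom_span (fun x hx => ⟨N, hT x hx⟩) z hz d)
  have hgood : Good (cap a N) I' := by
    refine ⟨g, fun j => ?_, artin_of_zeros fun z hz => ?_, R.image (Fin.castLE hc),
      fun j hj => ?_, ?_⟩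
    · simp only [g, cap]
      split
      · rename_i hj; exact ⟨hf.1 _, Ideal.mem_sup_left (hfI _)⟩
      · refine ⟨?_, Ideal.mem_sup_right (Ideal.subset_span ⟨_, rfl⟩)⟩
        simpa using (hl _).pow N
    · refine hlz z (fun x hx => ?_) fun j => ?_
      · have hle : Ideal.span (Set.range f) ≤ RingHom.ker (eval z) := by
          rw [Ideal.span_le]
          rintro _ ⟨i, rfl⟩
          have hgi : g (Fin.castLE hc i) = f i := by simp [g]
          exact hgi ▸ hz _ (Ideal.subset_span ⟨_, rfl⟩)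
        exact hle hx
      · have hgj : g ⟨c + j.val, by omega⟩ = l j ^ N := by
          simp [g]
        have h1 := hz _ (Ideal.subset_span ⟨⟨c + j.val, by omega⟩, rfl⟩)
        rw [hgj, map_pow] at h1
        exact (pow_eq_zero_iff (by omega)).1 h1
    · simp only [g, cap]
      split
      · rename_i hj'
        exact hR _ fun hmem => hj (Finset.mem_image.2 ⟨⟨j, hj'⟩, hmem, rfl⟩)
      · exact ⟨Multiset.replicate N (l ⟨j.val - c, by omega⟩), by simp,
          fun x hx => (Multiset.eq_of_mem_replicate hx) ▸ hl _, by simp⟩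
    · intro x hx
      obtain ⟨i, hi, rfl⟩ := Finset.mem_image.1 hx
      have hlt : ∀ q : Fin n → Prop, [DecidablePred q] →
          (R.image (Fin.castLE hc)).filter q =
            (R.filter fun j => q (Fin.castLE hc j)).image (Fin.castLE hc) :=
        fun q _ => Finset.filter_image
      rcases hRc i hi with h | h | ⟨h, h2⟩
      · left
        rw [hlt, Finset.card_image_of_injective _ (Fin.castLE_injective hc)]
        exact h
      · right; left
        rw [hlt, Finset.sum_image (Fin.castLE_injective hc).injOn, cap_castLE]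
        simpa [cap_castLE] using h
      · right; right
        refine ⟨?_, fun x hx hxi => ?_⟩
        · rw [hlt, Finset.card_image_of_injective _ (Fin.castLE_injective hc)]
          exact h
        · obtain ⟨j, hj, rfl⟩ := Finset.mem_image.1 hx
          rw [cap_castLE, h2 j hj hxi]
  refine ⟨hilb I', adm_hilb (monotone_cap ha hN) (fun j => ?_) hI' hgood, fun d hd => ?_⟩
  · simp only [cap]
    split
    · exact ha1 _
    · exact hN1
  · exact hilb_sup_high hI hT hd

/-- Up to degree `N` the Hilbert function satisfies the growth condition, over every field. -/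
lemma exists_adm (hc : c ≤ n) {a : Fin c → ℕ} (ha : Monotone a) (ha1 : ∀ i, 1 ≤ a i)
    {I : Ideal (MvPolynomial (Fin n) K)} (hI : IsHom I) (h : SplitGrowingSeq a I) {N : ℕ}
    (hN : ∀ i, a i ≤ N) (hN1 : 1 ≤ N) :
    ∃ h', Box.Adm (cap (n := n) a N) h' ∧ ∀ d < N, h' d = hilb I d := by
  obtain ⟨h', hA, hd⟩ := exists_adm_closed hc ha ha1 (isHom_ext (L := AlgebraicClosure K) hI)
    (splitGrowingSeq_ext h) hN hN1
  exact ⟨h', hA, fun d hdN => (hd d hdN).trans (hilb_ext hI d)⟩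

/-- The lex-plus-powers ideal has the same Hilbert function. -/
theorem exists_lpp (hc : c ≤ n) {a : Fin c → ℕ} (ha : Monotone a) (ha1 : ∀ i, 1 ≤ a i)
    {I : Ideal (MvPolynomial (Fin n) K)} (hI : IsHom I) (h : SplitGrowingSeq a I) :
    ∃ D : Set (Fin n → ℕ), (∀ e ∈ D, ∀ i, e (Fin.castLE hc i) < a i) ∧
      (∀ e ∈ D, ∀ t : Fin n → ℕ, t ≤ e → t ∈ D) ∧
      (∀ e ∈ D, ∀ t : Fin n → ℕ, (∀ i, t (Fin.castLE hc i) < a i) → ∑ i, t i = ∑ i, e i →
        toLex t < toLex e → t ∈ D) ∧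
      IsHom (powersPlus K hc a D) ∧
      (∀ i, (X (Fin.castLE hc i)) ^ a i ∈ powersPlus K hc a D) ∧
      ∀ d, hilb (powersPlus K hc a D) d = hilb I d := by
  classical
  obtain ⟨N, hNm, hNa⟩ : ∃ N : ℕ → ℕ, (∀ m, m < N m) ∧ ∀ m i, a i ≤ N m :=
    ⟨fun m => ∑ i, a i + m + 1, fun m => Nat.lt_succ_of_le (Nat.le_add_left _ _), fun m i =>
      (Finset.single_le_sum (fun i _ => Nat.zero_le (a i)) (Finset.mem_univ i)).trans
        (Nat.le_succ_of_le (Nat.le_add_right _ _))⟩
  have hex : ∀ m, ∃ F : Finset (Fin n → ℕ), (∀ e ∈ F, ∀ j, e j < cap a (N m) j) ∧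
      (∀ e ∈ F, ∀ t : Fin n → ℕ, t ≤ e → t ∈ F) ∧
      (∀ e ∈ F, ∀ t : Fin n → ℕ, (∀ j, t j < cap a (N m) j) → ∑ i, t i = ∑ i, e i →
        toLex t < toLex e → t ∈ F) ∧
      ∀ d < N m, (F.filter fun e => ∑ i, e i = d).card = hilb I d := by
    intro m
    obtain ⟨h', hA, hd⟩ := exists_adm hc ha ha1 hI h (hNa m) (Nat.one_le_of_lt (hNm m))
    obtain ⟨F, h1, h2, h3, h4⟩ := Box.exists_complex (monotone_cap ha (hNa m)) hA
    exact ⟨F, h1, h2, h3, fun d hdN => (h4 d).trans (hd d hdN)⟩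
  choose F hbox hdown hseg hcard using hex
  have hagree : ∀ m m' d, d ≤ m → d ≤ m' →
      ((F m).filter fun e => ∑ i, e i = d) = (F m').filter fun e => ∑ i, e i = d := by
    intro m m' d hm hm'
    have := hNm m
    have := hNm m'
    have key : ∀ m'', d ≤ m'' → Box.Seg (cap a (N m)) d ((F m'').filter fun e => ∑ i, e i = d) := by
      intro m'' hm''
      have := hNm m''
      refine ⟨fun e he => ?_, fun s hs t ht hlt => ?_⟩
      · rw [Finset.mem_filter] at he
        refine Box.mem_lvl.2 ⟨he.2, (lt_cap_iff hc (by omega)).2 ?_⟩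
        exact (lt_cap_iff hc (by omega)).1 (hbox m'' e he.1)
      · rw [Finset.mem_filter] at hs
        obtain ⟨ht1, ht2⟩ := Box.mem_lvl.1 ht
        refine Finset.mem_filter.2 ⟨hseg m'' s hs.1 t ?_ (by omega) hlt, ht1⟩
        exact (lt_cap_iff hc (by omega)).2 ((lt_cap_iff hc (by omega)).1 ht2)
    have hc1 := hcard m d (by omega)
    have hc2 := hcard m' d (by omega)
    rcases (key m hm).total (key m' hm') with h | h
    · exact Finset.eq_of_subset_of_card_le h (by omega)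
    · exact (Finset.eq_of_subset_of_card_le h (by omega)).symm
  refine ⟨{e | e ∈ F (∑ i, e i)}, ?_, ?_, ?_, isHom_powersPlus hc a _, fun i => ?_, fun d => ?_⟩
  · exact fun e he => (lt_cap_iff hc (hNm _)).1 (hbox _ e he)
  · intro e he t hte
    have hle : ∑ i, t i ≤ ∑ i, e i := Finset.sum_le_sum fun i _ => hte i
    have h1 : t ∈ (F (∑ i, e i)).filter fun x => ∑ i, x i = ∑ i, t i :=
      Finset.mem_filter.2 ⟨hdown _ e he t hte, rfl⟩
    rw [hagree _ (∑ i, t i) _ hle le_rfl] at h1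
    exact (Finset.mem_filter.1 h1).1
  · intro e he t hta hsum hlt
    show t ∈ F (∑ i, t i)
    rw [hsum]
    exact hseg _ e he t ((lt_cap_iff hc (hsum ▸ hNm _)).2 hta) hsum hlt
  · refine Ideal.subset_span ⟨Finsupp.single (Fin.castLE hc i) (a i), Or.inl ⟨i, by simp⟩, ?_⟩
    simp [X_pow_eq_monomial]
  · have hsum : ((F d).filter fun e => ∑ i, e i = d).card = hilb I d := hcard d d (hNm d)
    rw [← hsum]
    refine hilb_powersPlus (fun e he => (lt_cap_iff hc (hNm _)).1 (hbox _ e he)) ?_ d _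
      fun e => ?_
    · intro e he t hte
      have hle : ∑ i, t i ≤ ∑ i, e i := Finset.sum_le_sum fun i _ => hte i
      have h1 : t ∈ (F (∑ i, e i)).filter fun x => ∑ i, x i = ∑ i, t i :=
        Finset.mem_filter.2 ⟨hdown _ e he t hte, rfl⟩
      rw [hagree _ (∑ i, t i) _ hle le_rfl] at h1
      exact (Finset.mem_filter.1 h1).1
    · rw [Finset.mem_filter]
      constructor
      · rintro ⟨h1, rfl⟩; exact ⟨rfl, h1⟩
      · rintro ⟨rfl, h1⟩; exact ⟨h1, rfl⟩

/-- The lex-plus-powers ideal exists when leading forms for some weight form such a sequence. -/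
theorem exists_lpp_weighted (hc : c ≤ n) {a : Fin c → ℕ} (ha : Monotone a) (ha1 : ∀ i, 1 ≤ a i)
    {I : Ideal (MvPolynomial (Fin n) K)} (hI : IsHom I) (w : Fin n → ℕ) (k : Fin c → ℕ)
    (f : Fin c → MvPolynomial (Fin n) K) (R : Finset (Fin c))
    (hf : ∀ i, f i ∈ I ∧ (f i).IsHomogeneous (a i) ∧ weightedTotalDegree w (f i) ≤ k i)
    (hreg : IsRegSeq a fun i => weightedHomogeneousComponent w (k i) (f i))
    (hR : ∀ i ∉ R, SplitForm (weightedHomogeneousComponent w (k i) (f i)) (a i))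
    (hRc : Grows a R) :
    ∃ D : Set (Fin n → ℕ), (∀ e ∈ D, ∀ i, e (Fin.castLE hc i) < a i) ∧
      (∀ e ∈ D, ∀ t : Fin n → ℕ, t ≤ e → t ∈ D) ∧
      (∀ e ∈ D, ∀ t : Fin n → ℕ, (∀ i, t (Fin.castLE hc i) < a i) → ∑ i, t i = ∑ i, e i →
        toLex t < toLex e → t ∈ D) ∧
      IsHom (powersPlus K hc a D) ∧
      (∀ i, (X (Fin.castLE hc i)) ^ a i ∈ powersPlus K hc a D) ∧
      ∀ d, hilb (powersPlus K hc a D) d = hilb I d := by
  obtain ⟨hL, hh⟩ := leadIdeal_spec w I
  obtain ⟨D, h1, h2, h3, h4, h5, h6⟩ := exists_lpp hc ha ha1 hL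
    ⟨_, R, hreg, fun i => mem_leadIdeal (hf i).2.1 (hf i).1 (hf i).2.2, hR, hRc⟩
  exact ⟨D, h1, h2, h3, h4, h5, fun d => (h6 d).trans (hh d)⟩

end Vale.Agent.P200
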